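import Crest.Agent.H0222.CycB

/-! Proof of `K2`. -/

set_option autoImplicit false

namespace Crest.Agent.H0222.Bx

open Finset

variable {d : ℕ}

/-- the closer of an orbit -/
noncomputable def cl (O : Finset (Cube d)) : Cube d :=
  if h : O.Nonempty then (trie O h).choose else fun _ => false

theorem cl_spec {O : Finset (Cube d)} (h : O.Nonempty) :
    cl O ∈ O ∧ 2 ^ (br O (cl O)).card ≤ O.card := by
  unfold cl
  rw [dif_pos h]
  exact (trie O h).choose_spec

/-- orbits contained in `U1` -/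
noncomputable def Orbs (ω : Bits d) (j : Fin d) (U : Finset (Cube d)) (ω' : Bits d) :
    Finset (Finset (Cube d)) :=
  ((U1 ω j U).filter (fun b => orb (sg ω j ω') b ⊆ U1 ω j U)).image (orb (sg ω j ω'))

theorem cyc_eq (ω : Bits d) (j : Fin d) (U : Finset (Cube d)) (ω' : Bits d) :
    cyc ω ω' j U = (Orbs ω j U ω').card := rfl

theorem orbs_spec {ω : Bits d} {j : Fin d} {U : Finset (Cube d)} {ω' : Bits d}
    {O : Finset (Cube d)} (h : O ∈ Orbs ω j U ω') :
    O.Nonempty ∧ O ⊆ U1 ω j U ∧ ∀ v ∈ O, orb (sg ω j ω') v = O := by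
  obtain ⟨b, hb, rfl⟩ := mem_image.1 h
  exact ⟨⟨b, self_mem_orb _ _⟩, (mem_filter.1 hb).2, fun v hv => (orb_eq (mem_orb.1 hv)).symm⟩

theorem long_le (ω : Bits d) (j : Fin d) (U : Finset (Cube d)) (ω' : Bits d) (L : ℕ) :
    ((Orbs ω j U ω').filter (fun O => ¬ O.card ≤ L)).card * L ≤ (U1 ω j U).card := by
  calc ((Orbs ω j U ω').filter (fun O => ¬ O.card ≤ L)).card * L
      = ∑ _O ∈ (Orbs ω j U ω').filter (fun O => ¬ O.card ≤ L), L := by
        rw [sum_const, smul_eq_mul]
    _ ≤ ∑ O ∈ (Orbs ω j U ω').filter (fun O => ¬ O.card ≤ L), O.card :=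
        sum_le_sum fun O hO => le_of_lt (not_le.1 (mem_filter.1 hO).2)
    _ = (((Orbs ω j U ω').filter (fun O => ¬ O.card ≤ L)).biUnion id).card := by
        refine (card_biUnion (t := id) ?_).symm
        intro O1 h1 O2 h2 hne
        refine disjoint_left.2 fun v a1 a2 => hne ?_
        rw [← (orbs_spec (mem_filter.1 (mem_coe.1 h1)).1).2.2 v a1,
          ← (orbs_spec (mem_filter.1 (mem_coe.1 h2)).1).2.2 v a2]
    _ ≤ (U1 ω j U).card := by
        refine card_le_card (biUnion_subset.2 fun O h => ?_)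
        exact (orbs_spec (mem_filter.1 h).1).2.1

theorem card_Wn (j : Fin d) (u : ℕ) (h : j.val + 32 * u < d) : (Wn j u).card = 32 * u := by
  have : Wn j u = Finset.Ioc j ⟨j.val + 32 * u, h⟩ := by
    ext i
    simp only [Wn, mem_filter, mem_univ, true_and, mem_Ioc, Fin.le_def]
  rw [this, Fin.card_Ioc]
  simp

theorem good_layers (ω' : Bits d) (j : Fin d) (u : ℕ) (h : j.val + 32 * u < d)
    {O : Finset (Cube d)} (hO : O.Nonempty) (hc : O.card ≤ 2 ^ (8 * u)) :
    24 * u ≤ ((Wn j u).filter (fun i => partner ω' i (cl O) ∉ O)).card := by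
  have h1 : (br O (cl O)).card ≤ 8 * u :=
    (Nat.pow_le_pow_iff_right (by norm_num)).1 ((cl_spec hO).2.trans hc)
  have h2 : (Wn j u).filter (fun i => ¬ partner ω' i (cl O) ∉ O) ⊆ br O (cl O) := by
    intro i hi
    have hi' : partner ω' i (cl O) ∈ O := not_not.1 (mem_filter.1 hi).2
    refine mem_filter.2 ⟨mem_univ _, _, hi', fun i' hi' => partner_lt _ _ hi', ?_⟩
    rw [partner_bit]; simp
  have h3 := card_filter_add_card_filter_not (s := Wn j u) (fun i => partner ω' i (cl O) ∉ O)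
  have h4 := card_le_card h2
  rw [card_Wn j u h] at h3
  omega

theorem card_Nset (ω : Bits d) (j : Fin d) (u : ℕ) (B : Finset (Cube d)) (ω' : Bits d) :
    (Nset ω j u B ω').card = (Fr ω j u B ω').card := by
  refine card_image_of_injOn ?_
  rintro ⟨i, b⟩ hq ⟨i', b'⟩ hq' h
  have e1 : i = i' := congrArg Prod.fst h
  subst e1
  have e2 : sw ω' i b = sw ω' i b' := congrArg Prod.snd h
  have hb' : b' ∈ B := (mem_product.1 (mem_filter.1 (mem_coe.1 hq')).1).2
  by_contra hne
  refine (mem_filter.1 (mem_coe.1 hq)).2 b' (orb_sub_I hb' (self_mem_orb _ _)) ?_ e2.symm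
  intro h'
  exact hne (by simp only at h'; rw [h'])

theorem exists_valid (ω : Bits d) (j : Fin d) (U : Finset (Cube d)) (ω' : Bits d) (u : ℕ)
    (h : j.val + 32 * u < d) :
    ∃ R ⊆ U1 ω j U, ∃ B ⊆ U1 ω j U, valid ω j R B ω' ∧
      2 * u * ((Orbs ω j U ω').filter (fun O => O.card ≤ 2 ^ (8 * u))).card +
        2 * u * (R.card + B.card) ≤ (Nset ω j u B ω').card := by
  classical
  obtain ⟨S, hS⟩ : ∃ S, S = (Orbs ω j U ω').filter (fun O => O.card ≤ 2 ^ (8 * u)) := ⟨_, rfl⟩
  rw [← hS]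
  have hSO : ∀ O ∈ S, O ∈ Orbs ω j U ω' := fun O hO => (mem_filter.1 (hS ▸ hO)).1
  have hSc : ∀ O ∈ S, O.card ≤ 2 ^ (8 * u) := fun O hO => by
    rw [hS] at hO; exact (mem_filter.1 hO).2
  have hcl : ∀ O ∈ S, cl O ∈ O := fun O hO => (cl_spec (orbs_spec (hSO O hO)).1).1
  have horb : ∀ O ∈ S, orb (sg ω j ω') (cl O) = O := fun O hO =>
    (orbs_spec (hSO O hO)).2.2 _ (hcl O hO)
  obtain ⟨P, hP⟩ : ∃ P : Finset (Finset (Cube d) × Fin d),
      P = (S ×ˢ Wn j u).filter (fun k => partner ω' k.2 (cl k.1) ∉ k.1) := ⟨_, rfl⟩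
  have hPm : ∀ k ∈ P, (k.1 ∈ S ∧ k.2 ∈ Wn j u) ∧ partner ω' k.2 (cl k.1) ∉ k.1 := by
    intro k hk
    rw [hP] at hk
    exact ⟨mem_product.1 (mem_filter.1 hk).1, (mem_filter.1 hk).2⟩
  have hPcard : 24 * u * S.card ≤ P.card := by
    have : P.card = ∑ O ∈ S, ((Wn j u).filter (fun i => partner ω' i (cl O) ∉ O)).card := by
      rw [hP, card_filter, sum_product]
      refine sum_congr rfl fun O _ => ?_
      rw [card_filter]
    rw [this, mul_comm, ← smul_eq_mul, ← sum_const]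
    exact sum_le_sum fun O hO => good_layers ω' j u h (orbs_spec (hSO O hO)).1 (hSc O hO)
  obtain ⟨F, hF, hFc⟩ := avg S P Prod.fst (fun k => orb (sg ω j ω') (partner ω' k.2 (cl k.1)))
    (fun k hk => (hPm k hk).1.1)
    (fun k hk he => by
      have h0 := self_mem_orb (sg ω j ω') (partner ω' k.2 (cl k.1))
      have he' : orb (sg ω j ω') (partner ω' k.2 (cl k.1)) = k.1 := he
      rw [he'] at h0
      exact (hPm k hk).2 h0)
  have hBU : F.image cl ⊆ U1 ω j U := by
    intro b hb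
    obtain ⟨O, hO, rfl⟩ := mem_image.1 hb
    exact (orbs_spec (hSO O (hF hO))).2.1 (hcl O (hF hO))
  have hbit : ∀ b ∈ F.image cl, b j = true := fun b hb => (mem_filter.1 (hBU hb)).2.1
  refine ⟨(F.image cl).image (sg ω j ω'), ?_, F.image cl, hBU, ⟨hbit, rfl, ?_⟩, ?_⟩
  · intro r hr
    obtain ⟨b, hb, rfl⟩ := mem_image.1 hr
    obtain ⟨O, hO, rfl⟩ := mem_image.1 hb
    refine (orbs_spec (hSO O (hF hO))).2.1 ?_
    have := apply_mem_orb (self_mem_orb (sg ω j ω') (cl O))
    rwa [horb O (hF hO)] at this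
  · intro b hb b' hb' hs
    obtain ⟨O, hO, rfl⟩ := mem_image.1 hb
    obtain ⟨O', hO', rfl⟩ := mem_image.1 hb'
    have := orb_eq hs
    rw [horb O (hF hO), horb O' (hF hO')] at this
    rw [this]
  · have hM : (P.filter (fun k => k.1 ∈ F ∧
        orb (sg ω j ω') (partner ω' k.2 (cl k.1)) ∉ F)).card ≤
        (Fr ω j u (F.image cl) ω').card := by
      refine card_le_card_of_injOn (fun k => (k.2, cl k.1)) ?_ ?_
      · rintro ⟨O, i⟩ hk
        obtain ⟨hk1, hk2, hk3⟩ := mem_filter.1 (mem_coe.1 hk)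
        have hiW : i ∈ Wn j u := (hPm _ hk1).1.2
        have hji : j < i := (mem_filter.1 hiW).2.1
        refine mem_coe.2 (mem_filter.2 ⟨mem_product.2 ⟨hiW, mem_image_of_mem _ hk2⟩, ?_⟩)
        intro v hv hne hsw
        have hvp : partner ω' i (cl O) = v := (partner_eq_iff _ _ _ _).2 ⟨hsw, hne⟩
        obtain ⟨b, hb, hvb⟩ := mem_biUnion.1 hv
        have hvj : v j = true := by
          rw [← hvp, partner_lt _ _ hji]
          exact hbit _ (mem_image_of_mem _ hk2)
        rcases mem_union.1 hvb with hvb | hvb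
        · obtain ⟨O', hO', rfl⟩ := mem_image.1 hb
          refine hk3 ?_
          simp only
          rw [hvp, ← orb_eq (mem_orb.1 hvb), horb O' (hF hO')]
          exact hO'
        · obtain ⟨w, hw, rfl⟩ := mem_image.1 hvb
          rw [partner_bit, orb_bit hw, hbit b hb] at hvj
          simp at hvj
      · rintro ⟨O, i⟩ hk ⟨O', i'⟩ hk' he
        have hO : O ∈ S := hF (mem_filter.1 (mem_coe.1 hk)).2.1
        have hO' : O' ∈ S := hF (mem_filter.1 (mem_coe.1 hk')).2.1
        have e1 : i = i' := congrArg Prod.fst he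
        have e2 : cl O = cl O' := congrArg Prod.snd he
        have e3 : O = O' := by rw [← horb O hO, ← horb O' hO', e2]
        rw [e1, e3]
    rw [card_Nset]
    have c1 : (F.image cl).card ≤ S.card := card_image_le.trans (card_le_card hF)
    have c2 : ((F.image cl).image (sg ω j ω')).card ≤ S.card := card_image_le.trans c1
    have c3 : 2 * u * (((F.image cl).image (sg ω j ω')).card + (F.image cl).card) ≤
        2 * u * (S.card + S.card) := Nat.mul_le_mul_left _ (Nat.add_le_add c2 c1)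
    nlinarith

theorem sum_powerset_pow {α : Type} [DecidableEq α] (s : Finset α) (z : ℝ) :
    ∑ R ∈ s.powerset, z ^ R.card = (1 + z) ^ s.card := by
  have := Finset.prod_one_add (s := s) (f := fun _ => z)
  simp only [prod_const] at this
  exact this.symm

open Classical in
theorem short_bound (ω ω0 : Bits d) (j : Fin d) (U : Finset (Cube d)) {u t : ℕ}
    (ht : j.val + 32 * u < t) (htd : t ≤ d) :
    ∑ ω' ∈ cls ω0 t,
      (2 : ℝ) ^ (2 * u * ((Orbs ω j U ω').filter (fun O => O.card ≤ 2 ^ (8 * u))).card) ≤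
      ((cls ω0 t).card : ℝ) * (1 + 1 / 4 ^ u) ^ (2 * (U1 ω j U).card) := by
  obtain ⟨z, hz⟩ : ∃ z : ℝ, z = 1 / 4 ^ u := ⟨_, rfl⟩
  have hz0 : 0 ≤ z := by rw [hz]; positivity
  rw [← hz]
  have h1 : ∀ ω' ∈ cls ω0 t,
      (2 : ℝ) ^ (2 * u * ((Orbs ω j U ω').filter (fun O => O.card ≤ 2 ^ (8 * u))).card) ≤
      ∑ R ∈ (U1 ω j U).powerset, ∑ B ∈ (U1 ω j U).powerset,
        if valid ω j R B ω' then z ^ R.card * z ^ B.card * 2 ^ (Nset ω j u B ω').card else 0 := by
    intro ω' _
    obtain ⟨R, hR, B, hB, hv, hc⟩ := exists_valid ω j U ω' u (by omega)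
    have nn : ∀ R B : Finset (Cube d), (0 : ℝ) ≤
        if valid ω j R B ω' then z ^ R.card * z ^ B.card * 2 ^ (Nset ω j u B ω').card else 0 := by
      intro R B; split_ifs
      · positivity
      · exact le_rfl
    refine le_trans ?_ (single_le_sum (f := fun R => ∑ B ∈ (U1 ω j U).powerset,
        if valid ω j R B ω' then z ^ R.card * z ^ B.card * 2 ^ (Nset ω j u B ω').card else 0)
        (fun R _ => sum_nonneg fun B _ => nn R B) (mem_powerset.2 hR))
    refine le_trans ?_ (single_le_sum (f := fun B =>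
        if valid ω j R B ω' then z ^ R.card * z ^ B.card * 2 ^ (Nset ω j u B ω').card else 0)
        (fun B _ => nn R B) (mem_powerset.2 hB))
    rw [if_pos hv]
    have e : z ^ R.card * z ^ B.card = 1 / 2 ^ (2 * u * (R.card + B.card)) := by
      rw [← pow_add, hz, div_pow, one_pow, ← pow_mul, mul_assoc 2, pow_mul (2 : ℝ) 2]
      norm_num
    rw [e, one_div_mul_eq_div, le_div_iff₀ (by positivity), ← pow_add]
    exact pow_le_pow_right₀ (by norm_num) hc
  refine (sum_le_sum h1).trans ?_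
  rw [sum_comm]
  have h2 : ∀ R ∈ (U1 ω j U).powerset, ∑ ω' ∈ cls ω0 t, ∑ B ∈ (U1 ω j U).powerset,
      (if valid ω j R B ω' then z ^ R.card * z ^ B.card * 2 ^ (Nset ω j u B ω').card else 0) ≤
      ∑ B ∈ (U1 ω j U).powerset, z ^ R.card * z ^ B.card * (cls ω0 t).card := by
    intro R _
    rw [sum_comm]
    refine sum_le_sum fun B _ => ?_
    rw [← sum_filter, ← mul_sum]
    refine mul_le_mul_of_nonneg_left ?_ (by positivity)
    exact_mod_cast sum_valid_le ω ω0 j ht R B
  refine (sum_le_sum h2).trans (le_of_eq ?_)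
  simp only [← sum_mul, ← mul_sum, sum_powerset_pow]
  ring

theorem num_aux (u : ℕ) (hu : 1 ≤ u) : 8 * u ≤ 64 ^ u := by
  induction u, hu using Nat.le_induction with
  | base => norm_num
  | succ n hn ih => rw [pow_succ]; omega

theorem long_bound (u N m : ℕ) (hu : 1 ≤ u) (h : m * 2 ^ (8 * u) ≤ N) :
    (2 : ℝ) ^ (2 * u * m) ≤ Real.exp ((N : ℝ) * (1 / 4) / 4 ^ u) := by
  have h2 : (2 : ℝ) ≤ Real.exp 1 := by
    have := Real.add_one_le_exp (1 : ℝ); linarith
  calc (2 : ℝ) ^ (2 * u * m) ≤ (Real.exp 1) ^ (2 * u * m) := pow_le_pow_left₀ (by norm_num) h2 _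
    _ = Real.exp ((2 * u * m : ℕ) : ℝ) := by rw [← Real.exp_nat_mul, mul_one]
    _ ≤ _ := by
      refine Real.exp_le_exp.2 ?_
      rw [le_div_iff₀ (by positivity)]
      have e : 2 ^ (8 * u) = 64 ^ u * 4 ^ u := by
        rw [← mul_pow, pow_mul]; norm_num
      have h3 : 8 * u * 4 ^ u * m ≤ N := by
        calc 8 * u * 4 ^ u * m ≤ 64 ^ u * 4 ^ u * m :=
              Nat.mul_le_mul_right _ (Nat.mul_le_mul_right _ (num_aux u hu))
          _ = m * 2 ^ (8 * u) := by rw [e, mul_comm]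
          _ ≤ N := h
      have h4 : (8 * u * 4 ^ u * m : ℝ) ≤ N := by exact_mod_cast h3
      push_cast
      linarith

end Crest.Agent.H0222.Bx

namespace Crest.Agent.H0222

open Finset Bx

theorem k2 : K2 := by
  intro d ω ω0 j U u t hu ht htd
  classical
  have h1 : ∀ ω' ∈ cls ω0 t, (2 : ℝ) ^ (2 * u * cyc ω ω' j U) ≤
      Real.exp (((U1 ω j U).card : ℝ) * (1 / 4) / 4 ^ u) *
        (2 : ℝ) ^ (2 * u * ((Orbs ω j U ω').filter (fun O => O.card ≤ 2 ^ (8 * u))).card) := by
    intro ω' _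
    rw [cyc_eq, ← card_filter_add_card_filter_not (s := Orbs ω j U ω')
      (fun O => O.card ≤ 2 ^ (8 * u)), mul_add, pow_add, mul_comm]
    exact mul_le_mul_of_nonneg_right (long_bound u _ _ hu (long_le ω j U ω' _)) (by positivity)
  refine (sum_le_sum h1).trans ?_
  rw [← mul_sum]
  have h2 := short_bound ω ω0 j U ht htd
  have h3 : (1 + 1 / 4 ^ u : ℝ) ^ (2 * (U1 ω j U).card) ≤
      Real.exp (((U1 ω j U).card : ℝ) * 2 / 4 ^ u) := by
    have : (1 + 1 / 4 ^ u : ℝ) ≤ Real.exp (1 / 4 ^ u) := by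
      have := Real.add_one_le_exp (1 / 4 ^ u : ℝ); linarith
    refine (pow_le_pow_left₀ (by positivity) this _).trans (le_of_eq ?_)
    rw [← Real.exp_nat_mul]
    congr 1
    push_cast
    ring
  calc _ ≤ Real.exp (((U1 ω j U).card : ℝ) * (1 / 4) / 4 ^ u) * (((cls ω0 t).card : ℝ) *
        Real.exp (((U1 ω j U).card : ℝ) * 2 / 4 ^ u)) :=
        mul_le_mul_of_nonneg_left
          (h2.trans (mul_le_mul_of_nonneg_left h3 (by positivity))) (by positivity)
    _ = _ := by
        rw [mul_left_comm, ← Real.exp_add]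
        congr 2
        ring

end Crest.Agent.H0222
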