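import Crest.Agent.H0222.Jobs

/-! Combinatorial lemmas for `K2`: the trie lemma, the averaging lemma, boxes. -/

set_option autoImplicit false

namespace Crest.Agent.H0222.Bx

open Finset

/-- branching layers of `b` inside `O` -/
def br {d : ℕ} (O : Finset (Cube d)) (b : Cube d) : Finset (Fin d) :=
  univ.filter (fun i => ∃ b' ∈ O, (∀ i', i' < i → b' i' = b i') ∧ b' i ≠ b i)

theorem trie {d : ℕ} (O : Finset (Cube d)) (h : O.Nonempty) :
    ∃ b ∈ O, 2 ^ (br O b).card ≤ O.card := by
  induction O using Finset.strongInduction with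
  | H O ih =>
    classical
    set S : Finset (Fin d) := univ.filter (fun i => ∃ a ∈ O, ∃ a' ∈ O, a i ≠ a' i) with hS
    by_cases hSe : S.Nonempty
    · set i0 := S.min' hSe with hi0
      have hmem : i0 ∈ S := S.min'_mem hSe
      obtain ⟨a, ha, a', ha', hne⟩ := (mem_filter.1 hmem).2
      have key : ∀ c : Bool, (O.filter (fun v => v i0 = c)).Nonempty ∧
          O.filter (fun v => v i0 = c) ⊂ O := by
        intro c
        have h1 : a i0 = c ∨ a' i0 = c := by
          revert hne; cases a i0 <;> cases a' i0 <;> cases c <;> simp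
        have h2 : a i0 ≠ c ∨ a' i0 ≠ c := by
          revert hne; cases a i0 <;> cases a' i0 <;> cases c <;> simp
        refine ⟨?_, ?_⟩
        · rcases h1 with h1 | h1
          · exact ⟨a, mem_filter.2 ⟨ha, h1⟩⟩
          · exact ⟨a', mem_filter.2 ⟨ha', h1⟩⟩
        · refine Finset.filter_ssubset.2 ?_
          rcases h2 with h2 | h2
          · exact ⟨a, ha, h2⟩
          · exact ⟨a', ha', h2⟩
      have hsum : (O.filter (fun v => v i0 = true)).card +
          (O.filter (fun v => v i0 = false)).card = O.card := by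
        have := Finset.card_filter_add_card_filter_not (s := O) (fun v => v i0 = true)
        simpa using this
      obtain ⟨c, hc⟩ : ∃ c : Bool, 2 * (O.filter (fun v => v i0 = c)).card ≤ O.card := by
        by_cases hle : (O.filter (fun v => v i0 = true)).card ≤
            (O.filter (fun v => v i0 = false)).card
        · exact ⟨true, by omega⟩
        · exact ⟨false, by omega⟩
      obtain ⟨b, hb, hbr⟩ := ih _ (key c).2 (key c).1
      have hbO : b ∈ O := (mem_filter.1 hb).1
      have hbc : b i0 = c := (mem_filter.1 hb).2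
      refine ⟨b, hbO, ?_⟩
      have hsub : br O b ⊆ insert i0 (br (O.filter (fun v => v i0 = c)) b) := by
        intro i hi
        obtain ⟨b', hb', h1, h2⟩ := (mem_filter.1 hi).2
        have hiS : i ∈ S := mem_filter.2 ⟨mem_univ _, b', hb', b, hbO, h2⟩
        have hle : i0 ≤ i := S.min'_le i hiS
        rcases eq_or_lt_of_le hle with h | h
        · rw [← h]; exact mem_insert_self _ _
        · refine mem_insert_of_mem (mem_filter.2 ⟨mem_univ _, b', ?_, h1, h2⟩)
          exact mem_filter.2 ⟨hb', by rw [h1 i0 h, hbc]⟩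
      have hcard : (br O b).card ≤ (br (O.filter (fun v => v i0 = c)) b).card + 1 :=
        (card_le_card hsub).trans (card_insert_le _ _)
      calc 2 ^ (br O b).card ≤ 2 ^ ((br (O.filter (fun v => v i0 = c)) b).card + 1) :=
            Nat.pow_le_pow_right (by norm_num) hcard
        _ = 2 * 2 ^ (br (O.filter (fun v => v i0 = c)) b).card := by ring
        _ ≤ 2 * (O.filter (fun v => v i0 = c)).card := Nat.mul_le_mul_left _ hbr
        _ ≤ O.card := hc
    · obtain ⟨b, hb⟩ := h
      refine ⟨b, hb, ?_⟩
      have : br O b = ∅ := by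
        refine Finset.eq_empty_of_forall_notMem fun i hi => hSe ⟨i, ?_⟩
        obtain ⟨b', hb', _, h2⟩ := (mem_filter.1 hi).2
        exact mem_filter.2 ⟨mem_univ _, b', hb', b, hb, h2⟩
      rw [this, card_empty, pow_zero]
      exact card_pos.2 ⟨b, hb⟩

theorem count_sub {ι : Type} [DecidableEq ι] (S : Finset ι) (a o : ι) (ha : a ∈ S) (hne : o ≠ a) :
    2 ^ S.card ≤ 4 * (S.powerset.filter (fun F => a ∈ F ∧ o ∉ F)).card := by
  have h1 : ((S.erase a).erase o).powerset.card ≤
      (S.powerset.filter (fun F => a ∈ F ∧ o ∉ F)).card := by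
    refine card_le_card_of_injOn (fun F => insert a F) ?_ ?_
    · intro F hF
      have hF' : F ⊆ (S.erase a).erase o := mem_powerset.1 (mem_coe.1 hF)
      refine mem_coe.2 (mem_filter.2 ⟨mem_powerset.2 ?_, mem_insert_self _ _, ?_⟩)
      · refine insert_subset ha (hF'.trans ((erase_subset _ _).trans (erase_subset _ _)))
      · intro ho
        rcases mem_insert.1 ho with h | h
        · exact hne h
        · exact (notMem_erase o _) (hF' h)
    · intro F hF G hG hFG
      have hF' : F ⊆ (S.erase a).erase o := mem_powerset.1 (mem_coe.1 hF)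
      have hG' : G ⊆ (S.erase a).erase o := mem_powerset.1 (mem_coe.1 hG)
      have haF : a ∉ F := fun h => (notMem_erase a S) (erase_subset _ _ (hF' h))
      have haG : a ∉ G := fun h => (notMem_erase a S) (erase_subset _ _ (hG' h))
      have := congrArg (fun X => X.erase a) hFG
      simpa [erase_insert haF, erase_insert haG] using this
  rw [card_powerset] at h1
  have h2 : S.card ≤ ((S.erase a).erase o).card + 2 := by
    have e1 := pred_card_le_card_erase (s := S) (a := a)
    have e2 := pred_card_le_card_erase (s := S.erase a) (a := o)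
    omega
  calc 2 ^ S.card ≤ 2 ^ (((S.erase a).erase o).card + 2) := Nat.pow_le_pow_right (by norm_num) h2
    _ = 4 * 2 ^ ((S.erase a).erase o).card := by ring
    _ ≤ _ := Nat.mul_le_mul_left _ h1

theorem avg {ι κ : Type} [DecidableEq ι] (S : Finset ι) (P : Finset κ) (src o : κ → ι)
    (h1 : ∀ k ∈ P, src k ∈ S) (h2 : ∀ k ∈ P, o k ≠ src k) :
    ∃ F ⊆ S, P.card ≤ 4 * (P.filter (fun k => src k ∈ F ∧ o k ∉ F)).card := by
  by_contra hcon
  push Not at hcon
  have hlt : ∑ F ∈ S.powerset, 4 * (P.filter (fun k => src k ∈ F ∧ o k ∉ F)).card <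
      ∑ _F ∈ S.powerset, P.card :=
    sum_lt_sum_of_nonempty ⟨∅, empty_mem_powerset _⟩ (fun F hF => hcon F (mem_powerset.1 hF))
  have hswap : ∑ F ∈ S.powerset, (P.filter (fun k => src k ∈ F ∧ o k ∉ F)).card =
      ∑ k ∈ P, (S.powerset.filter (fun F => src k ∈ F ∧ o k ∉ F)).card := by
    simp only [card_filter]
    exact sum_comm
  rw [← mul_sum, hswap, mul_sum, sum_const, card_powerset, smul_eq_mul] at hlt
  have : ∑ _k ∈ P, 2 ^ S.card ≤
      ∑ k ∈ P, 4 * (S.powerset.filter (fun F => src k ∈ F ∧ o k ∉ F)).card :=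
    sum_le_sum fun k hk => count_sub S _ _ (h1 k hk) (h2 k hk)
  rw [sum_const, smul_eq_mul, mul_comm] at this
  omega

/-- bit tables agreeing with `ω'` off `N` -/
def Box {d : ℕ} (N : Finset (Fin d × Cube d)) (ω' : Bits d) : Finset (Bits d) :=
  univ.filter (fun ω'' => ∀ i s, (i, s) ∉ N → ω'' i s = ω' i s)

theorem card_box {d : ℕ} (N : Finset (Fin d × Cube d)) (ω' : Bits d) :
    2 ^ N.card ≤ (Box N ω').card := by
  rw [← card_powerset]
  refine card_le_card_of_injOn
    (fun T => fun i s => if (i, s) ∈ T then !(ω' i s) else ω' i s) ?_ ?_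
  · intro T hT
    have hT' : T ⊆ N := mem_powerset.1 (mem_coe.1 hT)
    refine mem_coe.2 (mem_filter.2 ⟨mem_univ _, fun i s his => ?_⟩)
    have : (i, s) ∉ T := fun h => his (hT' h)
    simp [this]
  · intro T _ T' _ h
    ext ⟨i, s⟩
    have := congrFun (congrFun h i) s
    by_cases h1 : (i, s) ∈ T <;> by_cases h2 : (i, s) ∈ T' <;> simp_all

end Crest.Agent.H0222.Bx
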