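import Crest.Agent.H0222.CycA

/-! The box-disjointness claim for `K2`. -/

set_option autoImplicit false

namespace Crest.Agent.H0222.Bx

open Finset

variable {d : ℕ}

theorem mem_orb {α : Type} [Fintype α] [DecidableEq α] {σ : Equiv.Perm α} {b v : α} :
    v ∈ orb σ b ↔ σ.SameCycle b v := by simp [orb]

theorem self_mem_orb {α : Type} [Fintype α] [DecidableEq α] (σ : Equiv.Perm α) (b : α) :
    b ∈ orb σ b := mem_orb.2 (Equiv.Perm.SameCycle.refl _ _)

theorem apply_mem_orb {α : Type} [Fintype α] [DecidableEq α] {σ : Equiv.Perm α} {b v : α}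
    (h : v ∈ orb σ b) : σ v ∈ orb σ b :=
  mem_orb.2 (Equiv.Perm.sameCycle_apply_right.2 (mem_orb.1 h))

theorem orb_eq {α : Type} [Fintype α] [DecidableEq α] {σ : Equiv.Perm α} {b v : α}
    (h : σ.SameCycle b v) : orb σ b = orb σ v := by
  ext w
  rw [mem_orb, mem_orb]
  exact ⟨fun h' => h.symm.trans h', fun h' => h.trans h'⟩

theorem exists_pow_of_sameCycle {α : Type} [Fintype α] [DecidableEq α] {σ : Equiv.Perm α} {b v : α}
    (h : σ.SameCycle b v) : ∃ n : ℕ, (σ ^ n) b = v := by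
  obtain ⟨n, _, hn⟩ := h.exists_pow_eq'
  exact ⟨n, hn⟩

theorem sameCycle_pow {α : Type} (σ : Equiv.Perm α) (b : α) (n : ℕ) : σ.SameCycle b ((σ ^ n) b) :=
  ⟨n, by simp⟩

/-- the permutation whose cycles are counted -/
noncomputable def sg (ω : Bits d) (j : Fin d) (ω' : Bits d) : Equiv.Perm (Cube d) :=
  partner ω j * partner ω' j

theorem sg_apply (ω : Bits d) (j : Fin d) (ω' : Bits d) (v : Cube d) :
    sg ω j ω' v = partner ω j (partner ω' j v) := rfl

theorem partner_sg (ω : Bits d) (j : Fin d) (ω' : Bits d) (v : Cube d) :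
    partner ω j (sg ω j ω' v) = partner ω' j v := by
  rw [sg_apply, partner_partner]

theorem sg_bit (ω : Bits d) (j : Fin d) (ω' : Bits d) (v : Cube d) : sg ω j ω' v j = v j := by
  rw [sg_apply, partner_bit, partner_bit, Bool.not_not]

theorem sg_pow_bit (ω : Bits d) (j : Fin d) (ω' : Bits d) (v : Cube d) (n : ℕ) :
    (sg ω j ω' ^ n) v j = v j := by
  induction n with
  | zero => simp
  | succ n ih => rw [pow_succ', Equiv.Perm.mul_apply, sg_bit, ih]

theorem orb_bit {ω : Bits d} {j : Fin d} {ω' : Bits d} {b v : Cube d}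
    (h : v ∈ orb (sg ω j ω') b) : v j = b j := by
  obtain ⟨n, rfl⟩ := exists_pow_of_sameCycle (mem_orb.1 h)
  exact sg_pow_bit _ _ _ _ _

/-- all cards read when the cycles through `B` are revealed -/
noncomputable def Iset (ω : Bits d) (j : Fin d) (B : Finset (Cube d)) (ω' : Bits d) :
    Finset (Cube d) :=
  B.biUnion (fun b => orb (sg ω j ω') b ∪ (orb (sg ω j ω') b).image (partner ω j))

/-- the window of layers -/
def Wn (j : Fin d) (u : ℕ) : Finset (Fin d) :=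
  univ.filter (fun i => j < i ∧ i.val ≤ j.val + 32 * u)

/-- fresh pairs -/
noncomputable def Fr (ω : Bits d) (j : Fin d) (u : ℕ) (B : Finset (Cube d)) (ω' : Bits d) :
    Finset (Fin d × Cube d) :=
  (Wn j u ×ˢ B).filter (fun q => ∀ v ∈ Iset ω j B ω', v ≠ q.2 → sw ω' q.1 v ≠ sw ω' q.1 q.2)

/-- fresh switches -/
noncomputable def Nset (ω : Bits d) (j : Fin d) (u : ℕ) (B : Finset (Cube d)) (ω' : Bits d) :
    Finset (Fin d × Cube d) :=
  (Fr ω j u B ω').image (fun q => (q.1, sw ω' q.1 q.2))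

def valid (ω : Bits d) (j : Fin d) (R B : Finset (Cube d)) (ω' : Bits d) : Prop :=
  (∀ b ∈ B, b j = true) ∧ R = B.image (sg ω j ω') ∧
    ∀ b ∈ B, ∀ b' ∈ B, (sg ω j ω').SameCycle b b' → b = b'

theorem orb_sub_I {ω : Bits d} {j : Fin d} {B : Finset (Cube d)} {ω' : Bits d} {b v : Cube d}
    (hb : b ∈ B) (hv : v ∈ orb (sg ω j ω') b) : v ∈ Iset ω j B ω' :=
  mem_biUnion.2 ⟨b, hb, mem_union_left _ hv⟩

theorem partner_mem_I {ω : Bits d} {j : Fin d} {B : Finset (Cube d)} {ω' : Bits d} {b v : Cube d}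
    (hb : b ∈ B) (hv : v ∈ orb (sg ω j ω') b) : partner ω' j v ∈ Iset ω j B ω' := by
  refine mem_biUnion.2 ⟨b, hb, mem_union_right _ (mem_image.2 ⟨_, apply_mem_orb hv, ?_⟩)⟩
  exact partner_sg _ _ _ _

theorem partner_not_mem_B {ω : Bits d} {j : Fin d} {B : Finset (Cube d)} {ω' : Bits d}
    {b v : Cube d} (hB : ∀ b ∈ B, b j = true) (hb : b ∈ B) (hv : v ∈ orb (sg ω j ω') b) :
    partner ω' j v ∉ B := by
  intro h
  have h1 := hB _ h
  rw [partner_bit, orb_bit hv, hB b hb] at h1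
  simp at h1

theorem symm_eq_of_box {ω : Bits d} {j : Fin d} {u : ℕ} {B : Finset (Cube d)} {ω' ω'' : Bits d}
    (h : ω'' ∈ Box (Nset ω j u B ω') ω') {v : Cube d} (hv : v ∈ Iset ω j B ω') (hvB : v ∉ B) :
    (bf ω'').symm v = (bf ω').symm v := by
  refine symm_congr fun i => (mem_filter.1 h).2 i _ fun hmem => ?_
  obtain ⟨q, hq, hqe⟩ := mem_image.1 hmem
  obtain ⟨hq1, hq2⟩ := mem_filter.1 hq
  have hqB : q.2 ∈ B := (mem_product.1 hq1).2
  have e1 : q.1 = i := congrArg Prod.fst hqe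
  have e2 : sw ω' q.1 q.2 = sw ω' i v := congrArg Prod.snd hqe
  refine hq2 v hv (fun h => hvB (h ▸ hqB)) ?_
  rw [e2, e1]

theorem sw_eq_of_symm {ω1 ω2 : Bits d} {v : Cube d} (h : (bf ω1).symm v = (bf ω2).symm v)
    (i : Fin d) : sw ω1 i v = sw ω2 i v := by
  unfold sw; rw [h]

theorem sg_eq_of_box {ω : Bits d} {j : Fin d} {u : ℕ} {R B : Finset (Cube d)} {ω' ω'' : Bits d}
    (hval : valid ω j R B ω') (h : ω'' ∈ Box (Nset ω j u B ω') ω') {b w : Cube d} (hb : b ∈ B)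
    (hw : w ∈ orb (sg ω j ω') b) (hwB : w ∉ B) : sg ω j ω'' w = sg ω j ω' w := by
  have h1 := symm_eq_of_box h (orb_sub_I hb hw) hwB
  have h2 := symm_eq_of_box h (partner_mem_I hb hw) (partner_not_mem_B hval.1 hb hw)
  have : partner ω'' j w = partner ω' j w := by
    rw [partner_eq_iff]
    refine ⟨?_, partner_ne _ _ _⟩
    rw [sw_eq_of_symm h1, sw_eq_of_symm h2, sw_partner]
  rw [sg_apply, sg_apply, this]

theorem orb_agree {ω : Bits d} {j : Fin d} {u : ℕ} {R B : Finset (Cube d)} {ω1 ω2 ω'' : Bits d}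
    (hv1 : valid ω j R B ω1) (hv2 : valid ω j R B ω2)
    (h1 : ω'' ∈ Box (Nset ω j u B ω1) ω1) (h2 : ω'' ∈ Box (Nset ω j u B ω2) ω2)
    {b : Cube d} (hb : b ∈ B) :
    sg ω j ω1 b = sg ω j ω2 b ∧ orb (sg ω j ω1) b = orb (sg ω j ω2) b := by
  have hr : sg ω j ω1 b ∈ B.image (sg ω j ω2) := by
    rw [← hv2.2.1, hv1.2.1]; exact mem_image_of_mem _ hb
  obtain ⟨b2, hb2, hr2⟩ := mem_image.1 hr
  have hs1 : (sg ω j ω1).SameCycle b (sg ω j ω1 b) :=
    Equiv.Perm.sameCycle_apply_right.2 (Equiv.Perm.SameCycle.refl _ _)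
  have hs2 : (sg ω j ω2).SameCycle b2 (sg ω j ω1 b) := by
    rw [← hr2]; exact Equiv.Perm.sameCycle_apply_right.2 (Equiv.Perm.SameCycle.refl _ _)
  have hpow : ∀ n : ℕ, (sg ω j ω1 ^ n) (sg ω j ω1 b) = (sg ω j ω2 ^ n) (sg ω j ω1 b) := by
    intro n
    induction n with
    | zero => simp
    | succ n ih =>
      rw [pow_succ', pow_succ', Equiv.Perm.mul_apply, Equiv.Perm.mul_apply, ← ih]
      have m1 : (sg ω j ω1).SameCycle b ((sg ω j ω1 ^ n) (sg ω j ω1 b)) :=
        hs1.trans (sameCycle_pow _ _ _)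
      have m2 : (sg ω j ω2).SameCycle b2 ((sg ω j ω1 ^ n) (sg ω j ω1 b)) := by
        rw [ih]; exact hs2.trans (sameCycle_pow _ _ _)
      generalize (sg ω j ω1 ^ n) (sg ω j ω1 b) = w at m1 m2
      by_cases hwB : w ∈ B
      · have e1 : b = w := hv1.2.2 _ hb _ hwB m1
        have e2 : b2 = w := hv2.2.2 _ hb2 _ hwB m2
        rw [← e1]
        conv_rhs => rw [e1, ← e2]
        exact hr2.symm
      · rw [← sg_eq_of_box hv1 h1 hb (mem_orb.2 m1) hwB,
          ← sg_eq_of_box hv2 h2 hb2 (mem_orb.2 m2) hwB]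
  have horb : orb (sg ω j ω1) (sg ω j ω1 b) = orb (sg ω j ω2) (sg ω j ω1 b) := by
    ext w
    rw [mem_orb, mem_orb]
    constructor
    · intro h
      obtain ⟨n, rfl⟩ := exists_pow_of_sameCycle h
      rw [hpow]; exact sameCycle_pow _ _ _
    · intro h
      obtain ⟨n, rfl⟩ := exists_pow_of_sameCycle h
      rw [← hpow]; exact sameCycle_pow _ _ _
  have horb' : orb (sg ω j ω1) b = orb (sg ω j ω2) b2 := by
    rw [orb_eq hs1, orb_eq hs2, horb]
  have hbb : b2 = b := hv2.2.2 _ hb2 _ hb (mem_orb.1 (horb' ▸ self_mem_orb _ _))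
  subst hbb
  exact ⟨hr2.symm, horb'⟩

theorem box_disjoint {ω : Bits d} {j : Fin d} {u : ℕ} {R B : Finset (Cube d)}
    {ω1 ω2 ω'' : Bits d} (hv1 : valid ω j R B ω1) (hv2 : valid ω j R B ω2)
    (h1 : ω'' ∈ Box (Nset ω j u B ω1) ω1) (h2 : ω'' ∈ Box (Nset ω j u B ω2) ω2) : ω1 = ω2 := by
  have hI : Iset ω j B ω1 = Iset ω j B ω2 := by
    unfold Iset
    refine biUnion_congr rfl fun b hb => ?_
    rw [(orb_agree hv1 hv2 h1 h2 hb).2]
  have hoff : ∀ v ∈ Iset ω j B ω1, v ∉ B → (bf ω1).symm v = (bf ω2).symm v := fun v hv hvB =>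
    (symm_eq_of_box h1 hv hvB).symm.trans (symm_eq_of_box h2 (hI ▸ hv) hvB)
  have hon : ∀ b ∈ B, ∀ i : Fin d, j < i → (bf ω1).symm b i = (bf ω2).symm b i := by
    intro b hb i hi
    have hp : partner ω1 j b = partner ω2 j b := by
      rw [← partner_sg ω j ω1, ← partner_sg ω j ω2, (orb_agree hv1 hv2 h1 h2 hb).1]
    have := hoff _ (partner_mem_I hb (self_mem_orb _ _))
      (partner_not_mem_B hv1.1 hb (self_mem_orb (sg ω j ω1) _))
    rw [← symm_partner_gt ω1 b hi, ← symm_partner_gt ω2 b hi, this, hp]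
  have hsw : ∀ v ∈ Iset ω j B ω1, ∀ i : Fin d, j < i → sw ω1 i v = sw ω2 i v := by
    intro v hv i hi
    by_cases hvB : v ∈ B
    · exact mix_congr (fun _ _ => rfl) (fun i' hi' => hon v hvB i' (hi.trans hi'))
    · exact sw_eq_of_symm (hoff v hv hvB) i
  have hBI : ∀ b ∈ B, b ∈ Iset ω j B ω1 := fun b hb => orb_sub_I hb (self_mem_orb _ _)
  have hFr : Fr ω j u B ω1 = Fr ω j u B ω2 := by
    unfold Fr
    refine filter_congr fun q hq => ?_
    have hq1 : j < q.1 := ((mem_filter.1 (mem_product.1 hq).1).2).1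
    have hq2 : q.2 ∈ B := (mem_product.1 hq).2
    rw [← hI]
    refine forall₂_congr fun v hv => ?_
    rw [hsw v hv _ hq1, hsw _ (hBI _ hq2) _ hq1]
  have hN : Nset ω j u B ω1 = Nset ω j u B ω2 := by
    unfold Nset
    rw [← hFr]
    refine image_congr fun q hq => ?_
    have hq' := (mem_filter.1 (mem_coe.1 hq)).1
    have hq1 : j < q.1 := ((mem_filter.1 (mem_product.1 hq').1).2).1
    have hq2 : q.2 ∈ B := (mem_product.1 hq').2
    simp only [hsw _ (hBI _ hq2) _ hq1]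
  funext i s
  by_cases hmem : (i, s) ∈ Nset ω j u B ω1
  · obtain ⟨q, hq, hqe⟩ := mem_image.1 hmem
    have hq' := (mem_filter.1 hq).1
    have hq1 : j < q.1 := ((mem_filter.1 (mem_product.1 hq').1).2).1
    have hq2 : q.2 ∈ B := (mem_product.1 hq').2
    have e1 : q.1 = i := congrArg Prod.fst hqe
    have e2 : sw ω1 q.1 q.2 = s := congrArg Prod.snd hqe
    have b1 := bit_eq ω1 q.1 q.2
    have b2 := bit_eq ω2 q.1 q.2
    rw [← hsw _ (hBI _ hq2) _ hq1, ← hon _ hq2 _ hq1] at b2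
    rw [e2] at b1 b2
    rw [← e1]
    have := b1.symm.trans b2
    simpa using this
  · rw [← (mem_filter.1 h1).2 i s hmem, ← (mem_filter.1 h2).2 i s (hN ▸ hmem)]

theorem box_sub_cls {ω ω0 : Bits d} {j : Fin d} {u t : ℕ} (ht : j.val + 32 * u < t)
    {B : Finset (Cube d)} {ω' : Bits d} (h : ω' ∈ cls ω0 t) :
    Box (Nset ω j u B ω') ω' ⊆ cls ω0 t := by
  intro ω'' h''
  refine mem_filter.2 ⟨mem_univ _, fun i hi => ?_⟩
  rw [← (mem_filter.1 h).2 i hi]
  funext s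
  refine (mem_filter.1 h'').2 i s fun hmem => ?_
  obtain ⟨q, hq, hqe⟩ := mem_image.1 hmem
  have hq' := (mem_filter.1 hq).1
  have hq1 : q.1.val ≤ j.val + 32 * u := ((mem_filter.1 (mem_product.1 hq').1).2).2
  have e1 : q.1 = i := congrArg Prod.fst hqe
  rw [e1] at hq1
  omega

open Classical in
theorem sum_valid_le (ω ω0 : Bits d) (j : Fin d) {u t : ℕ} (ht : j.val + 32 * u < t)
    (R B : Finset (Cube d)) :
    ∑ ω' ∈ (cls ω0 t).filter (fun ω' => valid ω j R B ω'), 2 ^ (Nset ω j u B ω').card ≤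
      (cls ω0 t).card := by
  calc ∑ ω' ∈ (cls ω0 t).filter (fun ω' => valid ω j R B ω'), 2 ^ (Nset ω j u B ω').card
      ≤ ∑ ω' ∈ (cls ω0 t).filter (fun ω' => valid ω j R B ω'),
          (Box (Nset ω j u B ω') ω').card := sum_le_sum fun ω' _ => card_box _ _
    _ = (((cls ω0 t).filter (fun ω' => valid ω j R B ω')).biUnion
          (fun ω' => Box (Nset ω j u B ω') ω')).card := by
        refine (card_biUnion ?_).symm
        intro ω1 h1 ω2 h2 hne
        refine disjoint_left.2 fun ω'' a1 a2 => hne ?_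
        exact box_disjoint (mem_filter.1 (mem_coe.1 h1)).2 (mem_filter.1 (mem_coe.1 h2)).2 a1 a2
    _ ≤ (cls ω0 t).card := by
        refine card_le_card (biUnion_subset.2 fun ω' h => ?_)
        exact box_sub_cls ht (mem_filter.1 h).1

end Crest.Agent.H0222.Bx
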