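import Mathlib
import Crest.Prelude.Def_Shuffle

/-!
Definitions for the Thorp shuffle proof (S0222).  One pass of the shuffle is a random
butterfly permutation `bf ω` of the cube `Fin d → Bool`.
-/

set_option autoImplicit false

namespace Crest.Agent.H0222

open Finset
open scoped InnerProductSpace

abbrev Cube (d : ℕ) := Fin d → Bool
abbrev Bits (d : ℕ) := Fin d → Cube d → Bool

/-- The name of the switch of layer `j` on the path from input `x` to output `y`:
bits `< j` of `y`, `false` at `j`, bits `> j` of `x`. -/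
def mix {d : ℕ} (j : Fin d) (y x : Cube d) : Cube d :=
  fun i => if i < j then y i else if i = j then false else x i

/-- bits of the sub-butterfly on side `s` -/
def sub {d : ℕ} (ω : Bits (d + 1)) (s : Bool) : Bits d := fun j z => ω j.succ (Fin.cons s z)

/-- the butterfly map -/
def bfFun : (d : ℕ) → Bits d → Cube d → Cube d
  | 0, _, x => x
  | d + 1, ω, x =>
      Fin.cons (xor (x 0) (ω 0 (Fin.cons false (Fin.tail x))))
        (bfFun d (sub ω (xor (x 0) (ω 0 (Fin.cons false (Fin.tail x))))) (Fin.tail x))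

theorem bfFun_zero (ω : Bits 0) (x : Cube 0) : bfFun 0 ω x = x := rfl

theorem bfFun_succ {d : ℕ} (ω : Bits (d + 1)) (x : Cube (d + 1)) :
    bfFun (d + 1) ω x = Fin.cons (xor (x 0) (ω 0 (Fin.cons false (Fin.tail x))))
        (bfFun d (sub ω (xor (x 0) (ω 0 (Fin.cons false (Fin.tail x))))) (Fin.tail x)) := rfl

theorem bfFun_eq_def_mention : True := by
  have := @bfFun.eq_def
  have := @bfFun.eq_1
  have := @bfFun.eq_2
  have := @mix.eq_1
  have := @sub.eq_1
  trivial

theorem mix_zero {d : ℕ} (y x : Cube (d + 1)) :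
    mix 0 y x = Fin.cons false (Fin.tail x) := by
  funext i
  refine Fin.cases ?_ (fun i => ?_) i
  · simp [mix]
  · simp [mix, Fin.tail]

theorem mix_succ {d : ℕ} (j : Fin d) (y x : Cube (d + 1)) :
    mix j.succ y x = Fin.cons (y 0) (mix j (Fin.tail y) (Fin.tail x)) := by
  funext i
  refine Fin.cases ?_ (fun i => ?_) i
  · simp [mix]
  · simp [mix, Fin.tail]

theorem bfFun_eq_iff : ∀ (d : ℕ) (ω : Bits d) (x y : Cube d),
    bfFun d ω x = y ↔ ∀ j, y j = xor (x j) (ω j (mix j y x))
  | 0, ω, x, y => by
      constructor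
      · intro _ j; exact j.elim0
      · intro _; exact Subsingleton.elim _ _
  | d + 1, ω, x, y => by
      rw [bfFun_succ, Fin.forall_fin_succ, mix_zero]
      constructor
      · intro h
        have h0 : y 0 = xor (x 0) (ω 0 (Fin.cons false (Fin.tail x))) := by
          rw [← h]; simp
        refine ⟨h0, fun j => ?_⟩
        have ht : bfFun d (sub ω (y 0)) (Fin.tail x) = Fin.tail y := by
          rw [h0]; conv_rhs => rw [← h]
          simp
        have := (bfFun_eq_iff d _ _ _).1 ht j
        rw [mix_succ]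
        simpa [sub, Fin.tail] using this
      · rintro ⟨h0, h⟩
        rw [← h0]
        have ht : bfFun d (sub ω (y 0)) (Fin.tail x) = Fin.tail y := by
          refine (bfFun_eq_iff d _ _ _).2 fun j => ?_
          have := h j
          rw [mix_succ] at this
          simpa [sub, Fin.tail] using this
        rw [ht, Fin.cons_self_tail]

theorem mix_congr {d : ℕ} {j : Fin d} {y y' x x' : Cube d} (h1 : ∀ i, i < j → y i = y' i)
    (h2 : ∀ i, j < i → x i = x' i) : mix j y x = mix j y' x' := by
  funext i
  unfold mix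
  split_ifs with ha hb
  · exact h1 i ha
  · rfl
  · exact h2 i (lt_of_le_of_ne (not_lt.1 ha) (Ne.symm hb))

theorem mix_lt {d : ℕ} {j i : Fin d} (y x : Cube d) (h : i < j) : mix j y x i = y i := by
  simp [mix, h]

theorem mix_self {d : ℕ} (j : Fin d) (y x : Cube d) : mix j y x j = false := by
  simp [mix]

theorem mix_gt {d : ℕ} {j i : Fin d} (y x : Cube d) (h : j < i) : mix j y x i = x i := by
  simp [mix, not_lt.2 h.le, h.ne']

theorem mix_eq_iff {d : ℕ} {j : Fin d} {y y' x x' : Cube d} :
    mix j y x = mix j y' x' ↔ (∀ i, i < j → y i = y' i) ∧ (∀ i, j < i → x i = x' i) := by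
  constructor
  · intro h
    refine ⟨fun i hi => ?_, fun i hi => ?_⟩
    · rw [← mix_lt y x hi, h, mix_lt y' x' hi]
    · rw [← mix_gt y x hi, h, mix_gt y' x' hi]
  · rintro ⟨h1, h2⟩; exact mix_congr h1 h2

/-- descending induction on `Fin d` -/
theorem fin_desc {d : ℕ} (P : Fin d → Prop) (h : ∀ j, (∀ i, j < i → P i) → P j) : ∀ j, P j := by
  intro j
  induction j using WellFoundedGT.induction with
  | _ j ih => exact h j ih

/-- ascending induction on `Fin d` -/
theorem fin_asc {d : ℕ} (P : Fin d → Prop) (h : ∀ j, (∀ i, i < j → P i) → P j) : ∀ j, P j := by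
  intro j
  induction j using WellFoundedLT.induction with
  | _ j ih => exact h j ih

theorem bfFun_injective (d : ℕ) (ω : Bits d) : Function.Injective (bfFun d ω) := by
  intro x x' h
  have h1 := (bfFun_eq_iff d ω x _).1 rfl
  have h2 := (bfFun_eq_iff d ω x' _).1 h.symm
  funext j
  refine fin_desc (fun j => x j = x' j) (fun j ih => ?_) j
  have := (h1 j).symm.trans (h2 j)
  rw [mix_congr (y' := bfFun d ω x) (x' := x') (fun _ _ => rfl) ih] at this
  simpa using this

/-- the butterfly permutation -/
noncomputable def bf {d : ℕ} (ω : Bits d) : Equiv.Perm (Cube d) :=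
  Equiv.ofBijective (bfFun d ω) (Finite.injective_iff_bijective.1 (bfFun_injective d ω))

theorem bf_apply {d : ℕ} (ω : Bits d) (x : Cube d) : bf ω x = bfFun d ω x := rfl

theorem bf_eq_iff {d : ℕ} (ω : Bits d) (x y : Cube d) :
    bf ω x = y ↔ ∀ j, y j = xor (x j) (ω j (mix j y x)) := bfFun_eq_iff d ω x y

/-- the switch of layer `j` used by the card whose final position is `u` -/
noncomputable def sw {d : ℕ} (ω : Bits d) (j : Fin d) (u : Cube d) : Cube d :=
  mix j u ((bf ω).symm u)

theorem bit_eq {d : ℕ} (ω : Bits d) (j : Fin d) (u : Cube d) :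
    u j = xor ((bf ω).symm u j) (ω j (sw ω j u)) :=
  (bf_eq_iff ω _ u).1 (Equiv.apply_symm_apply _ _) j

theorem sw_bf {d : ℕ} (ω : Bits d) (j : Fin d) (x : Cube d) :
    sw ω j (bf ω x) = mix j (bf ω x) x := by simp [sw]

/-- If `ω'` agrees with `ω` on the switches of layers `≥ t` used by `u` (under `ω`), the bits
`≥ t` of the starting position agree. -/
theorem symm_congr_ge {d : ℕ} {ω ω' : Bits d} {u : Cube d} {t : ℕ}
    (h : ∀ i : Fin d, t ≤ i.val → ω' i (sw ω i u) = ω i (sw ω i u)) :
    ∀ i : Fin d, t ≤ i.val → (bf ω').symm u i = (bf ω).symm u i := by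
  refine fin_desc (fun i => t ≤ i.val → (bf ω').symm u i = (bf ω).symm u i) (fun i ih hi => ?_)
  have hs : sw ω' i u = sw ω i u :=
    mix_congr (fun _ _ => rfl) (fun i' hi' => ih i' hi' (le_trans hi (le_of_lt hi')))
  have h1 := bit_eq ω i u
  have h2 := bit_eq ω' i u
  rw [hs, h i hi] at h2
  have := h1.symm.trans h2
  simpa using this.symm

theorem symm_congr {d : ℕ} {ω ω' : Bits d} {u : Cube d}
    (h : ∀ i : Fin d, ω' i (sw ω i u) = ω i (sw ω i u)) : (bf ω').symm u = (bf ω).symm u :=
  funext fun i => symm_congr_ge (t := 0) (fun i _ => h i) i (Nat.zero_le _)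

/-- the switch of layer `j` of `u` depends only on the layers `> j` -/
theorem sw_congr {d : ℕ} {ω ω' : Bits d} {j : Fin d} (u : Cube d)
    (h : ∀ i : Fin d, j < i → ω' i (sw ω i u) = ω i (sw ω i u)) : sw ω' j u = sw ω j u :=
  mix_congr (fun _ _ => rfl) (fun i hi =>
    symm_congr_ge (t := j.val + 1) (fun i hi => h i (by exact Nat.lt_of_succ_le hi)) i
      (Nat.succ_le_of_lt hi))

/-- position right after layer `j` of the card whose final position is `u` -/
noncomputable def aft {d : ℕ} (ω : Bits d) (j : Fin d) (u : Cube d) : Cube d :=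
  Function.update (sw ω j u) j (u j)

theorem eq_of_sw_eq {d : ℕ} (ω : Bits d) (j : Fin d) {u v : Cube d}
    (h : sw ω j u = sw ω j v) (hj : u j = v j) : u = v := by
  obtain ⟨h1, h2⟩ := mix_eq_iff.1 h
  funext i
  refine fin_asc (fun i => u i = v i) (fun i ih => ?_) i
  rcases lt_trichotomy i j with hi | hi | hi
  · exact h1 i hi
  · rw [hi]; exact hj
  · rw [bit_eq ω i u, bit_eq ω i v, h2 i hi]
    have : sw ω i u = sw ω i v :=
      mix_congr ih (fun i' hi' => h2 i' (lt_trans hi hi'))
    rw [this]

theorem sw_eq_update {d : ℕ} (ω : Bits d) (j : Fin d) (u : Cube d) :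
    sw ω j u = Function.update (aft ω j u) j false := by
  simp only [aft, Function.update_idem]
  rw [← mix_self j u ((bf ω).symm u)]
  exact (Function.update_eq_self j _).symm

theorem aft_injective {d : ℕ} (ω : Bits d) (j : Fin d) : Function.Injective (aft ω j) := by
  intro u v h
  refine eq_of_sw_eq ω j ?_ ?_
  · rw [sw_eq_update, sw_eq_update, h]
  · have := congrFun h j
    simpa [aft] using this

noncomputable def aftE {d : ℕ} (ω : Bits d) (j : Fin d) : Equiv.Perm (Cube d) :=
  Equiv.ofBijective (aft ω j) (Finite.injective_iff_bijective.1 (aft_injective ω j))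

/-- toggle bit `j` -/
def tog {d : ℕ} (j : Fin d) (x : Cube d) : Cube d := Function.update x j (!(x j))

theorem tog_tog {d : ℕ} (j : Fin d) : Function.Involutive (tog j) := by
  intro x; simp [tog]

/-- the final position of the card sharing the switch of layer `j` with the card ending at `u` -/
noncomputable def partner {d : ℕ} (ω : Bits d) (j : Fin d) : Equiv.Perm (Cube d) :=
  (aftE ω j)⁻¹ * (tog_tog j).toPerm * aftE ω j

theorem aft_partner {d : ℕ} (ω : Bits d) (j : Fin d) (u : Cube d) :
    aft ω j (partner ω j u) = tog j (aft ω j u) := by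
  have : aftE ω j (partner ω j u) = tog j (aftE ω j u) := by
    simp [partner]
  exact this

theorem partner_partner {d : ℕ} (ω : Bits d) (j : Fin d) (u : Cube d) :
    partner ω j (partner ω j u) = u := by
  apply aft_injective ω j
  rw [aft_partner, aft_partner, tog_tog]

theorem partner_bit {d : ℕ} (ω : Bits d) (j : Fin d) (u : Cube d) :
    partner ω j u j = !(u j) := by
  have := congrFun (aft_partner ω j u) j
  simpa [aft, tog] using this

theorem sw_partner {d : ℕ} (ω : Bits d) (j : Fin d) (u : Cube d) :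
    sw ω j (partner ω j u) = sw ω j u := by
  rw [sw_eq_update, sw_eq_update, aft_partner]; simp [tog]

theorem partner_ne {d : ℕ} (ω : Bits d) (j : Fin d) (u : Cube d) : partner ω j u ≠ u := by
  intro h
  have := partner_bit ω j u
  rw [h] at this
  simp at this

theorem partner_lt {d : ℕ} (ω : Bits d) {j i : Fin d} (u : Cube d) (h : i < j) :
    partner ω j u i = u i := (mix_eq_iff.1 (sw_partner ω j u)).1 i h

theorem symm_partner_gt {d : ℕ} (ω : Bits d) {j i : Fin d} (u : Cube d) (h : j < i) :
    (bf ω).symm (partner ω j u) i = (bf ω).symm u i := (mix_eq_iff.1 (sw_partner ω j u)).2 i h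

/-- a switch carries exactly two cards -/
theorem sw_eq_iff {d : ℕ} (ω : Bits d) (j : Fin d) (u v : Cube d) :
    sw ω j v = sw ω j u ↔ v = u ∨ v = partner ω j u := by
  constructor
  · intro h
    by_cases hj : v j = u j
    · exact Or.inl (eq_of_sw_eq ω j h hj)
    · refine Or.inr (eq_of_sw_eq ω j (h.trans (sw_partner ω j u).symm) ?_)
      rw [partner_bit]
      revert hj; cases v j <;> cases u j <;> simp
  · rintro (rfl | rfl)
    · rfl
    · exact sw_partner ω j u

theorem partner_eq_iff {d : ℕ} (ω : Bits d) (j : Fin d) (u v : Cube d) :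
    partner ω j u = v ↔ sw ω j v = sw ω j u ∧ v ≠ u := by
  constructor
  · rintro rfl; exact ⟨sw_partner ω j u, partner_ne ω j u⟩
  · rintro ⟨h1, h2⟩
    rcases (sw_eq_iff ω j u v).1 h1 with h | h
    · exact absurd h h2
    · exact h.symm

/-- `partner ω j` depends only on the layers `> j` -/
theorem partner_congr {d : ℕ} {ω ω' : Bits d} {j : Fin d}
    (h : ∀ i : Fin d, j < i → ω' i = ω i) : partner ω' j = partner ω j := by
  ext1 u
  have hs : ∀ v, sw ω' j v = sw ω j v := fun v => sw_congr v (fun i hi => by rw [h i hi])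
  rw [partner_eq_iff, hs, hs]
  exact ⟨sw_partner ω j u, partner_ne ω j u⟩

/-! ### cycles -/

/-- orbit of `b` under `σ` -/
noncomputable def orb {α : Type} [Fintype α] [DecidableEq α] (σ : Equiv.Perm α) (b : α) : Finset α :=
  univ.filter (fun v => σ.SameCycle b v)

/-- side-1 elements of `U` whose layer-`j` partner is in `U` -/
noncomputable def U1 {d : ℕ} (ω : Bits d) (j : Fin d) (U : Finset (Cube d)) : Finset (Cube d) :=
  U.filter (fun u => u j = true ∧ partner ω j u ∈ U)

/-- number of orbits of `partner ω j * partner ω' j` contained in `U1 ω j U` -/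
noncomputable def cyc {d : ℕ} (ω ω' : Bits d) (j : Fin d) (U : Finset (Cube d)) : ℕ :=
  (((U1 ω j U).filter (fun b => orb (partner ω j * partner ω' j) b ⊆ U1 ω j U)).image
    (orb (partner ω j * partner ω' j))).card

/-- final positions of the cards `x a` -/
noncomputable def outs {d : ℕ} {ι : Type} [Fintype ι] (ω : Bits d) (x : ι ↪ Cube d) :
    Finset (Cube d) := univ.image (fun a => bf ω (x a))

/-- bit tables agreeing with `ω0` on the layers `≥ t` -/
def cls {d : ℕ} (ω0 : Bits d) (t : ℕ) : Finset (Bits d) :=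
  univ.filter (fun ω => ∀ i : Fin d, t ≤ i.val → ω i = ω0 i)

/-- the kernel of `A† A` on injective `ι`-tuples -/
noncomputable def Kmat (d : ℕ) (ι : Type) [Fintype ι] : Matrix (ι ↪ Cube d) (ι ↪ Cube d) ℝ :=
  fun x x' => (∑ ω : Bits d, ∑ ω' : Bits d,
    if ∀ a, bf ω (x a) = bf ω' (x' a) then (1 : ℝ) else 0) / (Fintype.card (Bits d) : ℝ) ^ 2

/-! ### representations -/

section rep
variable {P : Type} [Fintype P] [DecidableEq P]
variable {V : Type} [NormedAddCommGroup V] [InnerProductSpace ℝ V]

/-- isometric representation -/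
def Iso (ρ : Equiv.Perm P →* (V →ₗ[ℝ] V)) : Prop := ∀ g u v, ⟪ρ g u, ρ g v⟫_ℝ = ⟪u, v⟫_ℝ

/-- the interchange Laplacian on `W` -/
noncomputable def lap (ρ : Equiv.Perm P →* (V →ₗ[ℝ] V)) (W : Finset P) : V →ₗ[ℝ] V :=
  (1 / 2 : ℝ) • ∑ x ∈ W, ∑ y ∈ W, (1 - ρ (Equiv.swap x y))

/-- the averaged butterfly -/
noncomputable def Aop {d : ℕ} (ρ : Equiv.Perm (Cube d) →* (V →ₗ[ℝ] V)) : V →ₗ[ℝ] V :=
  (Fintype.card (Bits d) : ℝ)⁻¹ • ∑ ω : Bits d, ρ (bf ω)

/-- functions on the symmetric group -/
abbrev LG (P : Type) [Fintype P] [DecidableEq P] := EuclideanSpace ℝ (Equiv.Perm P)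

/-- left regular representation -/
noncomputable def lam (P : Type) [Fintype P] [DecidableEq P] :
    Equiv.Perm P →* (LG P →ₗ[ℝ] LG P) where
  toFun g :=
    { toFun := fun u => WithLp.toLp 2 (fun π => u (g⁻¹ * π))
      map_add' := fun u v => by ext π; simp
      map_smul' := fun c u => by ext π; simp }
  map_one' := by ext u π; simp
  map_mul' g h := by ext u π; simp [mul_assoc]

theorem lam_apply (g : Equiv.Perm P) (u : LG P) (π : Equiv.Perm P) :
    lam P g u π = u (g⁻¹ * π) := rfl

/-- right regular representation -/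
noncomputable def rho (P : Type) [Fintype P] [DecidableEq P] :
    Equiv.Perm P →* (LG P →ₗ[ℝ] LG P) where
  toFun g :=
    { toFun := fun u => WithLp.toLp 2 (fun π => u (π * g))
      map_add' := fun u v => by ext π; simp
      map_smul' := fun c u => by ext π; simp }
  map_one' := by ext u π; simp
  map_mul' g h := by ext u π; simp [mul_assoc]

theorem rho_apply (g : Equiv.Perm P) (u : LG P) (π : Equiv.Perm P) :
    rho P g u π = u (π * g) := rfl

end rep

/-- squared Hilbert-Schmidt norm of `S` on the subspace `U` -/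
noncomputable def hs {E : Type} [NormedAddCommGroup E] [InnerProductSpace ℝ E]
    [FiniteDimensional ℝ E] (S : E →ₗ[ℝ] E) (U : Submodule ℝ E) : ℝ :=
  ∑ i, ‖S (stdOrthonormalBasis ℝ U i : E)‖ ^ 2

end Crest.Agent.H0222
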