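import Crest.Agent.H0222.Levels

/-! Final assembly. -/

set_option autoImplicit false
set_option linter.unusedSectionVars false

namespace Crest.Agent.H0222

open Finset Equiv
open scoped InnerProductSpace

variable {d : ℕ}

theorem choose_le_exp {n K : ℕ} (hK : 1 ≤ K) (hn : 1 ≤ n) :
    (n.choose K : ℝ) ≤ Real.exp (K * (1 + Real.log (n / K))) := by
  have hK' : (0 : ℝ) < K := by exact_mod_cast hK
  have hn' : (0 : ℝ) < n := by exact_mod_cast hn
  have h1 : (n.choose K : ℝ) ≤ (n : ℝ) ^ K / K.factorial := Nat.choose_le_pow_div K n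
  have h2 := Real.pow_div_factorial_le_exp (K : ℝ) hK'.le K
  have h3 : Real.exp (K * Real.log (n / K)) = ((n : ℝ) / K) ^ K := by
    rw [Real.exp_nat_mul, Real.exp_log (by positivity)]
  rw [mul_add, mul_one, Real.exp_add, h3]
  calc _ ≤ _ := h1
    _ = (K : ℝ) ^ K / K.factorial * ((n : ℝ) / K) ^ K := by rw [div_pow]; field_simp
    _ ≤ _ := mul_le_mul_of_nonneg_right h2 (by positivity)

theorem level_bound (t1 : T1) {k : ℕ} (θ B : ℝ) (hθ : 0 ≤ θ)
    (h : ∀ w ∈ Ws d k, ‖Aop (lam _) w‖ ^ 2 ≤ θ * ‖w‖ ^ 2)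
    (hB : ∀ (ι : Type) [Fintype ι], Fintype.card ι = k + 1 → (Kmat d ι ^ 128).trace ≤ B) :
    hs (Aop (lam (Cube d)) ^ 1600) (Ws d k) ≤ θ ^ 1472 * (((2 ^ d).choose (k + 1) : ℝ) * B) := by
  classical
  have := t1 _ (Aop (lam (Cube d))) (Ws d k) θ 1600 {J : Finset (Cube d) // J.card = k + 1}
    (fun J => (J.1 ↪ Cube d)) (fun J => Kmat d J.1)
    (fun J => marg (Function.Embedding.subtype (· ∈ J.1)))
    (Aop_mem fun g u hu => Ws_lam g hu) (adj_mem fun g u hu => Ws_lam g hu) hθ h (by norm_num)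
    (fun J => Kmat_symm _) (fun J w _ => marg_Q _ w) (fun w hw h0 => by
      refine inner_self_eq_zero.1 ((Submodule.mem_orthogonal' _ _).1 hw.2 w fun J hJ π0 => ?_)
      have h1 := mJ_eq_marg (Function.Embedding.subtype (· ∈ J)) w π0
      rw [h0 ⟨J, hJ⟩, univ_eq_attach, attach_map_val] at h1
      exact h1)
  rw [show 1600 - 128 = 1472 from rfl] at this
  refine this.trans (mul_le_mul_of_nonneg_left ?_ (pow_nonneg hθ _))
  refine (sum_le_sum fun J _ => hB J.1 (by rw [Fintype.card_coe, J.2])).trans ?_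
  rw [sum_const, card_univ, Fintype.card_finset_len, card_cube, nsmul_eq_mul]

theorem theta_mult (t2 : T2) (kt : KT) {k t : ℕ} (ht : 1 ≤ t)
    (hk : (k + 1) * t + (k + 1) ≤ 2 ^ d) (c : ℝ)
    (hc : Real.exp 70 * (((k : ℝ) + 1) * t) ^ 2 / (2 * 2 ^ d) - (k + 1) * Real.log t ≤ c) :
    ∀ w ∈ Ws d k, ‖Aop (lam _) w‖ ^ 2 ≤ Real.exp (c / 128) * ‖w‖ ^ 2 := by
  intro w hw
  have hsym := LinearMap.isSymmetric_adjoint_mul_self (Aop (lam (Cube d)))
  have := inner_le_of_eig hsym (Ws d k) (fun u hu =>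
    adj_mem (fun g u hu => Ws_lam g hu) _ (Aop_mem (fun g u hu => Ws_lam g hu) u hu))
    (Real.exp (c / 128)) (fun μ v hv hv0 hμ => ?_) w hw
  · rwa [Module.End.mul_apply, LinearMap.adjoint_inner_right, real_inner_self_eq_norm_sq] at this
  have h1 := (mult t2 hk hv hv0 hμ).trans (kt d _).2
  have ht' : (0 : ℝ) < t := by exact_mod_cast ht
  have h2 : (t : ℝ) ^ (k + 1) = Real.exp ((k + 1) * Real.log t) := by
    rw [show ((k : ℝ) + 1) = ((k + 1 : ℕ) : ℝ) by push_cast; ring, Real.exp_nat_mul,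
      Real.exp_log ht']
  have h3 : μ ^ 128 ≤ Real.exp (c / 128) ^ 128 := by
    rw [← Real.exp_nat_mul, show ((128 : ℕ) : ℝ) * (c / 128) = c by push_cast; ring]
    refine le_trans ?_ (Real.exp_le_exp.2 hc)
    rw [Real.exp_sub, le_div_iff₀ (Real.exp_pos _), mul_comm, ← h2]
    simpa using h1
  exact (abs_le.1 (abs_le_of_abs_le_pow h3)).2
where
  abs_le_of_abs_le_pow {μ e : ℝ} (h : μ ^ 128 ≤ Real.exp e ^ 128) : |μ| ≤ Real.exp e := by
    have h1 : |μ| ^ 128 ≤ Real.exp e ^ 128 := by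
      rwa [Even.pow_abs (by decide)]
    exact le_of_pow_le_pow_left₀ (by norm_num) (Real.exp_pos _).le h1

theorem term_bound (t1 : T1) (t2 : T2) (kt : KT) {k : ℕ} (hk : k + 1 ≤ 2 ^ d) :
    hs (Aop (lam (Cube d)) ^ 1600) (Ws d k) ≤
      Real.exp (-((k : ℝ) + 1)) * Real.exp (99 - 1 / 10 * Real.log (2 ^ d)) := by
  set K : ℝ := (k : ℝ) + 1 with hK
  set n : ℝ := 2 ^ d with hn
  have hK1 : 1 ≤ K := by rw [hK]; linarith [(Nat.cast_nonneg k : (0 : ℝ) ≤ k)]
  have hK0 : 0 < K := by linarith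
  have hn0 : 0 < n := by positivity
  have hKn : K ≤ n := by rw [hK, hn]; exact_mod_cast hk
  set L := Real.log (n / K) with hL
  have hL0 : 0 ≤ L := Real.log_nonneg (by rw [le_div_iff₀ hK0]; linarith)
  have hρ : K / n = Real.exp (-L) := by
    rw [Real.exp_neg, hL, Real.exp_log (by positivity), inv_div]
  have hlog : Real.log n = L + Real.log K := by
    rw [hL, Real.log_div hn0.ne' hK0.ne']; ring
  have hlK : Real.log K ≤ K - 1 := Real.log_le_sub_one_of_pos hK0
  have hlK0 : 0 ≤ Real.log K := Real.log_nonneg hK1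
  have hch : (((2 ^ d).choose (k + 1) : ℕ) : ℝ) ≤ Real.exp (K * (1 + L)) := by
    have := choose_le_exp (n := 2 ^ d) (K := k + 1) (by omega) Nat.one_le_two_pow
    simpa [hK, hn, hL] using this
  have hB1 : ∀ (ι : Type) [Fintype ι], Fintype.card ι = k + 1 →
      (Kmat d ι ^ 128).trace ≤ Real.exp (35 * K) := by
    intro ι _ h
    have := (kt d ι).1
    rw [h] at this; simpa [hK] using this
  have hB2 : 70 ≤ L → ∀ (ι : Type) [Fintype ι], Fintype.card ι = k + 1 →
      (Kmat d ι ^ 128).trace ≤ Real.exp (1 / 2 * K) := by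
    intro hL70 ι _ h
    have := (kt d ι).2
    rw [h] at this
    refine this.trans (Real.exp_le_exp.2 ?_)
    have h1 : Real.exp 70 * Real.exp (-L) ≤ 1 := by
      rw [← Real.exp_add]; exact Real.exp_le_one_iff.2 (by linarith)
    calc Real.exp 70 * ((k + 1 : ℕ) : ℝ) ^ 2 / (2 * 2 ^ d) = (Real.exp 70 * (K / n)) * (1 / 2 * K) := by
          push_cast; rw [← hK, ← hn]; field_simp
      _ ≤ 1 * (1 / 2 * K) := by rw [hρ]; exact mul_le_mul_of_nonneg_right h1 (by positivity)
      _ = _ := one_mul _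
  have fin : ∀ a b : ℝ, (∀ w ∈ Ws d k, ‖Aop (lam _) w‖ ^ 2 ≤ Real.exp a * ‖w‖ ^ 2) →
      (∀ (ι : Type) [Fintype ι], Fintype.card ι = k + 1 → (Kmat d ι ^ 128).trace ≤ Real.exp b) →
      1472 * a + K * (1 + L) + b ≤ -K + (99 - 1 / 10 * Real.log n) →
      hs (Aop (lam (Cube d)) ^ 1600) (Ws d k) ≤
        Real.exp (-K) * Real.exp (99 - 1 / 10 * Real.log n) := by
    intro a b h1 h2 h3
    refine (level_bound t1 _ _ (Real.exp_pos a).le h1 h2).trans ?_
    calc _ ≤ Real.exp a ^ 1472 * (Real.exp (K * (1 + L)) * Real.exp b) := by gcongr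
      _ = Real.exp (1472 * a + K * (1 + L) + b) := by
        rw [← Real.exp_nat_mul, ← Real.exp_add, ← Real.exp_add]; congr 1; push_cast; ring
      _ ≤ _ := by rw [← Real.exp_add]; exact Real.exp_le_exp.2 h3
  have hlin := fun w (hw : w ∈ Ws d k) => theta_lin hk w hw.1
  rw [← hK, ← hn] at hlin
  set M := max (1 - K / n) (1 / 2 : ℝ) with hM
  have hM1 : 1 / 2 ≤ M := le_max_right _ _
  have hM2 : 19 ≤ L → 19 / 20 ≤ M := by
    intro h
    refine le_trans ?_ (le_max_left _ _)
    have h1 : 20 ≤ Real.exp L := by linarith [Real.add_one_le_exp L]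
    have h2 : Real.exp (-L) ≤ 1 / 20 := by
      rw [Real.exp_neg, ← one_div]; exact one_div_le_one_div_of_le (by norm_num) h1
    linarith
  rcases le_total L 100 with h100 | h100
  · rcases le_total L 19 with h19 | h19
    · refine fin _ _ hlin hB1 ?_
      nlinarith [mul_le_mul_of_nonneg_left hM1 hK0.le, mul_le_mul_of_nonneg_left h19 hK0.le]
    rcases le_total L 70 with h70 | h70
    · refine fin _ _ hlin hB1 ?_
      nlinarith [mul_le_mul_of_nonneg_left (hM2 h19) hK0.le, mul_le_mul_of_nonneg_left h70 hK0.le]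
    · refine fin _ _ hlin (hB2 h70) ?_
      nlinarith [mul_le_mul_of_nonneg_left (hM2 h19) hK0.le, mul_le_mul_of_nonneg_left h100 hK0.le]
  · set E := Real.exp (L / 8) with hE
    have hE1 : 1 ≤ E := Real.one_le_exp (by linarith)
    set t := ⌈E⌉₊ with ht
    have ht1 : E ≤ t := Nat.le_ceil E
    have ht2 : (t : ℝ) ≤ 2 * E := by
      have := Nat.ceil_lt_add_one (show 0 ≤ E by linarith); linarith
    have ht3 : 1 ≤ t := by exact_mod_cast hE1.trans ht1
    have hnK : n = K * Real.exp L := by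
      rw [hL, Real.exp_log (by positivity)]; field_simp
    have hk2 : (k + 1) * t + (k + 1) ≤ 2 ^ d := by
      have h1 : 3 ≤ Real.exp (7 * L / 8) := by linarith [Real.add_one_le_exp (7 * L / 8)]
      have h2 : Real.exp L = Real.exp (7 * L / 8) * E := by
        rw [hE, ← Real.exp_add]; congr 1; ring
      have h3 : (t : ℝ) + 1 ≤ Real.exp L := by rw [h2]; nlinarith
      have h4 : K * t + K ≤ n := by rw [hnK]; nlinarith
      rw [hK, hn] at h4
      exact_mod_cast h4
    have hlt : L / 8 ≤ Real.log t := by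
      rw [← Real.log_exp (L / 8)]; exact Real.log_le_log (Real.exp_pos _) ht1
    have hmult := theta_mult t2 kt ht3 hk2 (K * (2 - L / 8)) (by
      rw [← hK, ← hn]
      have h1 : Real.exp 70 * E ^ 2 ≤ Real.exp L := by
        rw [hE, ← Real.exp_nat_mul, ← Real.exp_add]
        exact Real.exp_le_exp.2 (by push_cast; linarith)
      have h2 : Real.exp 70 * (K * t) ^ 2 / (2 * n) ≤ 2 * K := by
        rw [div_le_iff₀ (by positivity), hnK]
        have h3 : (t : ℝ) ^ 2 ≤ (2 * E) ^ 2 := pow_le_pow_left₀ (by positivity) ht2 2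
        calc Real.exp 70 * (K * t) ^ 2 = K ^ 2 * Real.exp 70 * t ^ 2 := by ring
          _ ≤ K ^ 2 * Real.exp 70 * (2 * E) ^ 2 := by gcongr
          _ = 4 * K ^ 2 * (Real.exp 70 * E ^ 2) := by ring
          _ ≤ 4 * K ^ 2 * Real.exp L := by gcongr
          _ = _ := by ring
      nlinarith [mul_le_mul_of_nonneg_left hlt hK0.le])
    refine fin _ _ hmult (hB2 (by linarith)) ?_
    have h5 : L + K - 1 ≤ K * L := by nlinarith
    nlinarith [mul_le_mul_of_nonneg_left h100 hK0.le]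

theorem hs_bot {E : Type} [NormedAddCommGroup E] [InnerProductSpace ℝ E] [FiniteDimensional ℝ E]
    (S : E →ₗ[ℝ] E) (U : Submodule ℝ E) (h : U = ⊥) : hs S U = 0 := by
  refine sum_eq_zero fun i _ => ?_
  have : (stdOrthonormalBasis ℝ U i : E) = 0 := by
    have := (stdOrthonormalBasis ℝ U i).2
    exact (Submodule.eq_bot_iff U).1 h _ this
  rw [this, map_zero, norm_zero]; norm_num

theorem hs_split (t4 : T4) (S : LG (Cube d) →ₗ[ℝ] LG (Cube d)) (m : ℕ) (hm : m ≤ 2 ^ d) :
    hs S (Zs _ 0) = ∑ k ∈ range m, hs S (Ws d k) + hs S (Zs _ m) := by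
  induction m with
  | zero => simp
  | succ m ih =>
    rw [ih (by omega), sum_range_succ,
      t4 _ S (Zs _ m) (Zs _ (m + 1)) (Zs_anti (by rw [card_cube]; exact hm)), Ws]
    ring

theorem hs_total (t1 : T1) (t2 : T2) (t4 : T4) (kt : KT) :
    hs (Aop (lam (Cube d)) ^ 1600) (Zs _ 0) ≤ 2 * Real.exp (99 - 1 / 10 * Real.log (2 ^ d)) := by
  have hb : Zs (Cube d) (2 ^ d) = ⊥ := by rw [← card_cube]; exact Zs_top
  rw [hs_split t4 _ (2 ^ d) le_rfl, hs_bot _ _ hb, add_zero]
  refine (sum_le_sum fun k hk => term_bound t1 t2 kt (mem_range.1 hk)).trans ?_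
  rw [← sum_mul]
  refine mul_le_mul_of_nonneg_right ?_ (Real.exp_pos _).le
  refine le_trans (sum_le_sum fun k _ => (?_ : _ ≤ (1 / 2 : ℝ) ^ k)) (sum_geometric_two_le _)
  have h1 : Real.exp (-1) ≤ 1 / 2 := by
    rw [Real.exp_neg, ← one_div]
    exact one_div_le_one_div_of_le (by norm_num) (by linarith [Real.add_one_le_exp 1])
  calc Real.exp (-((k : ℝ) + 1)) ≤ Real.exp (k * (-1)) := Real.exp_le_exp.2 (by linarith)
    _ = Real.exp (-1) ^ k := Real.exp_nat_mul _ _
    _ ≤ _ := pow_le_pow_left₀ (Real.exp_pos _).le h1 k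

theorem final (t1 : T1) (t2 : T2) (t4 : T4) (t5 : T5) (kt : KT) (link : Link) :
    Filter.Tendsto (fun d : ℕ => Crest.ProbabilityR.Shuffle.tvFromUniform (2 ^ d) (1600 * (d + 1)))
      Filter.atTop (nhds 0) := by
  have hb : ∀ d : ℕ, Crest.ProbabilityR.Shuffle.tvFromUniform (2 ^ d) (1600 * (d + 1)) ≤
      1 / 2 * Real.sqrt (2 * Real.exp (99 - 1 / 10 * Real.log (2 ^ (d + 1)))) := by
    intro d
    rw [link d 1600]
    refine mul_le_mul_of_nonneg_left ?_ (by norm_num)
    have htot := hs_total (d := d + 1) t1 t2 t4 kt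
    generalize 1600 = T at htot ⊢
    refine (t5 (Cube (d + 1)) (Aop (lam (Cube (d + 1))) ^ T) (Zs _ 0) mem_Zs_zero ?_ ?_).trans
      (Real.sqrt_le_sqrt htot)
    · intro g u
      clear htot
      induction T with
      | zero => simp
      | succ T ih =>
        rw [pow_succ', Module.End.mul_apply, Module.End.mul_apply, ih]
        exact (Aop_comm_of _ (rho _ g) (fun h v => (lam_rho h g v).symm) _).symm
    · clear htot
      induction T with
      | zero => simp
      | succ T ih =>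
        rw [pow_succ', Module.End.mul_apply, ih, Aop_apply]
        have : ∀ ω : Bits (d + 1), lam _ (bf ω) (WithLp.toLp 2 (fun _ => (1 : ℝ))) =
            WithLp.toLp 2 (fun _ => (1 : ℝ)) := fun ω => by ext π; simp [lam_apply]
        simp only [this, sum_const, card_univ, ← Nat.cast_smul_eq_nsmul ℝ, smul_smul]
        rw [inv_mul_cancel₀ (by positivity), one_smul]
  refine squeeze_zero (fun d => ?_) hb ?_
  · unfold Crest.ProbabilityR.Shuffle.tvFromUniform; positivity
  · have h1 : Filter.Tendsto (fun d : ℕ => 99 - 1 / 10 * Real.log (2 ^ (d + 1)))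
        Filter.atTop Filter.atBot := by
      simp only [Real.log_pow, sub_eq_add_neg]
      refine Filter.tendsto_atBot_add_const_left _ _ (Filter.tendsto_neg_atTop_atBot.comp ?_)
      refine Filter.Tendsto.const_mul_atTop (by norm_num) ?_
      refine Filter.Tendsto.atTop_mul_const (Real.log_pos (by norm_num)) ?_
      exact tendsto_natCast_atTop_atTop.comp (Filter.tendsto_add_atTop_nat 1)
    have h2 := ((Real.tendsto_exp_atBot.comp h1).const_mul 2).sqrt.const_mul (1 / 2)
    simpa using h2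

end Crest.Agent.H0222
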