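import Crest.Agent.H0222.Psi

/-! Linear independence of vectors of level `k` fixed by different point stabilisers. -/

set_option autoImplicit false
set_option linter.unusedSectionVars false

namespace Crest.Agent.H0222

open Finset Equiv
open scoped InnerProductSpace

variable {P : Type} [Fintype P] [DecidableEq P]
variable {V : Type} [NormedAddCommGroup V] [InnerProductSpace ℝ V]
variable {ρ : Perm P →* (V →ₗ[ℝ] V)}

def tauL (L : List (P × P)) : Perm P := (L.map (fun p => swap p.1 p.2)).prod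

theorem tauL_nil : tauL ([] : List (P × P)) = 1 := rfl

theorem tauL_cons (p : P × P) (L : List (P × P)) : tauL (p :: L) = swap p.1 p.2 * tauL L := by
  simp [tauL]

theorem tauL_append (L L' : List (P × P)) : tauL (L ++ L') = tauL L * tauL L' := by
  simp [tauL]

def ValidL (I : Finset P) (L : List (P × P)) : Prop :=
  (L.map Prod.fst).Nodup ∧ (L.map Prod.snd).Nodup ∧ ∀ p ∈ L, p.1 ∈ I ∧ p.2 ∉ I

theorem ValidL.sub {I : Finset P} {L L' : List (P × P)} (h : ValidL I L) (hs : L'.Sublist L) :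
    ValidL I L' :=
  ⟨h.1.sublist (hs.map _), h.2.1.sublist (hs.map _), fun p hp => h.2.2 p (hs.subset hp)⟩

theorem tauL_fix (L : List (P × P)) (x : P) (h : ∀ p ∈ L, x ≠ p.1 ∧ x ≠ p.2) : tauL L x = x := by
  induction L with
  | nil => rfl
  | cons p L ih =>
    rw [tauL_cons, Perm.mul_apply, ih fun q hq => h q (List.mem_cons_of_mem _ hq),
      swap_apply_of_ne_of_ne (h p List.mem_cons_self).1 (h p List.mem_cons_self).2]

theorem ValidL.head {I : Finset P} {p : P × P} {L : List (P × P)} (h : ValidL I (p :: L)) :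
    ∀ q ∈ L, (p.1 ≠ q.1 ∧ p.1 ≠ q.2) ∧ (p.2 ≠ q.1 ∧ p.2 ≠ q.2) := by
  intro q hq
  obtain ⟨h1, h2, h3⟩ := h
  simp only [List.map_cons, List.nodup_cons, List.mem_map, not_exists, not_and] at h1 h2
  have a := h3 p List.mem_cons_self
  have b := h3 q (List.mem_cons_of_mem _ hq)
  exact ⟨⟨fun e => h1.1 q hq e.symm, fun e => b.2 (e ▸ a.1)⟩,
    ⟨fun e => a.2 (e ▸ b.1), fun e => h2.1 q hq e.symm⟩⟩

theorem ValidL.tau_snd {I : Finset P} {L : List (P × P)} (h : ValidL I L) :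
    ∀ q ∈ L, tauL L q.2 = q.1 := by
  induction L with
  | nil => intro q hq; simp at hq
  | cons p L ih =>
    intro q hq
    rw [tauL_cons, Perm.mul_apply]
    rcases List.mem_cons.1 hq with rfl | hq'
    · rw [tauL_fix L _ fun r hr => (h.head r hr).2, swap_apply_right]
    · rw [ih (h.sub (List.sublist_cons_self _ _)) q hq',
        swap_apply_of_ne_of_ne (h.head q hq').1.1.symm (h.head q hq').2.1.symm]

/-- recursion for the signed correlations -/
theorem corr_rec (hρ : Iso ρ) {I : Finset P} {v : V} (hv : FixSw ρ Iᶜ v)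
    (hst : ∀ i ∈ I, ∑ y ∈ Iᶜ, ρ (swap i y) v = -v) (L : List (P × P)) (hL : ValidL I L) :
    ∃ γ : ℝ, 0 < γ ∧ ∀ b : V, FixSw ρ Iᶜ b → (∀ p ∈ L, ∀ q ∈ L, ρ (swap p.1 q.1) b = b) →
      (-1) ^ L.length * ⟪b, ρ (tauL L) v⟫_ℝ = γ * ⟪b, v⟫_ℝ := by
  induction L with
  | nil => exact ⟨1, one_pos, fun b _ _ => by simp [tauL_nil]⟩
  | cons p L ih =>
    obtain ⟨γ, hγ, H⟩ := ih (hL.sub (List.sublist_cons_self _ _))
    set Y : Finset P := Iᶜ \ (L.map Prod.snd).toFinset with hY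
    have hp := hL.2.2 p List.mem_cons_self
    have hpY : p.2 ∈ Y := by
      simp only [hY, mem_sdiff, mem_compl, List.mem_toFinset, List.mem_map, not_exists, not_and]
      exact ⟨hp.2, fun q hq e => (hL.head q hq).2.2 e.symm⟩
    have hYc : (0 : ℝ) < Y.card := by exact_mod_cast card_pos.2 ⟨_, hpY⟩
    refine ⟨(L.length + 1) * γ / Y.card, by positivity, fun b hb hb2 => ?_⟩
    have H' := H b hb fun q hq r hr =>
      hb2 q (List.mem_cons_of_mem _ hq) r (List.mem_cons_of_mem _ hr)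
    have fixY : ∀ y ∈ Y, tauL L y = y := by
      intro y hy
      simp only [hY, mem_sdiff, mem_compl, List.mem_toFinset, List.mem_map, not_exists,
        not_and] at hy
      exact tauL_fix L y fun q hq => ⟨fun e => hy.1 (e ▸ (hL.2.2 q (List.mem_cons_of_mem _ hq)).1),
        fun e => hy.2 q hq e.symm⟩
    have fixp : tauL L p.1 = p.1 := tauL_fix L _ fun q hq => (hL.head q hq).1
    have YI : ∀ y ∈ Y, y ∈ Iᶜ := fun y hy => (mem_sdiff.1 hy).1
    have c1 : ∀ y ∈ Y, ⟪b, ρ (tauL L) (ρ (swap p.1 y) v)⟫_ℝ = ⟪b, ρ (tauL (p :: L)) v⟫_ℝ := by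
      intro y hy
      have hne : ∀ y ∈ Y, p.1 ≠ y := fun y hy e => (mem_compl.1 (YI y hy)) (e ▸ hp.1)
      rw [tauL_cons, ← rep_mul, rep_conj, fixp, fixY y hy]
      conv_lhs => rw [← hb y (YI y hy) p.2 (YI _ hpY), hρ.swap_symm, rep_conj,
        swap_apply_left, swap_apply_of_ne_of_ne (hne y hy) (hne _ hpY)]
      congr 2
      conv_lhs => rw [← fixY y hy, ← fixY _ hpY, ← rep_conj, hv y (YI y hy) _ (YI _ hpY)]
    have c2 : ∀ y ∈ (L.map Prod.snd).toFinset,
        ⟪b, ρ (tauL L) (ρ (swap p.1 y) v)⟫_ℝ = ⟪b, ρ (tauL L) v⟫_ℝ := by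
      intro y hy
      obtain ⟨q, hq, rfl⟩ := List.mem_map.1 (List.mem_toFinset.1 hy)
      rw [rep_conj, fixp, (hL.sub (List.sublist_cons_self _ _)).tau_snd q hq, ← hρ.swap_symm,
        hb2 p List.mem_cons_self q (List.mem_cons_of_mem _ hq)]
    have hsub : (L.map Prod.snd).toFinset ⊆ Iᶜ := by
      intro y hy
      obtain ⟨q, hq, rfl⟩ := List.mem_map.1 (List.mem_toFinset.1 hy)
      exact mem_compl.2 (hL.2.2 q (List.mem_cons_of_mem _ hq)).2
    have c3 := congrArg (fun w => ⟪b, ρ (tauL L) w⟫_ℝ) (hst p.1 hp.1)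
    simp only [map_sum, inner_sum, map_neg, inner_neg_right] at c3
    rw [← sum_sdiff hsub, ← hY, sum_congr rfl c1, sum_congr rfl c2, sum_const, sum_const,
      List.toFinset_card_of_nodup (hL.sub (List.sublist_cons_self _ _)).2.1, List.length_map,
      nsmul_eq_mul, nsmul_eq_mul] at c3
    rw [List.length_cons, pow_succ, div_mul_eq_mul_div, eq_div_iff hYc.ne', mul_assoc _ γ, ← H']
    linear_combination (-(-1) ^ L.length : ℝ) * c3

variable [FiniteDimensional ℝ V]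

theorem corr_nonneg (hρ : Iso ρ) {I : Finset P} {v : V} (hv : FixSw ρ Iᶜ v)
    (hst : ∀ i ∈ I, ∑ y ∈ Iᶜ, ρ (swap i y) v = -v) (L : List (P × P)) (hL : ValidL I L) :
    0 ≤ (-1) ^ L.length * ⟪v, ρ (tauL L) v⟫_ℝ := by
  obtain ⟨γ, hγ, H⟩ := corr_rec hρ hv hst L hL
  let F : Submodule ℝ V :=
    { carrier := {w | ∀ p ∈ L, ∀ q ∈ L, ρ (swap p.1 q.1) w = w}
      add_mem' := fun {a b} ha hb p hp q hq => by rw [map_add, ha p hp q hq, hb p hp q hq]
      zero_mem' := fun p _ q _ => map_zero _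
      smul_mem' := fun c a ha p hp q hq => by rw [map_smul, ha p hp q hq] }
  have hF : ∀ w, w ∈ F ↔ ∀ p ∈ L, ∀ q ∈ L, ρ (swap p.1 q.1) w = w := fun w => Iff.rfl
  set b := F.starProjection v with hb
  have hbF : b ∈ F := F.starProjection_apply_mem v
  have horth : ∀ w ∈ F, ⟪v - b, w⟫_ℝ = 0 := fun w hw => F.starProjection_inner_eq_zero v w hw
  have hinv : ∀ x ∈ Iᶜ, ∀ y ∈ Iᶜ, ∀ w ∈ F, ρ (swap x y) w ∈ F := by
    intro x hx y hy w hw p hp q hq
    have h1 : ∀ r ∈ L, swap x y r.1 = r.1 := fun r hr =>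
      swap_apply_of_ne_of_ne (fun e => mem_compl.1 hx (e ▸ (hL.2.2 r hr).1))
        (fun e => mem_compl.1 hy (e ▸ (hL.2.2 r hr).1))
    conv_lhs => rw [← h1 p hp, ← h1 q hq, ← rep_conj, hw p hp q hq]
  have hbI : FixSw ρ Iᶜ b := by
    intro x hx y hy
    symm
    refine F.eq_starProjection_of_mem_of_inner_eq_zero (hinv x hx y hy b hbF) fun w hw => ?_
    conv_lhs => rw [← hv x hx y hy, ← map_sub, hρ.swap_symm]
    exact horth _ (hinv x hx y hy w hw)
  have htF : ρ (tauL L) v ∈ F := by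
    intro p hp q hq
    conv_lhs => rw [← hL.tau_snd p hp, ← hL.tau_snd q hq, ← rep_conj,
      hv _ (mem_compl.2 (hL.2.2 p hp).2) _ (mem_compl.2 (hL.2.2 q hq).2)]
  have e1 : ⟪v, ρ (tauL L) v⟫_ℝ = ⟪b, ρ (tauL L) v⟫_ℝ := by
    have := horth _ htF
    rw [inner_sub_left] at this; linarith
  have e2 : ⟪b, v⟫_ℝ = ‖b‖ ^ 2 := by
    have := horth _ hbF
    rw [inner_sub_left, real_inner_self_eq_norm_sq, real_inner_comm] at this; linarith
  rw [e1, H b hbI hbF, e2]; positivity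

noncomputable def TL (ρ : Perm P →* (V →ₗ[ℝ] V)) : List (P × P) → V →ₗ[ℝ] V
  | [] => LinearMap.id
  | p :: L => (1 - ρ (swap p.1 p.2)) ∘ₗ TL ρ L

theorem TL_nil (v : V) : TL ρ [] v = v := rfl

theorem TL_cons (p : P × P) (L : List (P × P)) (v : V) :
    TL ρ (p :: L) v = TL ρ L v - ρ (swap p.1 p.2) (TL ρ L v) := rfl

theorem TL_nonneg (hρ : Iso ρ) {I : Finset P} {v : V} (hv : FixSw ρ Iᶜ v)
    (hst : ∀ i ∈ I, ∑ y ∈ Iᶜ, ρ (swap i y) v = -v) (L2 : List (P × P)) :
    ∀ L1 : List (P × P), ValidL I (L1 ++ L2) →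
      0 ≤ (-1) ^ L1.length * ⟪v, ρ (tauL L1) (TL ρ L2 v)⟫_ℝ := by
  induction L2 with
  | nil => intro L1 h; rw [List.append_nil] at h; exact corr_nonneg hρ hv hst L1 h
  | cons p L2 ih =>
    intro L1 h
    have h1 := ih L1 (h.sub ((List.sublist_cons_self _ _).append_left _))
    have h2 := ih (L1 ++ [p]) (by simpa using h)
    rw [tauL_append, ← rep_mul, tauL_cons, tauL_nil, mul_one, List.length_append,
      List.length_singleton, pow_succ] at h2
    rw [TL_cons, map_sub, inner_sub_right]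
    linarith

theorem TL_ge (hρ : Iso ρ) {I : Finset P} {v : V} (hv : FixSw ρ Iᶜ v)
    (hst : ∀ i ∈ I, ∑ y ∈ Iᶜ, ρ (swap i y) v = -v) (L : List (P × P)) (hL : ValidL I L) :
    ‖v‖ ^ 2 ≤ ⟪v, TL ρ L v⟫_ℝ := by
  induction L with
  | nil => rw [TL_nil, real_inner_self_eq_norm_sq]
  | cons p L ih =>
    have h1 := ih (hL.sub (List.sublist_cons_self _ _))
    have h2 := TL_nonneg hρ hv hst L [p] (by simpa using hL)
    rw [tauL_cons, tauL_nil, mul_one] at h2
    rw [TL_cons, inner_sub_right]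
    simp only [List.length_singleton, pow_one] at h2
    linarith

theorem TL_comm (g : Perm P) (L : List (P × P)) (h : ∀ q ∈ L, g q.1 = q.1 ∧ g q.2 = q.2) (w : V) :
    ρ g (TL ρ L w) = TL ρ L (ρ g w) := by
  induction L with
  | nil => rfl
  | cons q L ih =>
    rw [TL_cons, TL_cons, map_sub, rep_conj, ih fun r hr => h r (List.mem_cons_of_mem _ hr),
      (h q List.mem_cons_self).1, (h q List.mem_cons_self).2]

theorem TL_kill {I : Finset P} (L : List (P × P)) (hL : ValidL I L) {w : V} {p : P × P}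
    (hp : p ∈ L) (hw : ρ (swap p.1 p.2) w = w) : TL ρ L w = 0 := by
  induction L with
  | nil => simp at hp
  | cons q L ih =>
    rw [TL_cons]
    rcases List.mem_cons.1 hp with rfl | hp'
    · rw [TL_comm _ L (fun r hr => ⟨swap_apply_of_ne_of_ne (hL.head r hr).1.1.symm
        (hL.head r hr).2.1.symm, swap_apply_of_ne_of_ne (hL.head r hr).1.2.symm
        (hL.head r hr).2.2.symm⟩), hw, sub_self]
    · rw [ih (hL.sub (List.sublist_cons_self _ _)) hp', map_zero, sub_self]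

theorem indep (hρ : Iso ρ) (U : Submodule ℝ V) (hU : ∀ g, ∀ v ∈ U, ρ g v ∈ U) (k : ℕ)
    (hF : NoFix ρ univ U (Fintype.card P - k)) {Φ : Type} [Fintype Φ] (I : Φ → Finset P)
    (hI : ∀ φ, (I φ).card = k) (hinj : Function.Injective I) (J : Finset P)
    (hJ : ∀ φ, I φ ⊆ J) (hc : J.card + k ≤ Fintype.card P) (v : Φ → V) (hvU : ∀ φ, v φ ∈ U)
    (hv0 : ∀ φ, v φ ≠ 0) (hv : ∀ φ, FixSw ρ (I φ)ᶜ (v φ)) : LinearIndependent ℝ v := by
  classical
  rw [Fintype.linearIndependent_iff]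
  intro c hc0 φ
  obtain ⟨z, hz1, hz2⟩ : ∃ z : P → P, Set.MapsTo z (I φ) (Jᶜ : Finset P) ∧ Set.InjOn z (I φ) := by
    obtain ⟨e⟩ : Nonempty (I φ ↪ (Jᶜ : Finset P)) := by
      apply Function.Embedding.nonempty_of_card_le
      simp only [Fintype.card_coe, card_compl, hI]; omega
    refine ⟨fun x => if h : x ∈ I φ then (e ⟨x, h⟩ : P) else x, fun x hx => ?_,
      fun x hx y hy h => ?_⟩
    · have hx' : x ∈ I φ := hx
      simp only [dif_pos hx']; exact (e ⟨x, hx'⟩).2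
    · have hx' : x ∈ I φ := hx
      have hy' : y ∈ I φ := hy
      simp only [dif_pos hx', dif_pos hy'] at h
      exact congrArg Subtype.val (e.injective (Subtype.ext h))
  set L : List (P × P) := (I φ).toList.map (fun i => (i, z i)) with hLd
  have hL : ValidL (I φ) L := by
    refine ⟨?_, ?_, fun p hp => ?_⟩
    · simp only [hLd, List.map_map]
      exact (List.map_id'' (fun _ => rfl) _).symm ▸ nodup_toList _
    · simp only [hLd, List.map_map]
      exact (nodup_toList _).map_on fun x hx y hy h =>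
        hz2 (mem_toList.1 hx) (mem_toList.1 hy) h
    · obtain ⟨i, hi, rfl⟩ := List.mem_map.1 hp
      exact ⟨mem_toList.1 hi, fun h => mem_compl.1 (hz1 (mem_toList.1 hi)) (hJ φ h)⟩
  have hst : ∀ i ∈ I φ, ∑ y ∈ (I φ)ᶜ, ρ (swap i y) (v φ) = -v φ := fun i hi =>
    hF.star (fun x _ y _ w hw => hU _ w hw) (subset_univ _) (by rw [card_compl, hI]) (hvU φ)
      (hv φ) (mem_univ _) (by simpa using hi)
  have h1 := congrArg (TL ρ L) hc0
  rw [map_sum, map_zero, sum_eq_single φ] at h1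
  · have h2 := TL_ge hρ (hv φ) hst L hL
    have h3 := congrArg (fun w => ⟪v φ, w⟫_ℝ) h1
    simp only [map_smul, real_inner_smul_right, inner_zero_right] at h3
    have h4 : 0 < ‖v φ‖ ^ 2 := by have := hv0 φ; positivity
    exact (mul_eq_zero.1 h3).resolve_right (by linarith)
  · intro ψ _ hψ
    obtain ⟨i, hi1, hi2⟩ : ∃ i ∈ I φ, i ∉ I ψ := by
      by_contra hcon
      push Not at hcon
      exact hψ (hinj (eq_of_subset_of_card_le hcon (by rw [hI, hI])).symm)
    rw [map_smul, TL_kill L hL (p := (i, z i)) (List.mem_map.2 ⟨i, mem_toList.2 hi1, rfl⟩)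
      (hv ψ i (mem_compl.2 hi2) (z i) (mem_compl.2 fun h => mem_compl.1 (hz1 hi1) (hJ ψ h))),
      smul_zero]
  · simp

end Crest.Agent.H0222
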