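import Crest.Agent.H0222.Defs

/-! Statements of the independent pieces of the proof of S0222. -/

set_option autoImplicit false

namespace Crest.Agent.H0222

open Finset
open scoped InnerProductSpace

/-- Kraft + Jensen + cycle count. -/
def K1 : Prop := ∀ (d : ℕ) (ι : Type) [Fintype ι] (x : ι ↪ Cube d),
  ∑ x' : ι ↪ Cube d, Kmat d ι x x' ^ (128 / 127 : ℝ) ≤
    ((2 : ℝ) ^ d) ^ (-(Fintype.card ι : ℝ) / 127) *
      ((∑ ω : Bits d, ∑ ω' : Bits d,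
        (2 : ℝ) ^ (((∑ j : Fin d, cyc ω ω' j (outs ω x) : ℕ) : ℝ) / 127)) /
          (Fintype.card (Bits d) : ℝ) ^ 2)

/-- exponential moment of the number of cycles, conditionally on the layers `≥ t`. -/
def K2 : Prop := ∀ (d : ℕ) (ω ω0 : Bits d) (j : Fin d) (U : Finset (Cube d)) (u t : ℕ),
  1 ≤ u → j.val + 32 * u < t → t ≤ d →
  ∑ ω' ∈ cls ω0 t, (2 : ℝ) ^ (2 * u * cyc ω ω' j U) ≤
    ((cls ω0 t).card : ℝ) * Real.exp (((U1 ω j U).card : ℝ) * (9 / 4) / 4 ^ u)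

/-- multi-scale combination: some weights of total mass `≤ 70`. -/
def K3 : Prop := ∀ d : ℕ, ∃ κ : Fin d → ℝ, (∀ j, 0 ≤ κ j) ∧ ∑ j, κ j ≤ 70 ∧
  ∀ (ω : Bits d) (U : Finset (Cube d)),
    (∑ ω' : Bits d, (2 : ℝ) ^ (((∑ j : Fin d, cyc ω ω' j U : ℕ) : ℝ) / 127)) /
        (Fintype.card (Bits d) : ℝ) ≤
      Real.exp ((∑ j, κ j * ((U1 ω j U).card : ℝ)) / 127)

/-- the trace bound -/
def KT : Prop := ∀ (d : ℕ) (ι : Type) [Fintype ι],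
  (Kmat d ι ^ 128).trace ≤ Real.exp (35 * (Fintype.card ι : ℝ)) ∧
  (Kmat d ι ^ 128).trace ≤ Real.exp (Real.exp 70 * (Fintype.card ι : ℝ) ^ 2 / (2 * 2 ^ d))

/-- chessboard + eigenvalue counting -/
def T1 : Prop := ∀ (E : Type) [NormedAddCommGroup E] [InnerProductSpace ℝ E]
  [FiniteDimensional ℝ E] (A : E →ₗ[ℝ] E) (W : Submodule ℝ E) (θ : ℝ) (T : ℕ)
  (J : Type) [Fintype J] (X : J → Type) [∀ j, Fintype (X j)] [∀ j, DecidableEq (X j)]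
  (K : ∀ j, Matrix (X j) (X j) ℝ) (D : ∀ j, E →ₗ[ℝ] (X j → ℝ)),
  (∀ w ∈ W, A w ∈ W) → (∀ w ∈ W, LinearMap.adjoint A w ∈ W) → 0 ≤ θ →
  (∀ w ∈ W, ‖A w‖ ^ 2 ≤ θ * ‖w‖ ^ 2) → 128 ≤ T → (∀ j, (K j).IsSymm) →
  (∀ j, ∀ w ∈ W, D j (LinearMap.adjoint A (A w)) = (K j).mulVec (D j w)) →
  (∀ w ∈ W, (∀ j, D j w = 0) → w = 0) →
  hs (A ^ T) W ≤ θ ^ (T - 128) * ∑ j, (K j ^ 128).trace

/-- multiplicity bound -/
def T2 : Prop := ∀ (X : Type) [Fintype X] [DecidableEq X] (K : Matrix X X ℝ) (I : Type) [Fintype I]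
  (v : I → X → ℝ) (μ : ℝ), K.IsSymm → LinearIndependent ℝ v → (∀ i, K.mulVec (v i) = μ • v i) →
  (Fintype.card I : ℝ) * μ ^ 128 ≤ (K ^ 128).trace

/-- Young's inequality + walk counting -/
def T3 : Prop := ∀ (X : Type) [Fintype X] [DecidableEq X] (K : Matrix X X ℝ),
  K.IsSymm → (∀ x y, 0 ≤ K x y) →
  (K ^ 128).trace ≤ ∑ x, (∑ y, K x y ^ (128 / 127 : ℝ)) ^ 127

/-- additivity of `hs` -/
def T4 : Prop := ∀ (E : Type) [NormedAddCommGroup E] [InnerProductSpace ℝ E]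
  [FiniteDimensional ℝ E] (S : E →ₗ[ℝ] E) (U U' : Submodule ℝ E), U' ≤ U →
  hs S U = hs S U' + hs S (U ⊓ U'ᗮ)

/-- `L¹` distance from uniform is at most the square root of `χ²` -/
def T5 : Prop := ∀ (P : Type) [Fintype P] [DecidableEq P] (S : LG P →ₗ[ℝ] LG P)
  (U : Submodule ℝ (LG P)), (∀ u : LG P, u ∈ U ↔ ∑ π, u π = 0) →
  (∀ g u, S (rho P g u) = rho P g (S u)) →
  S (WithLp.toLp 2 (fun _ => (1 : ℝ))) = WithLp.toLp 2 (fun _ => (1 : ℝ)) →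
  ∑ π, |S (EuclideanSpace.single 1 (1 : ℝ)) π - 1 / (Fintype.card (Equiv.Perm P) : ℝ)|
    ≤ Real.sqrt (hs S U)

/-- `d + 1` Thorp shuffles make one butterfly pass -/
def Link : Prop := ∀ d T : ℕ,
  Crest.ProbabilityR.Shuffle.tvFromUniform (2 ^ d) (T * (d + 1)) =
    (1 / 2) * ∑ π : Equiv.Perm (Cube (d + 1)),
      |(Aop (lam (Cube (d + 1))) ^ T) (EuclideanSpace.single 1 (1 : ℝ)) π -
        1 / (Fintype.card (Equiv.Perm (Cube (d + 1))) : ℝ)|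

end Crest.Agent.H0222
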