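import Crest.Agent.H0222.Jobs

/-! Kraft inequality, Jensen and the cycle count (job A). -/

set_option autoImplicit false
set_option linter.unusedSectionVars false

namespace Crest.Agent.H0222.Ax

open Finset

theorem kraft {β : Type} [Fintype β] [Inhabited β] : ∀ (d : ℕ) (f : Fin d → (Fin d → β) → ℝ),
    (∀ j z, 0 ≤ f j z) → (∀ j z z', (∀ i, i ≤ j → z i = z' i) → f j z = f j z') →
    (∀ j z, ∑ b, f j (Function.update z j b) ≤ 1) → ∑ z : Fin d → β, ∏ j, f j z ≤ 1 := by
  intro d
  induction d with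
  | zero => intro f _ _ _; simp
  | succ d ih =>
    intro f h0 h1 h2
    have h3 := ih (fun j z => f j.castSucc (Fin.snoc z default)) (fun j z => h0 _ _)
      (fun j z z' h => h1 _ _ _ fun i hi => by
        obtain ⟨i, rfl⟩ := Fin.exists_castSucc_eq.2 (ne_of_lt (hi.trans_lt (Fin.castSucc_lt_last j)))
        simpa using h i (by simpa using hi))
      (fun j z => by simpa only [Fin.snoc_update] using h2 j.castSucc (Fin.snoc z default))
    rw [← (Fin.snocEquiv fun _ => β).sum_comp, Fintype.sum_prod_type_right]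
    refine le_trans (sum_le_sum fun z _ => ?_) h3
    have : ∀ b : β, ∏ j, f j (Fin.snocEquiv (fun _ => β) (b, z))
        = (∏ j : Fin d, f j.castSucc (Fin.snoc z default)) * f (Fin.last d)
          (Function.update (Fin.snoc z default : Fin (d + 1) → β) (Fin.last d) b) := fun b => by
      rw [Fin.prod_univ_castSucc, Fin.update_snoc_last]
      congr 1
      refine prod_congr rfl fun j _ => h1 _ _ _ fun i hi => ?_
      obtain ⟨i, rfl⟩ := Fin.exists_castSucc_eq.2 (ne_of_lt (hi.trans_lt (Fin.castSucc_lt_last j)))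
      simp [Fin.snocEquiv]
    simp only [this, ← mul_sum]
    exact mul_le_of_le_one_right (prod_nonneg fun j _ => h0 _ _) (h2 _ _)

variable {d : ℕ} {ι : Type} [Fintype ι] [DecidableEq ι]

/-- the bits produced by layer `j` -/
def Bv (j : Fin d) (x : ι → Cube d) (z : Fin d → ι → Bool) (c : Cube d → Bool) : ι → Bool :=
  fun a => xor (x a j) (c (mix j (fun i => z i a) (x a)))

/-- their law -/
noncomputable def Lw (j : Fin d) (x : ι → Cube d) (z : Fin d → ι → Bool) (b : ι → Bool) : ℝ :=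
  (∑ c : Cube d → Bool, if b = Bv j x z c then (1 : ℝ) else 0) / Fintype.card (Cube d → Bool)

/-- normalised collision probability -/
noncomputable def Gm (j : Fin d) (x x' : ι → Cube d) (z : Fin d → ι → Bool) : ℝ :=
  2 ^ Fintype.card ι * ∑ b, Lw j x z b * Lw j x' z b

/-- indicator of the output -/
noncomputable def ind (ω : Bits d) (x : ι → Cube d) (z : Fin d → ι → Bool) : ℝ :=
  if ∀ a, bf ω (x a) = fun i => z i a then 1 else 0

theorem Lw_nonneg (j : Fin d) (x : ι → Cube d) (z : Fin d → ι → Bool) (b : ι → Bool) :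
    0 ≤ Lw j x z b :=
  div_nonneg (sum_nonneg fun _ _ => by split_ifs <;> norm_num) (Nat.cast_nonneg _)

theorem Gm_nonneg (j : Fin d) (x x' : ι → Cube d) (z : Fin d → ι → Bool) : 0 ≤ Gm j x x' z :=
  mul_nonneg (by positivity) (sum_nonneg fun _ _ => mul_nonneg (Lw_nonneg ..) (Lw_nonneg ..))

theorem ind_nonneg (ω : Bits d) (x : ι → Cube d) (z : Fin d → ι → Bool) : 0 ≤ ind ω x z := by
  unfold ind; split_ifs <;> norm_num

theorem Lw_congr {j : Fin d} (x : ι → Cube d) {z z' : Fin d → ι → Bool}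
    (h : ∀ i, i < j → z i = z' i) : Lw j x z = Lw j x z' := by
  have : Bv j x z = Bv j x z' := by
    funext c a
    rw [Bv, Bv, mix_congr (y' := fun i => z' i a) (x' := x a) (fun i hi => by rw [h i hi])
      fun _ _ => rfl]
  funext b
  rw [Lw, Lw, this]

theorem ind_sum (x : ι → Cube d) (z : Fin d → ι → Bool) :
    (∑ ω, ind ω x z) / Fintype.card (Bits d) = ∏ j, Lw j x z (z j) := by
  simp only [Lw, prod_div_distrib]
  congr 1
  · rw [Finset.prod_univ_sum, Fintype.piFinset_univ]
    refine sum_congr rfl fun ω _ => ?_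
    rw [Finset.prod_ite_zero, ind]
    simp only [bf_eq_iff]
    simp only [mem_univ, forall_const, prod_const_one, funext_iff, Bv]
    exact if_congr forall_comm rfl rfl
  · simp

theorem jensen (x x' : ι → Cube d) :
    (∑ z, (∑ ω, ind ω x z) / Fintype.card (Bits d) * ((∑ ω, ind ω x' z) / Fintype.card (Bits d)))
      ^ (128 / 127 : ℝ) ≤ ((2 : ℝ) ^ d) ^ (-(Fintype.card ι : ℝ) / 127) *
        ∑ z, (∑ ω, ind ω x z) / Fintype.card (Bits d) * ((∑ ω, ind ω x' z) / Fintype.card (Bits d))
          * (∏ j, Gm j x x' z) ^ (1 / 127 : ℝ) := by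
  let f : Fin d → (Fin d → ι → Bool) → ℝ := fun j z =>
    2 ^ Fintype.card ι * (Lw j x z (z j) * Lw j x' z (z j)) / Gm j x x' z
  have f0 : ∀ j z, 0 ≤ f j z := fun j z => div_nonneg (mul_nonneg (by positivity)
    (mul_nonneg (Lw_nonneg ..) (Lw_nonneg ..))) (Gm_nonneg ..)
  have hk := kraft d f f0 (fun j z z' h => by
      simp only [f, Gm, h j le_rfl, Lw_congr _ fun i hi => h i hi.le])
    fun j z => by
      have : ∀ b y, Lw j y (Function.update z j b) = Lw j y z := fun b y =>
        Lw_congr _ fun i hi => Function.update_of_ne hi.ne _ _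
      simp only [f, Gm, this, Function.update_self, ← sum_div, ← mul_sum]
      exact div_self_le_one _
  set N : ℝ := (2 ^ d) ^ Fintype.card ι with hN
  have N0 : 0 < N := by positivity
  have h1 : ∀ z, (∏ j, f j z) * ∏ j, Gm j x x' z = N * ((∑ ω, ind ω x z) / Fintype.card (Bits d) *
      ((∑ ω, ind ω x' z) / Fintype.card (Bits d))) := fun z => by
    rw [ind_sum, ind_sum, ← prod_mul_distrib, ← prod_mul_distrib, hN, ← pow_mul, mul_comm d,
      pow_mul, ← Fin.prod_const, ← prod_mul_distrib]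
    refine prod_congr rfl fun j _ => ?_
    by_cases h : Gm j x x' z = 0
    · rw [h, mul_zero]
      have h2 := (sum_eq_zero_iff_of_nonneg fun _ _ => mul_nonneg (Lw_nonneg ..) (Lw_nonneg ..)).1
        ((mul_eq_zero.1 h).resolve_left (by positivity)) (z j) (mem_univ _)
      rw [h2, mul_zero]
    · exact div_mul_cancel₀ _ h
  have G0 : ∀ z, 0 ≤ ∏ j, Gm j x x' z := fun z => prod_nonneg fun j _ => Gm_nonneg ..
  have w0 : ∀ z, 0 ≤ ∏ j, f j z := fun z => prod_nonneg fun j _ => f0 j z
  have h2 := Real.inner_le_weight_mul_Lp_of_nonneg univ (p := 128 / 127) (by norm_num)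
    (fun z => ∏ j, f j z) (fun z => ∏ j, Gm j x x' z) w0 G0
  have h3 : ∀ z, (∏ j, f j z) * (∏ j, Gm j x x' z) ^ (128 / 127 : ℝ)
      = (∏ j, f j z) * (∏ j, Gm j x x' z) * (∏ j, Gm j x x' z) ^ (1 / 127 : ℝ) := fun z => by
    rw [show (128 / 127 : ℝ) = 1 + 1 / 127 by norm_num, Real.rpow_add' (G0 z) (by norm_num),
      Real.rpow_one, mul_assoc]
  simp only [h3, h1, mul_assoc N, ← mul_sum] at h2
  set K := ∑ z, (∑ ω, ind ω x z) / Fintype.card (Bits d) *
    ((∑ ω, ind ω x' z) / Fintype.card (Bits d))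
  set S := ∑ z, (∑ ω, ind ω x z) / Fintype.card (Bits d) *
    ((∑ ω, ind ω x' z) / Fintype.card (Bits d)) * (∏ j, Gm j x x' z) ^ (1 / 127 : ℝ)
  have i0 : ∀ (y : ι → Cube d) z, 0 ≤ (∑ ω, ind ω y z) / (Fintype.card (Bits d) : ℝ) := fun y z =>
    div_nonneg (sum_nonneg fun _ _ => ind_nonneg ..) (Nat.cast_nonneg _)
  have K0 : 0 ≤ K := sum_nonneg fun z _ => mul_nonneg (i0 ..) (i0 ..)
  have S0 : 0 ≤ S := sum_nonneg fun z _ => mul_nonneg (mul_nonneg (i0 ..) (i0 ..))
    (Real.rpow_nonneg (G0 z) _)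
  have h4 : N * K ≤ (N * S) ^ (128 / 127 : ℝ)⁻¹ := h2.trans (mul_le_of_le_one_left
    (by positivity) (Real.rpow_le_one (sum_nonneg fun z _ => w0 z) hk (by norm_num)))
  have h5 := Real.rpow_le_rpow (by positivity) h4 (show (0 : ℝ) ≤ 128 / 127 by norm_num)
  rw [Real.rpow_inv_rpow (by positivity) (by norm_num), Real.mul_rpow N0.le K0] at h5
  have h6 : ((2 : ℝ) ^ d) ^ (-(Fintype.card ι : ℝ) / 127) = N / N ^ (128 / 127 : ℝ) := by
    rw [hN, ← Real.rpow_natCast ((2 : ℝ) ^ d), ← Real.rpow_mul (by positivity),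
      ← Real.rpow_sub (by positivity)]
    congr 1
    ring
  rw [h6, div_mul_eq_mul_div, le_div_iff₀ (by positivity), mul_comm]
  exact h5

/-- sign of a bit -/
def sg (b : Bool) : ℝ := if b then -1 else 1

theorem sum_sg (j : Fin d) (x : ι → Cube d) (z : Fin d → ι → Bool) (G : Finset ι) (a : ι)
    (ha : a ∈ G) (h : ∀ a' ∈ G, a' ≠ a →
      mix j (fun i => z i a') (x a') ≠ mix j (fun i => z i a) (x a)) :
    ∑ c : Cube d → Bool, ∏ a ∈ G, sg (Bv j x z c a) = 0 := by
  set s := mix j (fun i => z i a) (x a)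
  refine sum_involution (fun c _ => Function.update c s (!c s)) (fun c _ => ?_) (fun c _ _ h => ?_)
    (fun _ _ => mem_univ _) fun c _ => by simp
  · rw [← mul_prod_erase G _ ha, ← mul_prod_erase G _ ha]
    rw [prod_congr rfl (s₂ := G.erase a) (f := fun a' => sg (Bv j x z (Function.update c s (!c s)) a'))
      (g := fun a' => sg (Bv j x z c a')) fun a' ha' => by
        rw [Bv, Bv, Function.update_of_ne (h a' (mem_of_mem_erase ha') (ne_of_mem_erase ha'))],
      ← add_mul]
    refine mul_eq_zero_of_left ?_ _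
    rw [Bv, Bv, Function.update_self]
    generalize x a j = u
    generalize c s = v
    cases u <;> cases v <;> simp [sg]
  · simpa using congrFun h s

theorem Gm_eq (j : Fin d) (x x' : ι → Cube d) (z : Fin d → ι → Bool) :
    Gm j x x' z = ∑ G ∈ (univ : Finset ι).powerset,
      (∑ c : Cube d → Bool, ∏ a ∈ G, sg (Bv j x z c a)) / Fintype.card (Cube d → Bool) *
      ((∑ c : Cube d → Bool, ∏ a ∈ G, sg (Bv j x' z c a)) / Fintype.card (Cube d → Bool)) := by
  have h1 : ∀ u v : ι → Bool, (2 : ℝ) ^ Fintype.card ι *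
      ∑ b, (if b = u then (1 : ℝ) else 0) * (if b = v then (1 : ℝ) else 0)
      = ∑ G ∈ (univ : Finset ι).powerset, (∏ a ∈ G, sg (u a)) * ∏ a ∈ G, sg (v a) := fun u v => by
    simp only [← prod_mul_distrib, ← prod_one_add, ite_mul, one_mul, zero_mul, sum_ite_eq',
      mem_univ, if_true]
    have : ∀ s t : Bool, 1 + sg s * sg t = if s = t then 2 else 0 := by
      intro s t; cases s <;> cases t <;> norm_num [sg]
    simp only [this]
    rw [Finset.prod_ite_zero]
    simp [funext_iff]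
  simp only [Gm, Lw, div_mul_div_comm, ← sum_div, sum_mul_sum]
  rw [← mul_div_assoc]
  congr 1
  rw [sum_comm, sum_comm (s := (univ : Finset ι).powerset), mul_sum]
  refine sum_congr rfl fun c _ => ?_
  rw [sum_comm, sum_comm (s := (univ : Finset ι).powerset), mul_sum]
  exact sum_congr rfl fun c' _ => h1 _ _

theorem abs_avg (f : (Cube d → Bool) → ι → Bool) (G : Finset ι) :
    |(∑ c : Cube d → Bool, ∏ a ∈ G, sg (f c a)) / Fintype.card (Cube d → Bool)| ≤ 1 := by
  rw [abs_div, Nat.abs_cast, div_le_one (by positivity)]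
  refine (abs_sum_le_sum_abs _ _).trans ?_
  have : ∀ b, |sg b| = 1 := by intro b; cases b <;> simp [sg]
  simp [abs_prod, this]

theorem closed_card (ω ω' : Bits d) (j : Fin d) (y : ι → Cube d) (hy : Function.Injective y) :
    ((univ : Finset ι).powerset.filter fun G => (∀ u ∈ G.image y, partner ω j u ∈ G.image y) ∧
      ∀ u ∈ G.image y, partner ω' j u ∈ G.image y).card ≤ 2 ^ cyc ω ω' j (univ.image y) := by
  rw [cyc, ← card_powerset]
  set σ := partner ω j * partner ω' j
  set C := ((U1 ω j (univ.image y)).filter (fun b => orb σ b ⊆ U1 ω j (univ.image y))).image (orb σ)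
  have key : ∀ S S' : Finset (Cube d), S ⊆ univ.image y → (∀ u ∈ S, partner ω j u ∈ S) →
      (∀ u ∈ S, partner ω' j u ∈ S) → (∀ u ∈ S', partner ω j u ∈ S') →
      C.filter (· ⊆ S) ⊆ C.filter (· ⊆ S') → S ⊆ S' := by
    intro S S' hS h1 h2 h3 h4
    have h5 : ∀ b ∈ S, b j = true → b ∈ S' := fun b hb hj => by
      have h6 : ∀ v ∈ orb σ b, v ∈ S ∧ v j = true := fun v hv => by
        obtain ⟨n, -, rfl⟩ := (mem_filter.1 hv).2.exists_pow_eq'
        clear hv
        induction n with
        | zero => exact ⟨hb, hj⟩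
        | succ n ih =>
          rw [pow_succ', Equiv.Perm.mul_apply, Equiv.Perm.mul_apply]
          exact ⟨h1 _ (h2 _ ih.1), by rw [partner_bit, partner_bit, ih.2]; rfl⟩
      have h7 : b ∈ orb σ b := mem_filter.2 ⟨mem_univ _, Equiv.Perm.SameCycle.refl _ _⟩
      have h8 : orb σ b ⊆ U1 ω j (univ.image y) := fun v hv =>
        mem_filter.2 ⟨hS (h6 v hv).1, (h6 v hv).2, hS (h1 _ (h6 v hv).1)⟩
      exact (mem_filter.1 (h4 (mem_filter.2 ⟨mem_image_of_mem _ (mem_filter.2 ⟨h8 h7, h8⟩),
        fun v hv => (h6 v hv).1⟩))).2 h7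
    intro u hu
    by_cases hj : u j = true
    · exact h5 u hu hj
    · rw [← partner_partner ω j u]
      exact h3 _ (h5 _ (h1 u hu) (by rw [partner_bit]; simpa using hj))
  refine card_le_card_of_injOn (fun G => C.filter (· ⊆ G.image y))
    (fun G _ => mem_coe.2 (mem_powerset.2 (filter_subset _ _))) fun G hG G' hG' h => ?_
  obtain ⟨-, a1, a2⟩ := mem_filter.1 hG
  obtain ⟨-, b1, b2⟩ := mem_filter.1 hG'
  exact image_injective hy (Subset.antisymm
    (key _ _ (image_subset_image (subset_univ _)) a1 a2 b1 (le_of_eq h))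
    (key _ _ (image_subset_image (subset_univ _)) b1 b2 a1 (le_of_eq h.symm)))

theorem closed_of (ω : Bits d) (j : Fin d) (x : ι → Cube d) (z : Fin d → ι → Bool)
    (hy : Function.Injective fun a i => z i a) (h : ∀ a, bf ω (x a) = fun i => z i a) (G : Finset ι)
    (hG : ∑ c : Cube d → Bool, ∏ a ∈ G, sg (Bv j x z c a) ≠ 0) :
    ∀ u ∈ G.image fun a i => z i a, partner ω j u ∈ G.image fun a i => z i a := by
  intro u hu
  obtain ⟨a, ha, rfl⟩ := mem_image.1 hu
  by_contra hc
  refine hG (sum_sg j x z G a ha fun a' ha' hne e => hc (mem_image.2 ⟨a', ha', ?_⟩))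
  refine ((partner_eq_iff ω j _ _).2 ⟨?_, fun e' => hne (hy e')⟩).symm
  have h1 := sw_bf ω j (x a)
  have h2 := sw_bf ω j (x a')
  rw [h] at h1 h2
  exact h2.trans (e.trans h1.symm)

theorem Gm_le (ω ω' : Bits d) (j : Fin d) (x x' : ι → Cube d) (hx : Function.Injective x)
    (z : Fin d → ι → Bool) (h : ∀ a, bf ω (x a) = fun i => z i a)
    (h' : ∀ a, bf ω' (x' a) = fun i => z i a) :
    Gm j x x' z ≤ 2 ^ cyc ω ω' j (univ.image fun a => bf ω (x a)) := by
  have hy : Function.Injective fun a i => z i a := fun a b e =>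
    hx ((bf ω).injective ((h a).trans (e.trans (h b).symm)))
  have := closed_card ω ω' j _ hy
  simp only [h]
  refine le_trans ?_ (show ((_ : ℕ) : ℝ) ≤ _ by exact_mod_cast this)
  rw [Gm_eq, card_filter, Nat.cast_sum]
  refine sum_le_sum fun G _ => ?_
  split_ifs with hG
  · refine (le_abs_self _).trans ?_
    rw [abs_mul, Nat.cast_one]
    exact mul_le_one₀ (abs_avg _ _) (abs_nonneg _) (abs_avg _ _)
  · rw [Nat.cast_zero]
    refine le_of_eq ?_
    by_contra hc
    obtain ⟨h1, h2⟩ := mul_ne_zero_iff.1 hc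
    exact hG ⟨closed_of ω j x z hy h G fun e => h1 (by rw [e, zero_div]),
      closed_of ω' j x' z hy h' G fun e => h2 (by rw [e, zero_div])⟩

end Crest.Agent.H0222.Ax

namespace Crest.Agent.H0222

open Finset Ax

theorem k1 : K1 := by
  intro d ι _ x
  classical
  have hK : ∀ x' : ι ↪ Cube d, Kmat d ι x x' = ∑ z, (∑ ω, ind ω x z) / Fintype.card (Bits d) *
      ((∑ ω, ind ω x' z) / Fintype.card (Bits d)) := fun x' => by
    simp only [Kmat, div_mul_div_comm, ← sum_div, sum_mul_sum, ← sq]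
    congr 1
    rw [sum_comm (s := (univ : Finset (Fin d → ι → Bool)))]
    refine sum_congr rfl fun ω _ => ?_
    rw [sum_comm (s := (univ : Finset (Fin d → ι → Bool)))]
    refine sum_congr rfl fun ω' _ => ?_
    rw [sum_eq_single (fun i a => bf ω (x a) i)]
    · simp [ind, eq_comm]
    · intro z _ hz
      rw [ind, if_neg, zero_mul]
      exact fun h => hz (funext fun i => funext fun a => (congrFun (h a) i).symm)
    · simp
  simp only [hK]
  refine (sum_le_sum fun (x' : ι ↪ Cube d) _ => jensen x x').trans ?_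
  rw [← mul_sum]
  refine mul_le_mul_of_nonneg_left ?_ (by positivity)
  simp only [div_mul_div_comm, ← sq]
  simp only [sum_mul_sum]
  simp only [div_mul_eq_mul_div, ← sum_div, sum_mul]
  refine div_le_div_of_nonneg_right ?_ (by positivity)
  rw [← sum_product', sum_comm]
  refine sum_le_sum fun ω _ => ?_
  rw [sum_comm]
  refine sum_le_sum fun ω' _ => ?_
  set C := (2 : ℝ) ^ (((∑ j : Fin d, cyc ω ω' j (outs ω x) : ℕ) : ℝ) / 127) with hC
  refine le_trans (sum_le_sum (g := fun q : (ι ↪ Cube d) × (Fin d → ι → Bool) =>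
    if (∀ a, bf ω (x a) = fun i => q.2 i a) ∧ ∀ a, bf ω' (q.1 a) = fun i => q.2 i a
      then C else 0) fun q _ => ?_) ?_
  · simp only [ind, ite_mul, one_mul, zero_mul, ← ite_and]
    split_ifs with h
    · rw [hC, div_eq_mul_one_div ((_ : ℕ) : ℝ), Real.rpow_mul (by norm_num), Real.rpow_natCast,
        ← prod_pow_eq_pow_sum]
      refine Real.rpow_le_rpow (prod_nonneg fun j _ => Gm_nonneg ..)
        (prod_le_prod (fun j _ => Gm_nonneg ..) fun j _ => ?_) (by norm_num)
      exact Gm_le ω ω' j x q.1 x.injective q.2 h.1 h.2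
    · exact le_rfl
  · rw [← sum_filter, sum_const, nsmul_eq_mul]
    refine mul_le_of_le_one_left (by positivity) ?_
    norm_cast
    refine card_le_one.2 fun q hq q' hq' => ?_
    obtain ⟨-, a1, a2⟩ := mem_filter.1 hq
    obtain ⟨-, b1, b2⟩ := mem_filter.1 hq'
    refine Prod.ext (DFunLike.ext _ _ fun a => (bf ω').injective ?_) (funext fun i => funext fun a =>
      congrFun ((a1 a).symm.trans (b1 a)) i)
    rw [a2, b2, ← a1, ← b1]

end Crest.Agent.H0222
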