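import Crest.Agent.H0222.Spec

/-! Moment bounds for the node operator. -/

set_option autoImplicit false
set_option linter.unusedSectionVars false

namespace Crest.Agent.H0222

open Finset
open scoped InnerProductSpace

variable {V : Type} [NormedAddCommGroup V] [InnerProductSpace ℝ V]
variable {Z : Type} [Fintype Z] [DecidableEq Z]

structure Osc (τ : Z → V →ₗ[ℝ] V) (B : Z → Z → V →ₗ[ℝ] V) : Prop where
  ts : ∀ z, (τ z).IsSymmetric
  t2 : ∀ z v, τ z (τ z v) = v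
  tc : ∀ z z' v, τ z (τ z' v) = τ z' (τ z v)
  bs : ∀ z z', (B z z').IsSymmetric
  b1 : ∀ z z' v, z ≠ z' → τ z (B z z' v) = -B z z' (τ z v)
  b2 : ∀ z z' v, z ≠ z' → τ z' (B z z' v) = -B z z' (τ z' v)
  b3 : ∀ z z' w v, w ≠ z → w ≠ z' → τ w (B z z' v) = B z z' (τ w v)
  bn : ∀ z z' v, ‖B z z' v‖ ≤ 4 * ‖v‖

noncomputable def Qo (τ : Z → V →ₗ[ℝ] V) (z : Z) : V →ₗ[ℝ] V := (1 / 2 : ℝ) • (1 - τ z)

noncomputable def No (τ : Z → V →ₗ[ℝ] V) : V →ₗ[ℝ] V := ∑ z, Qo τ z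

noncomputable def Xo (τ : Z → V →ₗ[ℝ] V) (B : Z → Z → V →ₗ[ℝ] V) : V →ₗ[ℝ] V :=
  (2 : ℝ) • No τ + (1 / 2 : ℝ) • ∑ p ∈ (univ : Finset Z).offDiag, B p.1 p.2

theorem Qo_apply (τ : Z → V →ₗ[ℝ] V) (z : Z) (v : V) :
    Qo τ z v = (1 / 2 : ℝ) • (v - τ z v) := by simp [Qo]

theorem No_apply (τ : Z → V →ₗ[ℝ] V) (v : V) : No τ v = ∑ z, Qo τ z v := by
  simp [No]

theorem Xo_apply (τ : Z → V →ₗ[ℝ] V) (B : Z → Z → V →ₗ[ℝ] V) (v : V) :
    Xo τ B v = (2 : ℝ) • No τ v + (1 / 2 : ℝ) • ∑ p ∈ (univ : Finset Z).offDiag, B p.1 p.2 v := by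
  simp [Xo]

namespace Osc
variable {τ : Z → V →ₗ[ℝ] V} {B : Z → Z → V →ₗ[ℝ] V} (H : Osc τ B)
include H

theorem Qs (z : Z) (u v : V) : ⟪Qo τ z u, v⟫_ℝ = ⟪u, Qo τ z v⟫_ℝ := by
  rw [Qo_apply, Qo_apply, real_inner_smul_left, real_inner_smul_right, inner_sub_left,
    inner_sub_right, H.ts z u v]

theorem tQ (z z' : Z) (v : V) : τ z (Qo τ z' v) = Qo τ z' (τ z v) := by
  rw [Qo_apply, Qo_apply, map_smul, map_sub, H.tc]

theorem Qc (z z' : Z) (v : V) : Qo τ z (Qo τ z' v) = Qo τ z' (Qo τ z v) := by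
  rw [Qo_apply τ z (Qo τ z' v), H.tQ, ← map_sub, ← map_smul, ← Qo_apply]

theorem QQ (z : Z) (v : V) : Qo τ z (Qo τ z v) = Qo τ z v := by
  rw [Qo_apply τ z (Qo τ z v), Qo_apply, map_smul, map_sub, H.t2]
  module

theorem nQ (z : Z) (v : V) : ‖Qo τ z v‖ ^ 2 = ⟪v, Qo τ z v⟫_ℝ := by
  rw [← real_inner_self_eq_norm_sq, H.Qs, H.QQ]

theorem Ns : (No τ).IsSymmetric := by
  intro u v
  rw [No_apply, No_apply, sum_inner, inner_sum]
  exact sum_congr rfl fun z _ => H.Qs z u v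

theorem inner_N (v : V) : ⟪v, No τ v⟫_ℝ = ∑ z, ‖Qo τ z v‖ ^ 2 := by
  rw [No_apply, inner_sum]; exact sum_congr rfl fun z _ => (H.nQ z v).symm

theorem Npos (v : V) : 0 ≤ ⟪v, No τ v⟫_ℝ := by
  rw [H.inner_N]; positivity

theorem norm_N (v : V) : ‖No τ v‖ ^ 2 = ∑ z, ∑ z', ‖Qo τ z (Qo τ z' v)‖ ^ 2 := by
  rw [← real_inner_self_eq_norm_sq, No_apply, sum_inner]
  refine sum_congr rfl fun z _ => ?_
  rw [inner_sum]
  refine sum_congr rfl fun z' _ => ?_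
  rw [H.nQ, H.Qs z', H.Qc z' z, H.QQ, H.Qs z]

theorem tN (z : Z) (v : V) : τ z (No τ v) = No τ (τ z v) := by
  rw [No_apply, No_apply, map_sum]; exact sum_congr rfl fun z' _ => H.tQ z z' v

theorem QB1 {z z' : Z} (h : z ≠ z') (v : V) : Qo τ z (B z z' v) = B z z' (v - Qo τ z v) := by
  rw [Qo_apply, Qo_apply, H.b1 _ _ _ h, map_sub, map_smul, map_sub]; module

theorem QB2 {z z' : Z} (h : z ≠ z') (v : V) : Qo τ z' (B z z' v) = B z z' (v - Qo τ z' v) := by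
  rw [Qo_apply, Qo_apply, H.b2 _ _ _ h, map_sub, map_smul, map_sub]; module

theorem QB3 {z z' w : Z} (h : w ≠ z) (h' : w ≠ z') (v : V) :
    Qo τ w (B z z' v) = B z z' (Qo τ w v) := by
  rw [Qo_apply, Qo_apply, H.b3 _ _ _ _ h h', map_smul, map_sub]

theorem NB {z z' : Z} (h : z ≠ z') (v : V) :
    No τ (B z z' v) = B z z' (No τ v + τ z v + τ z' v) := by
  have key : ∀ y, Qo τ y (B z z' v) = B z z' (Qo τ y v + (if y = z then τ z v else 0)
      + (if y = z' then τ z' v else 0)) := by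
    intro y
    by_cases h1 : y = z
    · subst h1
      rw [H.QB1 h, if_pos rfl, if_neg h, Qo_apply]; congr 1; module
    by_cases h2 : y = z'
    · subst h2
      rw [H.QB2 h, if_pos rfl, if_neg h1, Qo_apply]; congr 1; module
    · rw [H.QB3 h1 h2, if_neg h1, if_neg h2, add_zero, add_zero]
  rw [No_apply, No_apply, sum_congr rfl fun y _ => key y, ← map_sum]
  simp [sum_add_distrib]

theorem Xs : (Xo τ B).IsSymmetric := by
  intro u v
  rw [Xo_apply, Xo_apply, inner_add_left, inner_add_right, real_inner_smul_left,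
    real_inner_smul_right, real_inner_smul_left, real_inner_smul_right, H.Ns u v, sum_inner,
    inner_sum]
  congr 2
  exact sum_congr rfl fun p _ => H.bs _ _ u v

theorem fil_B {z z' : Z} (hz : z ≠ z') {c : ℝ} {h : V} (hh : Fil (No τ) c h) :
    Fil (No τ) (c + 2) (B z z' h) := by
  intro μ w hμ hw
  rw [← H.bs z z' w h]
  have part : ∀ (w' : V) (α β : ℝ), -1 ≤ α → -1 ≤ β → No τ w' = μ • w' → τ z w' = α • w' →
      τ z' w' = β • w' → ⟪B z z' w', h⟫_ℝ = 0 := by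
    intro w' α β ha hb h1 h2 h3
    refine hh (μ + α + β) _ (by linarith) ?_
    rw [H.NB hz, h1, h2, h3, ← add_smul, ← add_smul, map_smul]
  have pr : ∀ (y : Z) (α : ℝ) (v : V), α * α = 1 →
      τ y (v + α • τ y v) = α • (v + α • τ y v) := by
    intro y α v hα
    rw [map_add, map_smul, H.t2, smul_add, smul_smul, hα, one_smul, add_comm]
  have part2 : ∀ α β : ℝ, α * α = 1 → β * β = 1 → -1 ≤ α → -1 ≤ β →
      ⟪B z z' ((w + β • τ z' w) + α • τ z (w + β • τ z' w)), h⟫_ℝ = 0 := by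
    intro α β h1 h2 h3 h4
    refine part _ α β h3 h4 ?_ (pr z α _ h1) ?_
    · simp only [map_add, map_smul, ← H.tN, hw]; module
    · rw [map_add, map_smul, H.tc z' z, pr z' β _ h2, map_smul]; module
  have e : w = (1 / 4 : ℝ) • (((w + (1 : ℝ) • τ z' w) + (1 : ℝ) • τ z (w + (1 : ℝ) • τ z' w)) +
      ((w + (1 : ℝ) • τ z' w) + (-1 : ℝ) • τ z (w + (1 : ℝ) • τ z' w)) +
      ((w + (-1 : ℝ) • τ z' w) + (1 : ℝ) • τ z (w + (-1 : ℝ) • τ z' w)) +
      ((w + (-1 : ℝ) • τ z' w) + (-1 : ℝ) • τ z (w + (-1 : ℝ) • τ z' w))) := by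
    module
  rw [e, map_smul, real_inner_smul_left, map_add, map_add, map_add, inner_add_left,
    inner_add_left, inner_add_left, part2 1 1 (by norm_num) (by norm_num) (by norm_num)
    (by norm_num), part2 (-1) 1 (by norm_num) (by norm_num) (by norm_num) (by norm_num),
    part2 1 (-1) (by norm_num) (by norm_num) (by norm_num) (by norm_num),
    part2 (-1) (-1) (by norm_num) (by norm_num) (by norm_num) (by norm_num)]
  simp

theorem fil_X {c : ℝ} {h : V} (hh : Fil (No τ) c h) : Fil (No τ) (c + 2) (Xo τ B h) := by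
  intro μ w hμ hw
  rw [Xo_apply, inner_add_right, real_inner_smul_right, real_inner_smul_right, ← H.Ns w h, hw,
    real_inner_smul_left, hh μ w (by linarith) hw, inner_sum,
    sum_eq_zero fun p hp => H.fil_B (mem_offDiag.1 hp).2.2 hh μ w hμ hw]
  simp

theorem inner_B_le {z z' : Z} (hz : z ≠ z') (w h : V) :
    ⟪w, B z z' h⟫_ℝ ≤ 4 * (‖Qo τ z (Qo τ z' w)‖ * ‖h‖ + ‖Qo τ z w‖ * ‖Qo τ z' h‖ +
      ‖Qo τ z' w‖ * ‖Qo τ z h‖ + ‖w‖ * ‖Qo τ z (Qo τ z' h)‖) := by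
  have e : B z z' h = Qo τ z' (Qo τ z (B z z' h)) + Qo τ z (B z z' (Qo τ z' h)) +
      Qo τ z' (B z z' (Qo τ z h)) + B z z' (Qo τ z (Qo τ z' h)) := by
    rw [H.QB1 hz, H.QB2 hz, H.QB1 hz, H.QB2 hz]
    simp only [map_sub, H.Qc z' z]
    abel
  have bd : ∀ a b : V, ⟪a, B z z' b⟫_ℝ ≤ 4 * (‖a‖ * ‖b‖) := by
    intro a b
    have h1 := real_inner_le_norm a (B z z' b)
    have h2 := mul_le_mul_of_nonneg_left (H.bn z z' b) (norm_nonneg a)
    linarith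
  rw [e, inner_add_right, inner_add_right, inner_add_right, ← H.Qs z', ← H.Qs z, ← H.Qs z,
    ← H.Qs z']
  have h1 := bd (Qo τ z (Qo τ z' w)) h
  have h2 := bd (Qo τ z w) (Qo τ z' h)
  have h3 := bd (Qo τ z' w) (Qo τ z h)
  have h4 := bd w (Qo τ z (Qo τ z' h))
  linarith

variable [FiniteDimensional ℝ V]

theorem sum_QQ_le {c : ℝ} (hc : 0 ≤ c) {h : V} (hh : Fil (No τ) c h) :
    ∑ p ∈ (univ : Finset Z).offDiag, ‖Qo τ p.1 (Qo τ p.2 h)‖ ≤ Fintype.card Z * c * ‖h‖ := by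
  have h1 := fil_bound H.Ns H.Npos hh 1 0 (c ^ 2) (fun μ h0 h1 => by nlinarith)
  rw [H.norm_N, ← sum_product'] at h1
  have h2 : ∑ p ∈ (univ : Finset Z).offDiag, ‖Qo τ p.1 (Qo τ p.2 h)‖ ≤
      ∑ p ∈ (univ : Finset Z) ×ˢ (univ : Finset Z), ‖Qo τ p.1 (Qo τ p.2 h)‖ :=
    sum_le_sum_of_subset_of_nonneg (fun p _ => by simp) (fun _ _ _ => norm_nonneg _)
  refine h2.trans (abs_le_of_sq_le_sq' ?_ (by positivity)).2
  refine (sq_sum_le_card_mul_sum_sq).trans ?_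
  rw [card_product, card_univ]
  push_cast
  have : (0 : ℝ) ≤ (Fintype.card Z : ℝ) * Fintype.card Z := by positivity
  nlinarith [mul_le_mul_of_nonneg_left h1 this]

theorem sum_Q_sq_le {c : ℝ} {h : V} (hh : Fil (No τ) c h) :
    (∑ z, ‖Qo τ z h‖) ^ 2 ≤ Fintype.card Z * c * ‖h‖ ^ 2 := by
  have h1 := fil_bound H.Ns H.Npos hh 0 1 c (fun μ h0 h1 => by nlinarith)
  rw [H.inner_N] at h1
  refine (sq_sum_le_card_mul_sum_sq).trans ?_
  rw [card_univ]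
  have : (0 : ℝ) ≤ (Fintype.card Z : ℝ) := by positivity
  nlinarith [mul_le_mul_of_nonneg_left h1 this]

theorem norm_X_le {c : ℝ} (hc : 0 ≤ c) {h : V} (hh : Fil (No τ) c h) :
    ‖Xo τ B h‖ ≤ (2 * c + 8 * Fintype.card Z * (c + 1)) * ‖h‖ := by
  set w := Xo τ B h with hw
  have hwf : Fil (No τ) (c + 2) w := H.fil_X hh
  set m : ℝ := (Fintype.card Z : ℝ) with hm
  have hm0 : 0 ≤ m := by positivity
  have hN : ‖No τ h‖ ≤ c * ‖h‖ := by
    have h1 := fil_bound H.Ns H.Npos hh 1 0 (c ^ 2) (fun μ h0 h1 => by nlinarith)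
    refine (abs_le_of_sq_le_sq' ?_ (by positivity)).2
    nlinarith
  have h1 := H.sum_QQ_le (by linarith) hwf
  have h2 := H.sum_QQ_le hc hh
  have h3 : (∑ z, ‖Qo τ z w‖) * (∑ z, ‖Qo τ z h‖) ≤ m * (c + 1) * ‖w‖ * ‖h‖ := by
    refine (abs_le_of_sq_le_sq' ?_ (by positivity)).2
    have a1 := H.sum_Q_sq_le hwf
    have a2 := H.sum_Q_sq_le hh
    rw [mul_pow]
    calc _ ≤ (m * (c + 2) * ‖w‖ ^ 2) * (m * c * ‖h‖ ^ 2) :=
          mul_le_mul a1 a2 (sq_nonneg _) (by positivity)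
      _ = (m * ‖w‖ * ‖h‖) ^ 2 * ((c + 2) * c) := by ring
      _ ≤ (m * ‖w‖ * ‖h‖) ^ 2 * ((c + 1) ^ 2) :=
          mul_le_mul_of_nonneg_left (by nlinarith) (sq_nonneg _)
      _ = _ := by ring
  have h4 : ∑ p ∈ (univ : Finset Z).offDiag, ‖Qo τ p.1 w‖ * ‖Qo τ p.2 h‖ ≤
      m * (c + 1) * ‖w‖ * ‖h‖ := by
    refine le_trans ?_ h3
    rw [sum_mul_sum, ← sum_product']
    exact sum_le_sum_of_subset_of_nonneg (fun p _ => by simp) (fun _ _ _ => by positivity)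
  have h5 : ∑ p ∈ (univ : Finset Z).offDiag, ‖Qo τ p.2 w‖ * ‖Qo τ p.1 h‖ ≤
      m * (c + 1) * ‖w‖ * ‖h‖ := by
    refine le_trans ?_ h3
    rw [mul_comm, sum_mul_sum, ← sum_product']
    simp_rw [mul_comm ‖Qo τ _ h‖]
    exact sum_le_sum_of_subset_of_nonneg (fun p _ => by simp) (fun _ _ _ => by positivity)
  have h6 : ∑ p ∈ (univ : Finset Z).offDiag, ⟪w, B p.1 p.2 h⟫_ℝ ≤
      4 * (m * (c + 2) * ‖w‖ * ‖h‖ + m * (c + 1) * ‖w‖ * ‖h‖ + m * (c + 1) * ‖w‖ * ‖h‖ +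
        ‖w‖ * (m * c * ‖h‖)) := by
    refine (sum_le_sum fun p hp => H.inner_B_le (mem_offDiag.1 hp).2.2 w h).trans ?_
    rw [← mul_sum, sum_add_distrib, sum_add_distrib, sum_add_distrib, ← sum_mul, ← mul_sum]
    gcongr
  have h7 : ‖w‖ ^ 2 = 2 * ⟪w, No τ h⟫_ℝ +
      1 / 2 * ∑ p ∈ (univ : Finset Z).offDiag, ⟪w, B p.1 p.2 h⟫_ℝ := by
    rw [← real_inner_self_eq_norm_sq]
    conv_lhs => rw [hw]
    rw [← hw]
    conv_lhs => arg 3; rw [hw, Xo_apply]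
    rw [inner_add_right, real_inner_smul_right, real_inner_smul_right, inner_sum]
  have h8 : ⟪w, No τ h⟫_ℝ ≤ ‖w‖ * (c * ‖h‖) :=
    (real_inner_le_norm _ _).trans (mul_le_mul_of_nonneg_left hN (norm_nonneg _))
  have h9 : ‖w‖ * ‖w‖ ≤ ‖w‖ * ((2 * c + 8 * m * (c + 1)) * ‖h‖) := by nlinarith
  rcases (norm_nonneg w).eq_or_lt with h0 | h0
  · rw [← h0]; positivity
  · exact le_of_mul_le_mul_left h9 h0

theorem fil_zero {g : V} (hg : ∀ z, τ z g = g) : Fil (No τ) 0 g := by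
  intro μ w hμ hw
  refine inner_eig_zero H.Ns hw (ν := 0) ?_ hμ.ne'
  rw [No_apply, sum_eq_zero, zero_smul]
  intro z _
  rw [Qo_apply, hg, sub_self, smul_zero]

theorem inner_X_zero {g : V} (hg : ∀ z, τ z g = g) : ⟪g, Xo τ B g⟫_ℝ = 0 := by
  have hQ : ∀ z, Qo τ z g = 0 := fun z => by rw [Qo_apply, hg, sub_self, smul_zero]
  have hN : No τ g = 0 := by rw [No_apply, sum_eq_zero fun z _ => hQ z]
  rw [Xo_apply, hN, smul_zero, zero_add, real_inner_smul_right, inner_sum, sum_eq_zero, mul_zero]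
  intro p hp
  have hz := (mem_offDiag.1 hp).2.2
  have e : B p.1 p.2 g = Qo τ p.1 (B p.1 p.2 g) := by rw [H.QB1 hz, hQ, sub_zero]
  rw [e, ← H.Qs, hQ, inner_zero_left]

theorem norm_X_zero {g : V} (hg : ∀ z, τ z g = g) :
    ‖Xo τ B g‖ ^ 2 ≤ 1 / 2 * ∑ p ∈ (univ : Finset Z).offDiag, ‖B p.1 p.2 g‖ ^ 2 := by
  set w := Xo τ B g with hw
  have hwf : Fil (No τ) (0 + 2) w := H.fil_X (H.fil_zero hg)
  have hQ : ∀ z, Qo τ z g = 0 := fun z => by rw [Qo_apply, hg, sub_self, smul_zero]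
  have hN : No τ g = 0 := by rw [No_apply, sum_eq_zero fun z _ => hQ z]
  have h1 := fil_bound H.Ns H.Npos hwf 1 (-1) 2 (fun μ h0 h1 => by nlinarith)
  have h2 : ∑ p ∈ (univ : Finset Z).offDiag, ‖Qo τ p.1 (Qo τ p.2 w)‖ ^ 2 ≤ 2 * ‖w‖ ^ 2 := by
    rw [H.norm_N, H.inner_N, ← sum_product', ← diag_union_offDiag,
      sum_union (disjoint_diag_offDiag _), sum_diag] at h1
    simp only [H.QQ] at h1
    linarith
  have h3 : ∀ p ∈ (univ : Finset Z).offDiag, ⟪w, B p.1 p.2 g⟫_ℝ ≤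
      ‖Qo τ p.1 (Qo τ p.2 w)‖ * ‖B p.1 p.2 g‖ := by
    intro p hp
    have hz := (mem_offDiag.1 hp).2.2
    have e : B p.1 p.2 g = Qo τ p.2 (Qo τ p.1 (B p.1 p.2 g)) := by
      rw [H.QB1 hz, hQ, sub_zero, H.QB2 hz, hQ, sub_zero]
    conv_lhs => rw [e]
    rw [← H.Qs, ← H.Qs]
    exact real_inner_le_norm _ _
  have h7 : ‖w‖ ^ 2 = 1 / 2 * ∑ p ∈ (univ : Finset Z).offDiag, ⟪w, B p.1 p.2 g⟫_ℝ := by
    rw [← real_inner_self_eq_norm_sq]
    conv_lhs => arg 3; rw [hw, Xo_apply]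
    rw [hN, smul_zero, zero_add, real_inner_smul_right, inner_sum]
  have h8 : ∑ p ∈ (univ : Finset Z).offDiag, ⟪w, B p.1 p.2 g⟫_ℝ ≤
      ∑ p ∈ (univ : Finset Z).offDiag, (1 / 2 * ‖Qo τ p.1 (Qo τ p.2 w)‖ ^ 2 +
        1 / 2 * ‖B p.1 p.2 g‖ ^ 2) :=
    sum_le_sum fun p hp => (h3 p hp).trans (by
      nlinarith [sq_nonneg (‖Qo τ p.1 (Qo τ p.2 w)‖ - ‖B p.1 p.2 g‖)])
  rw [sum_add_distrib, ← mul_sum, ← mul_sum] at h8
  linarith

end Osc

/-- exponential moment from the growth of `‖D^p g‖` -/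
theorem exp_moment {D : V →ₗ[ℝ] V} (hD : D.IsSymmetric) (S : Finset ℝ) (v : ℝ → V)
    (hv : ∀ x, D (v x) = x • v x) (κ a : ℝ) (ha0 : 0 ≤ a) (ha : a ≤ 1 / 10)
    (h0 : ⟪∑ x ∈ S, v x, D (∑ x ∈ S, v x)⟫_ℝ = 0)
    (h1 : ‖D (∑ x ∈ S, v x)‖ ^ 2 ≤ κ * ‖∑ x ∈ S, v x‖ ^ 2)
    (h2 : ∀ p : ℕ, ‖(D ^ (p + 1)) (∑ x ∈ S, v x)‖ ≤ (10 * p + 4) * ‖(D ^ p) (∑ x ∈ S, v x)‖) :
    ∑ x ∈ S, Real.exp (a * x) * ‖v x‖ ^ 2 ≤ (1 + a ^ 2 * κ) * ‖∑ x ∈ S, v x‖ ^ 2 := by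
  set g := ∑ x ∈ S, v x with hg
  have hp : ∀ (p : ℕ) x, (D ^ p) (v x) = x ^ p • v x := by
    intro p x
    induction p with
    | zero => simp
    | succ p ih => rw [pow_succ', Module.End.mul_apply, ih, map_smul, hv, smul_smul, pow_succ]
  have hpq : ∀ p q : ℕ, ⟪(D ^ p) g, (D ^ q) g⟫_ℝ = ∑ x ∈ S, x ^ (p + q) * ‖v x‖ ^ 2 := by
    intro p q
    rw [hg, map_sum, map_sum, inner_sum_eig hD S (v := fun x => (D ^ p) (v x))
      (w := fun x => (D ^ q) (v x)) (fun x => by rw [hp, map_smul, hv, smul_comm])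
      (fun x => by rw [hp, map_smul, hv, smul_comm])]
    refine sum_congr rfl fun x _ => ?_
    rw [hp, hp, real_inner_smul_left, real_inner_smul_right, real_inner_self_eq_norm_sq]; ring
  set M : ℕ → ℝ := fun p => ∑ x ∈ S, x ^ p * ‖v x‖ ^ 2 with hM
  set N := ‖g‖ ^ 2 with hN
  have hκN : 0 ≤ κ * N := (sq_nonneg _).trans h1
  have hM0 : M 0 = N := by
    have := hpq 0 0
    simp only [pow_zero, Module.End.one_apply, real_inner_self_eq_norm_sq, add_zero] at this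
    simp only [hM, pow_zero]; exact this.symm
  have hM1 : M 1 = 0 := by
    have := hpq 0 1
    simp only [pow_zero, pow_one, Module.End.one_apply, h0, zero_add] at this
    simp only [hM, pow_one]; exact this.symm
  have heven : ∀ i : ℕ, ‖(D ^ (i + 1)) g‖ ^ 2 ≤
      κ * N / 2 * ((2 * i + 2).factorial : ℝ) * 5 ^ (2 * i) := by
    intro i
    induction i with
    | zero => simp only [zero_add, pow_one]; norm_num [Nat.factorial]; linarith
    | succ i ih =>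
      have a1 := h2 (i + 1)
      have a2 : ‖(D ^ (i + 1 + 1)) g‖ ^ 2 ≤ (10 * ((i + 1 : ℕ) : ℝ) + 4) ^ 2 *
          ‖(D ^ (i + 1)) g‖ ^ 2 := by
        rw [← mul_pow]; exact pow_le_pow_left₀ (norm_nonneg _) a1 2
      have a3 : (10 * ((i + 1 : ℕ) : ℝ) + 4) ^ 2 ≤ 25 * ((2 * i + 4) * (2 * i + 3)) := by
        push_cast; nlinarith [(Nat.cast_nonneg i : (0 : ℝ) ≤ i)]
      have a4 : ((2 * (i + 1) + 2).factorial : ℝ) =
          (2 * i + 4) * (2 * i + 3) * ((2 * i + 2).factorial : ℝ) := by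
        rw [show 2 * (i + 1) + 2 = (2 * i + 2) + 1 + 1 by ring, Nat.factorial_succ,
          Nat.factorial_succ]
        push_cast; ring
      rw [a4]
      calc _ ≤ _ := a2
        _ ≤ (25 * ((2 * i + 4) * (2 * i + 3))) *
            (κ * N / 2 * ((2 * i + 2).factorial : ℝ) * 5 ^ (2 * i)) :=
          mul_le_mul a3 ih (sq_nonneg _) (by positivity)
        _ = _ := by ring
  have hall : ∀ p : ℕ, M (p + 2) ≤ κ * N / 2 * ((p + 2).factorial : ℝ) * 5 ^ p := by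
    intro p
    obtain ⟨i, rfl | rfl⟩ := Nat.even_or_odd' p
    · have := hpq (i + 1) (i + 1)
      rw [real_inner_self_eq_norm_sq, show i + 1 + (i + 1) = 2 * i + 2 by ring] at this
      exact this.symm.le.trans (heven i)
    · have := hpq (i + 1) (i + 1 + 1)
      rw [show i + 1 + (i + 1 + 1) = 2 * i + 1 + 2 by ring] at this
      have a1 := real_inner_le_norm ((D ^ (i + 1)) g) ((D ^ (i + 1 + 1)) g)
      have a2 := mul_le_mul_of_nonneg_left (h2 (i + 1)) (norm_nonneg ((D ^ (i + 1)) g))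
      have a4 : ((2 * i + 1 + 2).factorial : ℝ) = (2 * i + 3) * ((2 * i + 2).factorial : ℝ) := by
        rw [show 2 * i + 1 + 2 = (2 * i + 2) + 1 by ring, Nat.factorial_succ]
        push_cast; ring
      have a3 : (10 * ((i + 1 : ℕ) : ℝ) + 4) ≤ 5 * (2 * i + 3) := by push_cast; linarith
      rw [a4]
      calc M (2 * i + 1 + 2) = _ := this.symm
        _ ≤ (10 * ((i + 1 : ℕ) : ℝ) + 4) * ‖(D ^ (i + 1)) g‖ ^ 2 := by nlinarith
        _ ≤ (5 * (2 * i + 3)) * (κ * N / 2 * ((2 * i + 2).factorial : ℝ) * 5 ^ (2 * i)) :=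
          mul_le_mul a3 (heven i) (sq_nonneg _) (by positivity)
        _ = _ := by ring
  have hs : HasSum (fun p : ℕ => a ^ p / (p.factorial : ℝ) * M p)
      (∑ x ∈ S, Real.exp (a * x) * ‖v x‖ ^ 2) := by
    have : ∀ x ∈ S, HasSum (fun p : ℕ => (a * x) ^ p / (p.factorial : ℝ) * ‖v x‖ ^ 2)
        (Real.exp (a * x) * ‖v x‖ ^ 2) := by
      intro x _
      refine HasSum.mul_right _ ?_
      rw [Real.exp_eq_exp_ℝ]
      exact NormedSpace.expSeries_div_hasSum_exp (a * x)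
    convert hasSum_sum this using 2 with p
    simp only [hM, mul_sum]
    exact sum_congr rfl fun x _ => by ring
  have hs2 := (hasSum_nat_add_iff' 2).2 hs
  have hg2 : HasSum (fun p : ℕ => a ^ 2 * κ * N / 2 * (1 / 2 : ℝ) ^ p) (a ^ 2 * κ * N / 2 * 2) :=
    hasSum_geometric_two.mul_left _
  have hle := hasSum_le (fun p => ?_) hs2 hg2
  · simp only [sum_range_succ, sum_range_zero, hM0, hM1] at hle
    norm_num at hle
    linarith
  · have hf : (0 : ℝ) < ((p + 2).factorial : ℝ) := by positivity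
    have b1 : (5 * a) ^ p ≤ (1 / 2 : ℝ) ^ p := pow_le_pow_left₀ (by positivity) (by linarith) p
    calc a ^ (p + 2) / ((p + 2).factorial : ℝ) * M (p + 2)
        ≤ a ^ (p + 2) / ((p + 2).factorial : ℝ) * (κ * N / 2 * ((p + 2).factorial : ℝ) * 5 ^ p) :=
          mul_le_mul_of_nonneg_left (hall p) (by positivity)
      _ = a ^ 2 * (κ * N) / 2 * (5 * a) ^ p := by field_simp; ring
      _ ≤ a ^ 2 * (κ * N) / 2 * (1 / 2 : ℝ) ^ p :=
          mul_le_mul_of_nonneg_left b1 (by positivity)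
      _ = _ := by ring

end Crest.Agent.H0222
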