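import Crest.Agent.H0222.Rep
import Crest.Agent.H0222.Osc

/-! The contraction bound `‖Â f‖² ≤ exp (-0.08 ε) ‖f‖²`. -/

set_option autoImplicit false
set_option linter.unusedSectionVars false

namespace Crest.Agent.H0222

open Finset Equiv
open scoped InnerProductSpace

variable {V : Type} [NormedAddCommGroup V] [InnerProductSpace ℝ V]
variable {d : ℕ}

def cs (s : Bool) (z : Cube d) : Cube (d + 1) := Fin.cons s z

@[simp] theorem cs_inj {s s' : Bool} {z z' : Cube d} : cs s z = cs s' z' ↔ s = s' ∧ z = z' := by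
  unfold cs; exact Fin.cons_inj

theorem cs_tail (x : Cube (d + 1)) : cs (x 0) (Fin.tail x) = x := Fin.cons_self_tail x

def consE (s : Bool) : Cube d ↪ Cube (d + 1) := ⟨cs s, fun _ _ h => (cs_inj.1 h).2⟩

noncomputable def emb (s : Bool) : Perm (Cube d) →* Perm (Cube (d + 1)) :=
  Perm.viaEmbeddingHom (consE s)

theorem emb_same (s : Bool) (σ : Perm (Cube d)) (z : Cube d) : emb s σ (cs s z) = cs s (σ z) :=
  Perm.viaEmbedding_apply σ (consE s) z

theorem emb_other {s s' : Bool} (h : s' ≠ s) (σ : Perm (Cube d)) (z : Cube d) :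
    emb s σ (cs s' z) = cs s' z := by
  refine Perm.viaEmbedding_apply_of_notMem σ (consE s) _ ?_
  rintro ⟨y, hy⟩
  exact h (cs_inj.1 hy).1.symm

theorem perm_ext_cs {g h : Perm (Cube (d + 1))} (H : ∀ s z, g (cs s z) = h (cs s z)) : g = h := by
  ext1 x
  rw [← cs_tail x]; exact H _ _

theorem emb_swap (s : Bool) (z z' : Cube d) : emb s (swap z z') = swap (cs s z) (cs s z') := by
  refine perm_ext_cs fun s' w => ?_
  by_cases h : s' = s
  · subst h
    rw [emb_same]
    exact (Function.Injective.swap_apply (consE s').injective z z' w).symm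
  · rw [emb_other h, swap_apply_of_ne_of_ne] <;> simp [h]

theorem emb_comm (a b : Perm (Cube d)) : emb false a * emb true b = emb true b * emb false a := by
  refine perm_ext_cs fun s w => ?_
  cases s <;> simp [emb_same, emb_other]

def flip0Fun (c : Cube (d + 1) → Bool) (x : Cube (d + 1)) : Cube (d + 1) :=
  cs (xor (x 0) (c (cs false (Fin.tail x)))) (Fin.tail x)

theorem flip0Fun_cs (c : Cube (d + 1) → Bool) (s : Bool) (z : Cube d) :
    flip0Fun c (cs s z) = cs (xor s (c (cs false z))) z := by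
  simp [flip0Fun, cs]

theorem flip0_invol (c : Cube (d + 1) → Bool) : Function.Involutive (flip0Fun c) := by
  intro x
  rw [← cs_tail x, flip0Fun_cs, flip0Fun_cs]; simp

def flip0 (c : Cube (d + 1) → Bool) : Perm (Cube (d + 1)) := (flip0_invol c).toPerm

theorem flip0_cs (c : Cube (d + 1) → Bool) (s : Bool) (z : Cube d) :
    flip0 c (cs s z) = cs (xor s (c (cs false z))) z := flip0Fun_cs c s z

theorem bf_succ (ω : Bits (d + 1)) :
    bf ω = emb false (bf (sub ω false)) * emb true (bf (sub ω true)) * flip0 (ω 0) := by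
  refine perm_ext_cs fun s z => ?_
  have : bf ω (cs s z) = cs (xor s (ω 0 (cs false z)))
      (bf (sub ω (xor s (ω 0 (cs false z)))) z) := by
    rw [bf_apply, bfFun_succ]; simp [cs, bf_apply]
  rw [this, Perm.mul_apply, Perm.mul_apply, flip0_cs]
  generalize xor s (ω 0 (cs false z)) = s'
  cases s' <;> simp [emb_same, emb_other]

def bitsEquiv (d : ℕ) : Bits (d + 1) ≃ Bits d × Bits d × (Cube (d + 1) → Bool) where
  toFun ω := (sub ω false, sub ω true, ω 0)
  invFun p := Fin.cons p.2.2 (fun j z => if z 0 then p.2.1 j (Fin.tail z) else p.1 j (Fin.tail z))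
  left_inv ω := by
    funext j z
    refine Fin.cases ?_ (fun j => ?_) j
    · simp
    · simp only [Fin.cons_succ, sub]
      conv_rhs => rw [← Fin.cons_self_tail z]
      cases z 0 <;> simp
  right_inv p := by
    obtain ⟨a, b, c⟩ := p
    simp only [Prod.mk.injEq]
    refine ⟨?_, ?_, ?_⟩
    · funext j z; simp [sub]
    · funext j z; simp [sub]
    · simp

noncomputable def Eop (ρ : Perm (Cube (d + 1)) →* (V →ₗ[ℝ] V)) (v : V) : V :=
  (Fintype.card (Cube (d + 1) → Bool) : ℝ)⁻¹ • ∑ c, ρ (flip0 c) v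

theorem sum3_comm {A B C M : Type} [Fintype A] [Fintype B] [Fintype C] [AddCommMonoid M]
    (F : A → B → C → M) : ∑ a, ∑ b, ∑ c, F a b c = ∑ c, ∑ b, ∑ a, F a b c := by
  rw [sum_comm]
  simp_rw [sum_comm (s := (univ : Finset A)) (t := (univ : Finset C))]
  rw [sum_comm]

theorem Aop_succ (ρ : Perm (Cube (d + 1)) →* (V →ₗ[ℝ] V)) (v : V) :
    Aop ρ v = Aop (ρ.comp (emb false)) (Aop (ρ.comp (emb true)) (Eop ρ v)) := by
  rw [Aop_apply, Fintype.card_congr (bitsEquiv d),
    Fintype.sum_equiv (bitsEquiv d) _ (fun p => ρ (emb false (bf p.1))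
      (ρ (emb true (bf p.2.1)) (ρ (flip0 p.2.2) v)))
      (fun ω => by rw [bf_succ, rep_mul, rep_mul]; rfl)]
  simp only [Aop_apply, Eop, map_smul, map_sum, Fintype.sum_prod_type, Fintype.card_prod,
    MonoidHom.comp_apply, smul_smul, ← smul_sum]
  congr 1
  · push_cast
    rw [mul_inv, mul_inv]; ring
  · exact sum3_comm (fun a b c => ρ (emb false (bf a)) (ρ (emb true (bf b)) (ρ (flip0 c) v)))

def tz (z : Cube d) : Perm (Cube (d + 1)) := swap (cs false z) (cs true z)

theorem tz_same (z : Cube d) (s : Bool) : tz z (cs s z) = cs (!s) z := by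
  cases s <;> simp [tz]

theorem tz_other {z z' : Cube d} (h : z' ≠ z) (s : Bool) : tz z (cs s z') = cs s z' := by
  rw [tz, swap_apply_of_ne_of_ne] <;> simp [h]

theorem tz_flip0 (z : Cube d) (c : Cube (d + 1) → Bool) :
    tz z * flip0 c = flip0 (Function.update c (cs false z) (!c (cs false z))) := by
  refine perm_ext_cs fun s w => ?_
  rw [Perm.mul_apply, flip0_cs, flip0_cs]
  by_cases h : w = z
  · subst h; rw [tz_same]; simp
  · rw [tz_other h, Function.update_of_ne (by simp [h])]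

theorem tz_Eop (ρ : Perm (Cube (d + 1)) →* (V →ₗ[ℝ] V)) (z : Cube d) (v : V) :
    ρ (tz z) (Eop ρ v) = Eop ρ v := by
  rw [Eop, map_smul, map_sum]
  congr 1
  have hinv : Function.Involutive
      (fun c : Cube (d + 1) → Bool => Function.update c (cs false z) (!c (cs false z))) := by
    intro c; simp
  refine Fintype.sum_equiv hinv.toPerm _ _ fun c => ?_
  rw [rep_mul, tz_flip0]; rfl

noncomputable def tauN (ρ : Perm (Cube (d + 1)) →* (V →ₗ[ℝ] V)) (z : Cube d) : V →ₗ[ℝ] V :=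
  ρ (tz z)

noncomputable def BN (ρ : Perm (Cube (d + 1)) →* (V →ₗ[ℝ] V)) (z z' : Cube d) : V →ₗ[ℝ] V :=
  ρ (swap (cs false z) (cs false z')) + ρ (swap (cs true z) (cs true z'))
    - ρ (swap (cs false z) (cs true z')) - ρ (swap (cs true z) (cs false z'))

theorem BN_apply (ρ : Perm (Cube (d + 1)) →* (V →ₗ[ℝ] V)) (z z' : Cube d) (v : V) :
    BN ρ z z' v = ρ (swap (cs false z) (cs false z')) v + ρ (swap (cs true z) (cs true z')) v
    - ρ (swap (cs false z) (cs true z')) v - ρ (swap (cs true z) (cs false z')) v := rfl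

variable {ρ : Perm (Cube (d + 1)) →* (V →ₗ[ℝ] V)}

theorem osc_node (hρ : Iso ρ) : Osc (tauN ρ) (BN ρ) where
  ts z := hρ.swap_symm _ _
  t2 z v := rep_swap_swap ρ _ _ v
  tc z z' v := by
    by_cases h : z' = z
    · rw [h]
    · simp only [tauN]
      conv_lhs => rw [show tz z' = swap (cs false z') (cs true z') from rfl, rep_conj,
        tz_other h, tz_other h]
      rfl
  bs z z' u v := by
    simp only [BN_apply, inner_add_left, inner_add_right, inner_sub_left, inner_sub_right,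
      (hρ.swap_symm _ _) u v]
  b1 z z' v h := by
    simp only [BN_apply, tauN, map_add, map_sub, rep_conj ρ (tz z), tz_same,
      tz_other (Ne.symm h), Bool.not_true, Bool.not_false]
    abel
  b2 z z' v h := by
    simp only [BN_apply, tauN, map_add, map_sub, rep_conj ρ (tz z'), tz_same,
      tz_other h, Bool.not_true, Bool.not_false]
    abel
  b3 z z' w v h h' := by
    simp only [BN_apply, tauN, map_add, map_sub, rep_conj ρ (tz w),
      tz_other (Ne.symm h), tz_other (Ne.symm h')]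
  bn z z' v := by
    rw [BN_apply]
    refine (norm_sub_le _ _).trans ?_
    have h1 := norm_sub_le (ρ (swap (cs false z) (cs false z')) v +
      ρ (swap (cs true z) (cs true z')) v) (ρ (swap (cs false z) (cs true z')) v)
    have h2 := norm_add_le (ρ (swap (cs false z) (cs false z')) v)
      (ρ (swap (cs true z) (cs true z')) v)
    simp only [hρ.norm_map] at h1 h2 ⊢
    linarith

theorem sum_cube_succ {M : Type} [AddCommMonoid M] (f : Cube (d + 1) → M) :
    ∑ x, f x = ∑ z, f (cs false z) + ∑ z, f (cs true z) := by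
  rw [← (Fin.consEquiv (fun _ : Fin (d + 1) => Bool)).sum_comp, Fintype.sum_prod_type,
    Fintype.sum_bool, add_comm]
  rfl

theorem X_eq (ρ : Perm (Cube (d + 1)) →* (V →ₗ[ℝ] V)) (v : V) :
    Xo (tauN ρ) (BN ρ) v = lap ρ univ v -
      (2 : ℝ) • (lap (ρ.comp (emb false)) univ v + lap (ρ.comp (emb true)) univ v) := by
  have h1 : (2 : ℝ) • No (tauN ρ) v = (1 / 2 : ℝ) • ∑ z, BN ρ z z v := by
    rw [No_apply, smul_sum, smul_sum]
    refine sum_congr rfl fun z _ => ?_
    rw [Qo_apply, BN_apply, swap_self, swap_self, swap_comm (cs true z)]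
    simp only [tauN, tz, ← Perm.one_def, rep_one]
    module
  have h2 : ∑ z, BN ρ z z v + ∑ p ∈ (univ : Finset (Cube d)).offDiag, BN ρ p.1 p.2 v
      = ∑ z, ∑ z', BN ρ z z' v := by
    rw [← sum_product', ← diag_union_offDiag, sum_union (disjoint_diag_offDiag _), sum_diag]
  rw [Xo_apply, h1, ← smul_add, h2, lap_apply, lap_apply, lap_apply]
  simp only [sum_cube_succ (d := d), MonoidHom.comp_apply, emb_swap, BN_apply, sum_add_distrib,
    sum_sub_distrib]
  module

theorem norm_BN_le (hρ : Iso ρ) {g : V} (hg : ∀ z, ρ (tz z) g = g) {z z' : Cube d} (h : z ≠ z') :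
    ‖BN ρ z z' g‖ ^ 2 ≤ 4 * (‖g‖ ^ 2 - ⟪g, ρ (swap (cs false z) (cs false z')) g⟫_ℝ) +
      4 * (‖g‖ ^ 2 - ⟪g, ρ (swap (cs true z) (cs true z')) g⟫_ℝ) := by
  set a := ρ (swap (cs false z) (cs false z')) g with ha
  have hb : ρ (tz z) a = ρ (swap (cs true z) (cs false z')) g := by
    rw [ha, rep_conj, hg, tz_same, tz_other (Ne.symm h)]; rfl
  have hc : ρ (tz z') a = ρ (swap (cs false z) (cs true z')) g := by
    rw [ha, rep_conj, hg, tz_same, tz_other h]; rfl
  have he : ρ (tz z') (ρ (tz z) a) = ρ (swap (cs true z) (cs true z')) g := by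
    rw [hb, rep_conj, hg, tz_same, tz_other h]; rfl
  have hs : ∀ y u w, ⟪ρ (tz y) u, w⟫_ℝ = ⟪u, ρ (tz y) w⟫_ℝ := fun y u w => hρ.swap_symm _ _ u w
  have h2 : ∀ y u, ρ (tz y) (ρ (tz y) u) = u := fun y u => rep_swap_swap ρ _ _ u
  have hcm : ∀ u, ρ (tz z) (ρ (tz z') u) = ρ (tz z') (ρ (tz z) u) := (osc_node hρ).tc z z'
  set x := ⟪g, a⟫_ℝ with hx
  have x1 : ⟪g, ρ (tz z) a⟫_ℝ = x := by rw [← hs, hg]
  have x2 : ⟪g, ρ (tz z') a⟫_ℝ = x := by rw [← hs, hg]
  have x3 : ⟪g, ρ (tz z') (ρ (tz z) a)⟫_ℝ = x := by rw [← hs, hg, x1]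
  have y1 : ⟪a, ρ (tz z) a⟫_ℝ = x := by
    rw [← x1, hb, ha, hρ.swap_symm, rep_conj, swap_apply_right,
      swap_apply_of_ne_of_ne (by simp) (by simp)]
    have : ρ (swap (cs true z) (cs false z)) = ρ (tz z) := by rw [swap_comm]; rfl
    rw [this, ← hs, hg, ← ha, ← hb, x1]
  have y2 : ⟪a, ρ (tz z') a⟫_ℝ = x := by
    rw [← x2, hc, ha, hρ.swap_symm, rep_conj, swap_apply_left,
      swap_apply_of_ne_of_ne (by simp) (by simp)]
    have : ρ (swap (cs false z') (cs true z')) = ρ (tz z') := rfl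
    rw [this, ← hs, hg, ← ha, ← hc, x2]
  have na : ‖a‖ = ‖g‖ := hρ.norm_map _ _
  have y3 : ⟪a, ρ (tz z') (ρ (tz z) a)⟫_ℝ ≤ ‖g‖ ^ 2 := by
    rw [rep_mul, ← na]; exact hρ.inner_le _ _
  set w := a - ρ (tz z) a with hw
  have e : BN ρ z z' g = w - ρ (tz z') w := by
    rw [BN_apply, ← he, ← hb, ← hc, ← ha, hw, map_sub]; abel
  have n1 : ‖w‖ ^ 2 = 2 * ‖g‖ ^ 2 - 2 * x := by
    rw [hw, norm_sub_sq_real, hρ.norm_map (tz z), y1, na]; ring
  have n2 : ⟪w, ρ (tz z') w⟫_ℝ = 2 * x - 2 * ⟪a, ρ (tz z') (ρ (tz z) a)⟫_ℝ := by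
    rw [hw, map_sub, inner_sub_left, inner_sub_right, inner_sub_right, y2, hs z a, hs z a,
      hcm, hcm, h2, y2]
    ring
  rw [e, norm_sub_sq_real, hρ.norm_map, n1, n2, ← he, x3]
  linarith

variable [FiniteDimensional ℝ V]

theorem node_bound (hρ : Iso ρ) (a : ℝ) (ha0 : 0 ≤ a) (ha : a ≤ 1 / 10)
    (IH : ∀ (s : Bool) (f : V) (ε : ℝ), lap (ρ.comp (emb s)) univ f = ((2 : ℝ) ^ d * ε) • f →
      ‖Aop (ρ.comp (emb s)) f‖ ^ 2 ≤ Real.exp (-a * ε) * ‖f‖ ^ 2)
    (f : V) (ε : ℝ) (hf : lap ρ univ f = ((2 : ℝ) ^ (d + 1) * ε) • f) :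
    ‖Aop ρ f‖ ^ 2 ≤ Real.exp (-(a - 1 / 100 / 2 ^ d) * ε) * ‖f‖ ^ 2 := by
  set ρL := ρ.comp (emb false) with hρL
  set ρR := ρ.comp (emb true) with hρR
  have hL : Iso ρL := hρ.comp _
  have hR : Iso ρR := hρ.comp _
  set m : ℝ := 2 ^ d with hm
  have hm0 : 0 < m := by positivity
  have hm1 : 1 ≤ m := one_le_pow₀ (by norm_num)
  have cLR : ∀ a b v, ρL a (ρR b v) = ρR b (ρL a v) := by
    intro a b v
    simp only [hρL, hρR, MonoidHom.comp_apply, rep_mul, emb_comm]
  have lapL_L : ∀ g v, lap ρL univ (ρL g v) = ρL g (lap ρL univ v) :=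
    fun g v => lap_comm ρL univ g (by simp) v
  have lapR_R : ∀ g v, lap ρR univ (ρR g v) = ρR g (lap ρR univ v) :=
    fun g v => lap_comm ρR univ g (by simp) v
  have lapL_R : ∀ g v, lap ρL univ (ρR g v) = ρR g (lap ρL univ v) :=
    fun g v => lap_comm_of ρL univ _ (fun x _ y _ v => cLR _ _ v) v
  have lapR_L : ∀ g v, lap ρR univ (ρL g v) = ρL g (lap ρR univ v) :=
    fun g v => lap_comm_of ρR univ _ (fun x _ y _ v => (cLR _ _ v).symm) v
  have lap_c : ∀ g v, lap ρ univ (ρ g v) = ρ g (lap ρ univ v) :=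
    fun g v => lap_comm ρ univ g (by simp) v
  have lapLR : ∀ v, lap ρL univ (lap ρR univ v) = lap ρR univ (lap ρL univ v) :=
    fun v => lap_comm_of ρL univ _ (fun x _ y _ v => (lapR_L _ v).symm) v
  have lapL_lap : ∀ v, lap ρL univ (lap ρ univ v) = lap ρ univ (lap ρL univ v) :=
    fun v => lap_comm_of ρL univ _ (fun x _ y _ v => (lap_c _ v).symm) v
  have lapR_lap : ∀ v, lap ρR univ (lap ρ univ v) = lap ρ univ (lap ρR univ v) :=
    fun v => lap_comm_of ρR univ _ (fun x _ y _ v => (lap_c _ v).symm) v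
  set A2 : V →ₗ[ℝ] V := Aop ρL ∘ₗ Aop ρR with hA2
  have A2c : ∀ T : V →ₗ[ℝ] V, (∀ g v, T (ρL g v) = ρL g (T v)) →
      (∀ g v, T (ρR g v) = ρR g (T v)) → ∀ v, T (A2 v) = A2 (T v) := by
    intro T h1 h2 v
    simp only [hA2, LinearMap.comp_apply]
    rw [Aop_comm_of ρL T h1, Aop_comm_of ρR T h2]
  -- step 1
  have step1 : ∀ (s : ℝ) (h : V), lap ρL univ h + lap ρR univ h = (m * s) • h →
      ‖A2 h‖ ^ 2 ≤ Real.exp (-a * s) * ‖h‖ ^ 2 := by
    intro s h hh
    refine norm_le_of_eig (hL.lap_symm univ)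
      (LinearMap.ker (lap ρL univ + lap ρR univ - (m * s) • LinearMap.id)) ?_ A2
      (A2c _ lapL_L lapL_R) _ ?_ h ?_
    · intro u hu
      simp only [LinearMap.mem_ker, LinearMap.sub_apply, LinearMap.add_apply, LinearMap.smul_apply,
        LinearMap.id_apply] at hu ⊢
      rw [← lapLR, ← map_add, ← map_smul, ← map_sub, hu, map_zero]
    · intro μ v hv hμ
      simp only [LinearMap.mem_ker, LinearMap.sub_apply, LinearMap.add_apply, LinearMap.smul_apply,
        LinearMap.id_apply] at hv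
      have h1 : lap ρL univ (Aop ρR v) = (m * (μ / m)) • Aop ρR v := by
        rw [Aop_comm_of ρR _ lapL_R, hμ, map_smul]; congr 1; field_simp
      have h2 : lap ρR univ v = (m * (s - μ / m)) • v := by
        rw [hμ] at hv
        have : lap ρR univ v = (m * s) • v - μ • v := by rw [← sub_eq_zero, ← hv]; abel
        rw [this, ← sub_smul]; congr 1; field_simp
      have h3 := IH false _ _ h1
      have h4 := IH true _ _ h2
      calc ‖A2 v‖ ^ 2 ≤ _ := h3
        _ ≤ Real.exp (-a * (μ / m)) * (Real.exp (-a * (s - μ / m)) * ‖v‖ ^ 2) :=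
          mul_le_mul_of_nonneg_left h4 (Real.exp_pos _).le
        _ = _ := by rw [← mul_assoc, ← Real.exp_add]; congr 2; ring
    · simp only [LinearMap.mem_ker, LinearMap.sub_apply, LinearMap.add_apply, LinearMap.smul_apply,
        LinearMap.id_apply]
      rw [hh, sub_self]
  by_cases hf0 : f = 0
  · simp [hf0]
  have hε : 0 ≤ ε := by
    have := hρ.lap_nonneg univ f
    rw [hf, real_inner_smul_right, real_inner_self_eq_norm_sq] at this
    have h1 : 0 < ‖f‖ ^ 2 := by positivity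
    have h2 := nonneg_of_mul_nonneg_left this h1
    exact nonneg_of_mul_nonneg_right h2 (by positivity)
  set g := Eop ρ f with hgdef
  have hg : ∀ z, ρ (tz z) g = g := fun z => tz_Eop ρ z f
  have hgn : ‖g‖ ≤ ‖f‖ := norm_avg_le _ _ (norm_nonneg _) (fun c => (hρ.norm_map _ _).le)
  have hgl : lap ρ univ g = (2 * m * ε) • g := by
    rw [hgdef, Eop, map_smul, map_sum]
    simp only [lap_c, hf, map_smul, ← smul_sum]
    rw [smul_comm, pow_succ, mul_comm _ (2 : ℝ)]
  have H := osc_node hρ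
  set X := Xo (tauN ρ) (BN ρ) with hX
  set D : V →ₗ[ℝ] V := (2 * m)⁻¹ • X with hD
  have hDs : D.IsSymmetric := by
    intro u v
    simp only [hD, LinearMap.smul_apply, real_inner_smul_left, real_inner_smul_right, H.Xs u v, hX]
  have hXe : ∀ v, X v = lap ρ univ v - (2 : ℝ) • (lap ρL univ v + lap ρR univ v) := X_eq ρ
  obtain ⟨S, v, hv1, hv2, hv3⟩ := dec hDs
    (LinearMap.ker (lap ρ univ - (2 * m * ε) • LinearMap.id)) (by
      intro u hu
      simp only [LinearMap.mem_ker, LinearMap.sub_apply, LinearMap.smul_apply,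
        LinearMap.id_apply] at hu ⊢
      have : lap ρ univ (D u) = D (lap ρ univ u) := by
        simp only [hD, LinearMap.smul_apply, hXe, map_smul, map_sub, map_add, lapL_lap, lapR_lap]
      rw [this, ← map_smul, ← map_sub, hu, map_zero]) (h := g) (by
      simp only [LinearMap.mem_ker, LinearMap.sub_apply, LinearMap.smul_apply,
        LinearMap.id_apply]
      rw [hgl, sub_self])
  have hv4 : ∀ x, lap ρL univ (v x) + lap ρR univ (v x) = (m * (ε - x)) • v x := by
    intro x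
    have h1 := hv1 x
    simp only [LinearMap.mem_ker, LinearMap.sub_apply, LinearMap.smul_apply,
        LinearMap.id_apply, sub_eq_zero] at h1
    have h2 := hv2 x
    simp only [hD, LinearMap.smul_apply, hXe, h1] at h2
    have h3 : lap ρL univ (v x) + lap ρR univ (v x) = (m * ε) • v x - m • ((2 * m)⁻¹ •
        ((2 * m * ε) • v x - (2 : ℝ) • (lap ρL univ (v x) + lap ρR univ (v x)))) := by
      rw [smul_smul, show m * (2 * m)⁻¹ = 1 / 2 by field_simp]; module
    rw [h3, h2]; module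
  have hDA : ∀ u, D (A2 u) = A2 (D u) := by
    refine A2c D (fun g u => ?_) (fun g u => ?_)
    · simp only [hD, LinearMap.smul_apply, hXe, map_smul, map_sub, map_add, lapL_L, lapR_L]
      rw [show ρL g u = ρ (emb false g) u from rfl, lap_c]; rfl
    · simp only [hD, LinearMap.smul_apply, hXe, map_smul, map_sub, map_add, lapL_R, lapR_R]
      rw [show ρR g u = ρ (emb true g) u from rfl, lap_c]; rfl
  have b1 : ‖Aop ρ f‖ ^ 2 ≤ Real.exp (-a * ε) * ∑ x ∈ S, Real.exp (a * x) * ‖v x‖ ^ 2 := by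
    rw [Aop_succ, ← hgdef, show Aop ρL (Aop ρR g) = A2 g from rfl, hv3, map_sum,
      norm_sq_sum_eig hDs S (v := fun x => A2 (v x)) (fun x => by rw [hDA, hv2, map_smul]),
      mul_sum]
    refine sum_le_sum fun x _ => (step1 _ _ (hv4 x)).trans (le_of_eq ?_)
    rw [← mul_assoc, ← Real.exp_add]; congr 2; ring
  have hX0 : ⟪g, X g⟫_ℝ = 0 := H.inner_X_zero hg
  have hcard : (Fintype.card (Cube d) : ℝ) = m := by simp [hm]
  have b2 : ‖D g‖ ^ 2 ≤ ε / m * ‖g‖ ^ 2 := by
    have c1 := H.norm_X_zero hg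
    have c2 : ∑ p ∈ (univ : Finset (Cube d)).offDiag, ‖BN ρ p.1 p.2 g‖ ^ 2 ≤
        ∑ p ∈ (univ : Finset (Cube d)) ×ˢ (univ : Finset (Cube d)),
          (4 * (‖g‖ ^ 2 - ⟪g, ρ (swap (cs false p.1) (cs false p.2)) g⟫_ℝ) +
          4 * (‖g‖ ^ 2 - ⟪g, ρ (swap (cs true p.1) (cs true p.2)) g⟫_ℝ)) := by
      refine (sum_le_sum fun p hp => norm_BN_le hρ hg (mem_offDiag.1 hp).2.2).trans ?_
      refine sum_le_sum_of_subset_of_nonneg (fun p _ => by simp) (fun p _ _ => ?_)
      have := hρ.inner_le (swap (cs false p.1) (cs false p.2)) g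
      have := hρ.inner_le (swap (cs true p.1) (cs true p.2)) g
      linarith
    have c3 := inner_lap ρL univ g
    have c4 := inner_lap ρR univ g
    simp only [hρL, hρR, MonoidHom.comp_apply, emb_swap] at c3 c4
    rw [sum_add_distrib, ← mul_sum, ← mul_sum, sum_product, sum_product] at c2
    have c5 := hX0
    rw [hXe, inner_sub_right, real_inner_smul_right, inner_add_right, hgl, real_inner_smul_right,
      real_inner_self_eq_norm_sq] at c5
    have c6 : ‖X g‖ ^ 2 ≤ 4 * m * ε * ‖g‖ ^ 2 := by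
      simp only [hρL, hρR] at c5
      linarith
    simp only [hD, LinearMap.smul_apply, norm_smul, mul_pow, Real.norm_eq_abs, sq_abs]
    calc _ ≤ (2 * m)⁻¹ ^ 2 * (4 * m * ε * ‖g‖ ^ 2) := mul_le_mul_of_nonneg_left c6 (sq_nonneg _)
      _ = _ := by field_simp; ring
  have b3 : ∀ p : ℕ, Fil (No (tauN ρ)) (2 * p) ((D ^ p) g) := by
    intro p
    induction p with
    | zero => simpa using H.fil_zero hg
    | succ p ih =>
      have := H.fil_X ih
      intro μ w h1 h2
      rw [pow_succ', Module.End.mul_apply, hD, LinearMap.smul_apply, real_inner_smul_right,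
        this μ w (by push_cast at h1; linarith) h2, mul_zero]
  have b4 : ∀ p : ℕ, ‖(D ^ (p + 1)) g‖ ≤ (10 * p + 4) * ‖(D ^ p) g‖ := by
    intro p
    have := H.norm_X_le (by positivity) (b3 p)
    rw [hcard] at this
    rw [pow_succ', Module.End.mul_apply]
    conv_lhs => rw [hD, LinearMap.smul_apply, norm_smul, Real.norm_eq_abs,
      abs_of_nonneg (by positivity)]
    rw [← hD]
    calc _ ≤ (2 * m)⁻¹ * ((2 * (2 * p) + 8 * m * (2 * p + 1)) * ‖(D ^ p) g‖) :=
          mul_le_mul_of_nonneg_left this (by positivity)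
      _ = (2 * p / m + 8 * p + 4) * ‖(D ^ p) g‖ := by field_simp; ring
      _ ≤ _ := by
        refine mul_le_mul_of_nonneg_right ?_ (norm_nonneg _)
        have : 2 * (p : ℝ) / m ≤ 2 * p := div_le_self (by positivity) hm1
        linarith
  have b5 := exp_moment hDs S v hv2 (ε / m) a ha0 ha
    (by rw [← hv3, hD, LinearMap.smul_apply, real_inner_smul_right, hX0, mul_zero])
    (by rw [← hv3]; exact b2) (by rw [← hv3]; exact b4)
  rw [← hv3] at b5
  have b6 : 1 + a ^ 2 * (ε / m) ≤ Real.exp (1 / 100 / m * ε) := by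
    refine le_trans ?_ (Real.add_one_le_exp _)
    have : a ^ 2 ≤ 1 / 100 := by nlinarith
    have h2 : a ^ 2 * (ε / m) ≤ 1 / 100 * (ε / m) := mul_le_mul_of_nonneg_right this (by positivity)
    have h3 : 1 / 100 / m * ε = 1 / 100 * (ε / m) := by ring
    linarith
  calc _ ≤ _ := b1
    _ ≤ Real.exp (-a * ε) * ((1 + a ^ 2 * (ε / m)) * ‖g‖ ^ 2) :=
        mul_le_mul_of_nonneg_left b5 (Real.exp_pos _).le
    _ ≤ Real.exp (-a * ε) * (Real.exp (1 / 100 / m * ε) * ‖f‖ ^ 2) := by gcongr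
    _ = _ := by rw [← mul_assoc, ← Real.exp_add]; congr 2; ring

theorem lin_aux : ∀ (d : ℕ) (ρ : Perm (Cube d) →* (V →ₗ[ℝ] V)), Iso ρ → ∀ (f : V) (ε : ℝ),
    lap ρ univ f = ((2 : ℝ) ^ d * ε) • f →
    ‖Aop ρ f‖ ^ 2 ≤ Real.exp (-(8 / 100 + 2 / 100 / 2 ^ d) * ε) * ‖f‖ ^ 2
  | 0, ρ, hρ, f, ε, hf => by
      have h1 : ∀ g : Perm (Cube 0), ρ g f = f := fun g => by
        rw [Subsingleton.elim g 1, rep_one]
      have h2 : lap ρ univ f = 0 := by simp [lap_apply, h1]
      have h3 : ‖Aop ρ f‖ ≤ ‖f‖ := by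
        rw [Aop_apply]; exact norm_avg_le _ _ (norm_nonneg _) (fun ω => (hρ.norm_map _ _).le)
      by_cases hf0 : f = 0
      · simp [hf0]
      · rw [h2, eq_comm, smul_eq_zero] at hf
        have : ε = 0 := by simpa [hf0] using hf
        rw [this, mul_zero, Real.exp_zero, one_mul]
        gcongr
  | d + 1, ρ, hρ, f, ε, hf => by
      have h1 : (1 : ℝ) ≤ 2 ^ d := one_le_pow₀ (by norm_num)
      have := node_bound hρ (8 / 100 + 2 / 100 / 2 ^ d) (by positivity)
        (by have : (2 : ℝ) / 100 / 2 ^ d ≤ 2 / 100 := div_le_self (by norm_num) h1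
            linarith)
        (fun s f ε h => lin_aux d _ (hρ.comp _) f ε h) f ε hf
      convert this using 4
      rw [pow_succ]; field_simp; ring

theorem lin {d : ℕ} {ρ : Perm (Cube d) →* (V →ₗ[ℝ] V)} (hρ : Iso ρ) (f : V) (μ c : ℝ)
    (hf : lap ρ univ f = μ • f) (hc0 : 0 ≤ c) (hc : 2 ^ d * c ≤ μ) :
    ‖Aop ρ f‖ ^ 2 ≤ Real.exp (-(8 / 100) * c) * ‖f‖ ^ 2 := by
  have hp : (0 : ℝ) < 2 ^ d := by positivity
  have := lin_aux d ρ hρ f (μ / 2 ^ d) (by rw [hf]; congr 1; field_simp)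
  refine this.trans (mul_le_mul_of_nonneg_right (Real.exp_le_exp.2 ?_) (sq_nonneg _))
  have h1 : c ≤ μ / 2 ^ d := by rw [le_div_iff₀ hp]; linarith
  have h2 : 0 ≤ 2 / 100 / 2 ^ d * (μ / 2 ^ d) := mul_nonneg (by positivity) (hc0.trans h1)
  nlinarith

end Crest.Agent.H0222
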