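import Crest.Agent.H0222.Indep
import Crest.Agent.H0222.Lin
import Crest.Agent.H0222.Jobs

/-! The level filtration of `L²(S_n)`. -/

set_option autoImplicit false
set_option linter.unusedSectionVars false

namespace Crest.Agent.H0222

open Finset Equiv
open scoped InnerProductSpace

section gen
variable {P : Type} [Fintype P] [DecidableEq P]

theorem fixSw_all {V : Type} [NormedAddCommGroup V] [InnerProductSpace ℝ V]
    {ρ : Perm P →* (V →ₗ[ℝ] V)} {K : Finset P} {v : V} (hv : FixSw ρ K v) :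
    ∀ (N : ℕ) (σ : Perm P), σ.support.card < N → (∀ a, a ∉ K → σ a = a) → ρ σ v = v := by
  intro N
  induction N with
  | zero => intro σ h; omega
  | succ N ih =>
    intro σ hN hσ
    by_cases h1 : σ = 1
    · rw [h1, rep_one]
    obtain ⟨x, hx⟩ : ∃ x, σ⁻¹ x ≠ x := by
      by_contra h; push Not at h
      exact h1 (inv_eq_one.1 (Perm.ext h))
    have hσ' : ∀ a, a ∉ K → σ⁻¹ a = a := fun a ha => by
      rw [Perm.inv_eq_iff_eq]; exact (hσ a ha).symm
    have hxK : x ∈ K := by by_contra h; exact hx (hσ' x h)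
    have hyK : σ⁻¹ x ∈ K := by
      by_contra h; exact hx (σ⁻¹.injective (hσ' _ h))
    have hlt := Perm.card_support_swap_mul hx
    have := ih (swap x (σ⁻¹ x) * σ⁻¹)⁻¹ (by
      rw [Perm.support_inv]; rw [Perm.support_inv] at hlt; omega) (fun a ha => by
      rw [Perm.inv_eq_iff_eq, Perm.mul_apply, hσ' a ha, swap_apply_of_ne_of_ne
        (fun e : a = x => ha (e ▸ hxK)) (fun e : a = σ⁻¹ x => ha (e ▸ hyK))])
    rw [mul_inv_rev, inv_inv, swap_inv, ← rep_mul, hv x hxK _ hyK] at this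
    exact this

/-- marginal on `J` -/
noncomputable def mJ (J : Finset P) (u : LG P) (π0 : Perm P) : ℝ :=
  ∑ π, if ∀ a ∈ J, π a = π0 a then u π else 0

theorem sum_mul_eq_zero {J : Finset P} {u : LG P} (hu : ∀ π0, mJ J u π0 = 0) (F : Perm P → ℝ)
    (hF : ∀ π π', (∀ a ∈ J, π a = π' a) → F π = F π') : ∑ π, F π * u π = 0 := by
  classical
  rw [← sum_fiberwise_of_maps_to (s := univ) (t := univ) (g := fun (π : Perm P) (a : J) => π a)
    (fun _ _ => mem_univ _)]
  refine sum_eq_zero fun r _ => ?_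
  rcases (univ.filter (fun π : Perm P => (fun a : J => π a) = r)).eq_empty_or_nonempty with h | h
  · rw [h, sum_empty]
  · obtain ⟨π1, h1⟩ := h
    have h1' := (mem_filter.1 h1).2
    have e : ∀ π : Perm P, ((fun a : J => π a) = r) ↔ ∀ a ∈ J, π a = π1 a := by
      intro π
      rw [← h1', funext_iff]
      exact ⟨fun h a ha => h ⟨a, ha⟩, fun h a => h a a.2⟩
    have := hu π1
    rw [mJ, ← sum_filter] at this
    rw [filter_congr (fun π _ => e π), sum_congr rfl (fun π hπ => by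
      rw [hF π π1 (mem_filter.1 hπ).2]), ← mul_sum, this, mul_zero]

/-- functions all of whose `k`-marginals vanish -/
def Zs (P : Type) [Fintype P] [DecidableEq P] (k : ℕ) : Submodule ℝ (LG P) where
  carrier := {u | ∀ J : Finset P, J.card = k → ∀ π0, mJ J u π0 = 0}
  add_mem' := fun {a b} ha hb J hJ π0 => by
    have h1 := ha J hJ π0
    have h2 := hb J hJ π0
    have : mJ J (a + b) π0 = mJ J a π0 + mJ J b π0 := by
      simp only [mJ]
      rw [← sum_add_distrib]
      refine sum_congr rfl fun π _ => ?_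
      split_ifs <;> simp
    rw [this, h1, h2, add_zero]
  zero_mem' := fun J _ π0 => by simp [mJ]
  smul_mem' := fun c a ha J hJ π0 => by
    have h1 := ha J hJ π0
    have : mJ J (c • a) π0 = c * mJ J a π0 := by
      simp only [mJ]
      rw [mul_sum]
      refine sum_congr rfl fun π _ => ?_
      split_ifs <;> simp
    rw [this, h1, mul_zero]

theorem mem_Zs {k : ℕ} {u : LG P} :
    u ∈ Zs P k ↔ ∀ J : Finset P, J.card = k → ∀ π0, mJ J u π0 = 0 := Iff.rfl

theorem Zs_lam {k : ℕ} (g : Perm P) {u : LG P} (hu : u ∈ Zs P k) : lam P g u ∈ Zs P k := by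
  intro J hJ π0
  rw [← hu J hJ (g⁻¹ * π0)]
  refine Fintype.sum_equiv (Equiv.mulLeft g⁻¹) _ _ fun π => ?_
  simp [lam_apply]

theorem Zs_rho {k : ℕ} (g : Perm P) {u : LG P} (hu : u ∈ Zs P k) : rho P g u ∈ Zs P k := by
  intro J hJ π0
  rw [← hu (J.image g.symm) (by rw [card_image_of_injective _ g.symm.injective, hJ]) (π0 * g)]
  refine Fintype.sum_equiv (Equiv.mulRight g) _ _ fun π => ?_
  simp [rho_apply]

theorem mJ_mono {J J' : Finset P} (h : J ⊆ J') {u : LG P} (hu : ∀ π0, mJ J' u π0 = 0) (π0) :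
    mJ J u π0 = 0 := by
  rw [← sum_mul_eq_zero hu (fun π => if ∀ a ∈ J, π a = π0 a then 1 else 0)
    (fun π π' hh => by
      refine if_congr (forall₂_congr fun a ha => ?_) rfl rfl
      rw [hh a (h ha)])]
  simp [mJ]

theorem Zs_anti {k : ℕ} (hk : k + 1 ≤ Fintype.card P) : Zs P (k + 1) ≤ Zs P k := by
  intro u hu J hJ π0
  obtain ⟨J', h1, -, h2⟩ := exists_subsuperset_card_eq (subset_univ J) (n := k + 1)
    (by omega) (by simpa using hk)
  exact mJ_mono h1 (hu J' h2) π0

theorem mem_Zs_zero (u : LG P) : u ∈ Zs P 0 ↔ ∑ π, u π = 0 := by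
  simp [mem_Zs, mJ]

theorem eq_zero_of_fix {J : Finset P} {u : LG P} (hu : ∀ π0, mJ J u π0 = 0)
    (hf : FixSw (rho P) Jᶜ u) : u = 0 := by
  have := sum_mul_eq_zero hu (fun π => u π) (fun π π' h => by
    have := fixSw_all hf _ (π⁻¹ * π') (Nat.lt_succ_self _) (fun a ha => by
      rw [Perm.mul_apply, ← h a (by simpa using ha)]; simp)
    have h2 := congrArg (fun w : LG P => w π) this
    simpa [rho_apply] using h2.symm)
  rw [← inner_self_eq_zero (𝕜 := ℝ), PiLp.inner_apply]
  simpa [sq] using this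

theorem Zs_top : Zs P (Fintype.card P) = ⊥ := by
  rw [eq_bot_iff]
  intro u hu
  exact eq_zero_of_fix (hu univ card_univ) (fun a ha => by simp at ha)

theorem noFix_Zs {k : ℕ} (hk : k + 1 ≤ Fintype.card P) :
    NoFix (rho P) univ (Zs P k) (Fintype.card P - (k + 1)) := by
  intro K _ hK v hv hf
  refine eq_zero_of_fix (hv Kᶜ (by rw [card_compl, hK]; omega)) (by rwa [compl_compl])

/-- marginal along an embedding -/
noncomputable def marg {ι : Type} [Fintype ι] (e : ι ↪ P) : LG P →ₗ[ℝ] ((ι ↪ P) → ℝ) where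
  toFun u x := ∑ π, if ∀ a, π (e a) = x a then u π else 0
  map_add' u v := by
    funext x
    rw [Pi.add_apply, ← sum_add_distrib]
    refine sum_congr rfl fun π _ => ?_
    split_ifs <;> simp
  map_smul' c u := by
    funext x
    simp only [Pi.smul_apply, RingHom.id_apply, smul_eq_mul, mul_sum]
    refine sum_congr rfl fun π _ => ?_
    split_ifs <;> simp

theorem marg_apply {ι : Type} [Fintype ι] (e : ι ↪ P) (u : LG P) (x : ι ↪ P) :
    marg e u x = ∑ π, if ∀ a, π (e a) = x a then u π else 0 := rfl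

theorem mJ_eq_marg {ι : Type} [Fintype ι] (e : ι ↪ P) (u : LG P) (π0 : Perm P) :
    mJ (univ.map e) u π0 = marg e u (e.trans π0.toEmbedding) := by
  simp [mJ, marg_apply]

theorem marg_lam {ι : Type} [Fintype ι] (e : ι ↪ P) (g : Perm P) (u : LG P) (x : ι ↪ P) :
    marg e (lam P g u) x = marg e u (x.trans (g⁻¹ : Perm P).toEmbedding) := by
  rw [marg_apply, marg_apply]
  refine Fintype.sum_equiv (Equiv.mulLeft g⁻¹) _ _ fun π => ?_
  simp [lam_apply]

end gen

section cube
variable {d : ℕ}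

theorem adj_Aop {V : Type} [NormedAddCommGroup V] [InnerProductSpace ℝ V] [FiniteDimensional ℝ V]
    {ρ : Perm (Cube d) →* (V →ₗ[ℝ] V)} (hρ : Iso ρ) (v : V) :
    LinearMap.adjoint (Aop ρ) v = (Fintype.card (Bits d) : ℝ)⁻¹ • ∑ ω : Bits d, ρ (bf ω)⁻¹ v := by
  refine ext_inner_left ℝ fun w => ?_
  rw [LinearMap.adjoint_inner_right, Aop_apply, real_inner_smul_left, real_inner_smul_right,
    sum_inner, inner_sum]
  simp only [hρ.adj]

theorem Kmat_symm (ι : Type) [Fintype ι] : (Kmat d ι).IsSymm := by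
  ext x x'
  simp only [Matrix.transpose_apply, Kmat]
  rw [sum_comm]
  simp only [eq_comm]

theorem marg_Q {ι : Type} [Fintype ι] (e : ι ↪ Cube d) (u : LG (Cube d)) :
    marg e (LinearMap.adjoint (Aop (lam (Cube d))) (Aop (lam (Cube d)) u)) =
      (Kmat d ι).mulVec (marg e u) := by
  classical
  funext x
  rw [adj_Aop iso_lam, Aop_apply]
  simp only [map_smul, map_sum, Pi.smul_apply, Finset.sum_apply, marg_lam, smul_eq_mul,
    Matrix.mulVec, dotProduct, Kmat, div_mul_eq_mul_div, sum_mul, ← sum_div]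
  rw [← mul_sum, ← mul_assoc, eq_div_iff (by positivity), sum_comm (s := (univ : Finset (ι ↪ Cube d)))]
  rw [mul_comm, ← mul_assoc, show (Fintype.card (Bits d) : ℝ) ^ 2 *
    ((Fintype.card (Bits d) : ℝ)⁻¹ * (Fintype.card (Bits d) : ℝ)⁻¹) = 1 by
      have : (Fintype.card (Bits d) : ℝ) ≠ 0 := by positivity
      field_simp, one_mul]
  refine sum_congr rfl fun ω _ => ?_
  rw [sum_comm]
  refine sum_congr rfl fun ω' _ => ?_
  rw [sum_eq_single ((x.trans ((bf ω)⁻¹⁻¹ : Perm (Cube d)).toEmbedding).trans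
    ((bf ω')⁻¹ : Perm (Cube d)).toEmbedding)]
  · rw [if_pos, one_mul]; intro a; simp
  · intro x' _ hx'
    rw [if_neg, zero_mul]
    intro h
    apply hx'
    ext1 a
    simp [h a]
  · simp

/-- level `k + 1` -/
noncomputable def Ws (d k : ℕ) : Submodule ℝ (LG (Cube d)) := Zs (Cube d) k ⊓ (Zs (Cube d) (k + 1))ᗮ

theorem Ws_lam {k : ℕ} (g : Perm (Cube d)) {u : LG (Cube d)} (hu : u ∈ Ws d k) :
    lam _ g u ∈ Ws d k := by
  refine ⟨Zs_lam g hu.1, ?_⟩
  have h2 := hu.2
  simp only [SetLike.mem_coe, Submodule.mem_orthogonal'] at h2 ⊢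
  intro w hw
  rw [iso_lam.adj]
  exact h2 _ (Zs_lam _ hw)

theorem Aop_mem {U : Submodule ℝ (LG (Cube d))} (hU : ∀ g, ∀ u ∈ U, lam _ g u ∈ U) :
    ∀ u ∈ U, Aop (lam _) u ∈ U := fun u hu => by
  rw [Aop_apply]; exact U.smul_mem _ (U.sum_mem fun ω _ => hU _ u hu)

theorem adj_mem {U : Submodule ℝ (LG (Cube d))} (hU : ∀ g, ∀ u ∈ U, lam _ g u ∈ U) :
    ∀ u ∈ U, LinearMap.adjoint (Aop (lam _)) u ∈ U := fun u hu => by
  rw [adj_Aop iso_lam]; exact U.smul_mem _ (U.sum_mem fun ω _ => hU _ u hu)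

theorem card_cube : Fintype.card (Cube d) = 2 ^ d := by simp

/-- linear contraction on level `≥ k + 1` -/
theorem theta_lin {k : ℕ} (hk : k + 1 ≤ 2 ^ d) :
    ∀ u ∈ Zs (Cube d) k, ‖Aop (lam _) u‖ ^ 2 ≤
      Real.exp (-(8 / 100) * (((k : ℝ) + 1) * max (1 - ((k : ℝ) + 1) / 2 ^ d) (1 / 2 : ℝ))) * ‖u‖ ^ 2 := by
  refine norm_le_of_eig (iso_lam.lap_symm univ) _
    (lap_mem _ _ _ fun x _ y _ v hv => Zs_lam _ hv) _
    (Aop_comm_of _ _ fun g v => lap_comm _ univ g (by simp) v) _ fun μ v hv hμ => ?_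
  by_cases hv0 : v = 0
  · simp [hv0]
  refine lin iso_lam v μ _ hμ (by positivity) ?_
  have := psi (iso_rho (P := Cube d)) _ univ _ (Zs (Cube d) k) (Nat.lt_succ_self _)
    (fun x _ y _ v hv => Zs_rho _ hv) (noFix_Zs (by rw [card_cube]; exact hk)) v hv
  rw [← lap_lam_eq_rho, hμ, real_inner_smul_right, real_inner_self_eq_norm_sq, card_univ,
    card_cube, Nat.cast_sub hk] at this
  have h2 := le_of_mul_le_mul_right this (by positivity)
  refine le_trans (le_of_eq ?_) h2
  push_cast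
  have hp : (0 : ℝ) < 2 ^ d := by positivity
  rw [mul_left_comm, mul_max_of_nonneg _ _ hp.le]
  congr 1
  · ring
  · congr 1
    · field_simp
    · ring

/-- multiplicity bound on eigenvalues of level `k + 1` -/
theorem mult (t2 : T2) {k t : ℕ} (hk : (k + 1) * t + (k + 1) ≤ 2 ^ d) {u : LG (Cube d)}
    (hu : u ∈ Ws d k) (hu0 : u ≠ 0) {μ : ℝ}
    (hμ : LinearMap.adjoint (Aop (lam (Cube d))) (Aop (lam (Cube d)) u) = μ • u) :
    (t : ℝ) ^ (k + 1) * μ ^ 128 ≤ (Kmat d (Fin (k + 1) × Fin t) ^ 128).trace := by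
  classical
  have hnot : u ∉ Zs (Cube d) (k + 1) := fun h =>
    hu0 (inner_self_eq_zero.1 ((Submodule.mem_orthogonal' _ _).1 hu.2 u h))
  simp only [mem_Zs, not_forall] at hnot
  obtain ⟨J, hJ, π0, hπ0⟩ := hnot
  set v : LG (Cube d) := ∑ σ ∈ univ.filter (fun σ : Perm (Cube d) => ∀ a ∈ J, σ a = a),
    rho _ σ u with hv
  have hva : ∀ π, v π = mJ J u π := by
    intro π
    rw [hv, mJ, sum_filter]
    simp only [WithLp.ofLp_sum, Finset.sum_apply]
    refine Fintype.sum_equiv (Equiv.mulLeft π) _ _ fun σ => ?_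
    simp only [coe_mulLeft, Perm.mul_apply, EmbeddingLike.apply_eq_iff_eq]
    split_ifs <;> simp [rho_apply]
  have hvZ : v ∈ Zs (Cube d) k := Submodule.sum_mem _ fun σ _ => Zs_rho σ hu.1
  have hv0 : v ≠ 0 := fun h => hπ0 (by rw [← hva, h]; rfl)
  have hvf : FixSw (rho _) Jᶜ v := by
    intro a ha b hb
    ext π
    rw [rho_apply, hva, hva, mJ, mJ]
    refine sum_congr rfl fun π' _ => if_congr (forall₂_congr fun c hc => ?_) rfl rfl
    rw [Perm.mul_apply, swap_apply_of_ne_of_ne (fun e : c = a => mem_compl.1 ha (e ▸ hc))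
      (fun e : c = b => mem_compl.1 hb (e ▸ hc))]
  set Q := LinearMap.adjoint (Aop (lam (Cube d))) ∘ₗ Aop (lam (Cube d)) with hQ
  have hQr : ∀ g w, Q (rho _ g w) = rho _ g (Q w) := by
    intro g w
    simp only [hQ, LinearMap.comp_apply, adj_Aop iso_lam, Aop_apply, map_smul, map_sum, lam_rho]
  have hQu : Q u = μ • u := hμ
  have hQv : Q v = μ • v := by
    rw [hv, map_sum, smul_sum]
    exact sum_congr rfl fun σ _ => by rw [hQr, hQu, map_smul]
  obtain ⟨e⟩ : Nonempty (Fin (k + 1) × Fin t ↪ Cube d) := by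
    apply Function.Embedding.nonempty_of_card_le
    simp only [Fintype.card_prod, Fintype.card_fin, card_cube]; omega
  set j : Fin (k + 1) ≃ J := (J.equivFinOfCardEq hJ).symm with hj
  have hg : ∀ φ : Fin (k + 1) → Fin t, ∃ g : Perm (Cube d), ∀ a, g (j a) = e (a, φ a) := fun φ =>
    Perm.exists_extending_pair (f := fun a => (j a : Cube d)) (g := fun a => e (a, φ a))
      (fun a b h => j.injective (Subtype.ext h))
      (fun a b h => (Prod.ext_iff.1 (e.injective h)).1)
  choose g hg using hg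
  have hmem : ∀ φ x, x ∈ J.image (g φ) ↔ ∃ a, e (a, φ a) = x := by
    intro φ x
    simp only [mem_image]
    constructor
    · rintro ⟨y, hy, rfl⟩
      exact ⟨j.symm ⟨y, hy⟩, by rw [← hg]; simp⟩
    · rintro ⟨a, rfl⟩
      exact ⟨j a, (j a).2, hg φ a⟩
  have hfix : ∀ φ, FixSw (rho _) (J.image (g φ))ᶜ (rho _ (g φ) v) := by
    intro φ a ha b hb
    have h1 : ∀ c, c ∈ (J.image (g φ))ᶜ → (g φ).symm c ∈ Jᶜ := fun c hc =>
      mem_compl.2 fun h => mem_compl.1 hc (mem_image.2 ⟨_, h, by simp⟩)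
    conv_rhs => rw [← hvf _ (h1 a ha) _ (h1 b hb), rep_conj]
    simp
  have hsub : ∀ φ, J.image (g φ) ⊆ univ.map e := by
    intro φ x hx
    obtain ⟨a, rfl⟩ := (hmem φ x).1 hx
    simp
  have hli := indep (iso_rho (P := Cube d)) (Zs (Cube d) k) (fun g v hv => Zs_rho g hv) (k + 1)
    (noFix_Zs (by rw [card_cube]; omega)) (fun φ => J.image (g φ))
    (fun φ => by rw [card_image_of_injective _ (g φ).injective, hJ])
    (fun φ ψ h => by
      funext a
      have h1 : e (a, φ a) ∈ J.image (g ψ) := by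
        have h' : J.image (g φ) = J.image (g ψ) := h
        rw [← h', hmem]; exact ⟨a, rfl⟩
      obtain ⟨b, hb⟩ := (hmem ψ _).1 h1
      obtain ⟨h2, h3⟩ := Prod.ext_iff.1 (e.injective hb)
      simp only at h2 h3
      rw [← h3, h2])
    (univ.map e) hsub (by simpa [card_cube] using hk) (fun φ => rho _ (g φ) v)
    (fun φ => Zs_rho _ hvZ)
    (fun φ h => hv0 (by rw [← norm_eq_zero, ← iso_rho.norm_map (g φ), h, norm_zero])) hfix
  have hli2 := hli.map (f := marg e) (by
    rw [Submodule.disjoint_def]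
    intro w hw hw0
    refine eq_zero_of_fix (J := univ.map e) (fun π0 => ?_) ?_
    · rw [mJ_eq_marg, LinearMap.mem_ker.1 hw0]; rfl
    · intro a ha b hb
      clear hw0
      induction hw using Submodule.span_induction with
      | mem x hx =>
        obtain ⟨φ, rfl⟩ := hx
        exact hfix φ a (compl_subset_compl.2 (hsub φ) ha) b (compl_subset_compl.2 (hsub φ) hb)
      | zero => exact map_zero _
      | add x y _ _ h1 h2 => rw [map_add, h1, h2]
      | smul c x _ h1 => rw [map_smul, h1])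
  have := t2 _ (Kmat d (Fin (k + 1) × Fin t)) _ _ μ (Kmat_symm _) hli2 (fun φ => by
    simp only [Function.comp_apply]
    rw [← marg_Q, ← map_smul]
    congr 1
    change Q _ = _
    rw [hQr, hQv, map_smul])
  simpa using this

end cube

end Crest.Agent.H0222
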