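import Mathlib
import Crest.Prelude.Def_Shuffle

/-! The Thorp shuffle steps are permutations. -/

set_option autoImplicit false

namespace Crest.Agent.H0222.Linkx

open Finset Crest.ProbabilityR.Shuffle

theorem stepPos_injective (m : ℕ) (c : Fin m → Bool) : Function.Injective (stepPos m c) := by
  intro x x' h
  have hx := x.isLt
  have hx' := x'.isLt
  have hm : 0 < m := by omega
  have h1 := congrArg Fin.val h
  simp only [stepPos] at h1
  have hmod : x.val % m = x'.val % m := by
    split_ifs at h1 <;> omega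
  have hc : c ⟨x.val % m, Nat.mod_lt _ hm⟩ = c ⟨x'.val % m, Nat.mod_lt _ hm⟩ := by
    congr 1; exact Fin.ext hmod
  rw [hc, hmod] at h1
  have hb : decide (m ≤ x.val) = decide (m ≤ x'.val) := by
    revert h1
    cases decide (m ≤ x.val) <;> cases decide (m ≤ x'.val) <;>
      cases c ⟨x'.val % m, Nat.mod_lt _ hm⟩ <;> simp
  have hb' : m ≤ x.val ↔ m ≤ x'.val := by simpa using hb
  apply Fin.ext
  by_cases h2 : m ≤ x.val
  · have h3 := hb'.1 h2
    have e1 : x.val % m = x.val - m := by
      rw [Nat.mod_eq_sub_mod h2, Nat.mod_eq_of_lt (by omega)]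
    have e2 : x'.val % m = x'.val - m := by
      rw [Nat.mod_eq_sub_mod h3, Nat.mod_eq_of_lt (by omega)]
    omega
  · have h3 : ¬ m ≤ x'.val := fun h => h2 (hb'.2 h)
    rw [Nat.mod_eq_of_lt (by omega), Nat.mod_eq_of_lt (by omega)] at hmod
    exact hmod

/-- one shuffle as a permutation -/
noncomputable def stepP (m : ℕ) (c : Fin m → Bool) : Equiv.Perm (Fin (2 * m)) :=
  Equiv.ofBijective (stepPos m c) (Finite.injective_iff_bijective.1 (stepPos_injective m c))

theorem stepP_apply (m : ℕ) (c : Fin m → Bool) (x : Fin (2 * m)) :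
    stepP m c x = stepPos m c x := rfl

/-- ordered product of `t` group elements -/
def prodF {Ω G : Type} [Group G] (F : Ω → G) : (t : ℕ) → (Fin t → Ω) → G
  | 0, _ => 1
  | t + 1, cs => F (cs (Fin.last t)) * prodF F t (fun i => cs i.castSucc)

theorem prodF_zero {Ω G : Type} [Group G] (F : Ω → G) (cs : Fin 0 → Ω) : prodF F 0 cs = 1 := rfl

theorem prodF_succ {Ω G : Type} [Group G] (F : Ω → G) (t : ℕ) (cs : Fin (t + 1) → Ω) :
    prodF F (t + 1) cs = F (cs (Fin.last t)) * prodF F t (fun i => cs i.castSucc) := rfl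

theorem iterPos_zero (m : ℕ) (cs : Fin 0 → Fin m → Bool) (x : Fin (2 * m)) :
    iterPos m 0 cs x = x := rfl

theorem iterPos_succ (m t : ℕ) (cs : Fin (t + 1) → Fin m → Bool) (x : Fin (2 * m)) :
    iterPos m (t + 1) cs x =
      stepPos m (cs (Fin.last t)) (iterPos m t (fun i => cs i.castSucc) x) := rfl

theorem iterPos_eq (m : ℕ) : ∀ (t : ℕ) (cs : Fin t → Fin m → Bool),
    iterPos m t cs = ⇑(prodF (stepP m) t cs)
  | 0, cs => by funext x; rw [iterPos_zero, prodF_zero]; rfl
  | t + 1, cs => by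
      funext x
      rw [iterPos_succ, prodF_succ, iterPos_eq m t]; rfl

theorem prodF_map {Ω G H : Type} [Group G] [Group H] (φ : G →* H) (F : Ω → G) :
    ∀ (t : ℕ) (cs : Fin t → Ω), φ (prodF F t cs) = prodF (fun c => φ (F c)) t cs
  | 0, cs => by rw [prodF_zero, prodF_zero, map_one]
  | t + 1, cs => by rw [prodF_succ, prodF_succ, map_mul, prodF_map φ F t]

theorem uniformProb_iter (m t : ℕ) (g : Equiv.Perm (Fin (2 * m))) :
    Crest.FinProb.uniformProb {cs : Fin t → Fin m → Bool | iterPos m t cs = ⇑g} =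
      ((univ.filter (fun cs : Fin t → Fin m → Bool => prodF (stepP m) t cs = g)).card : ℝ) /
        (Fintype.card (Fin t → Fin m → Bool) : ℝ) := by
  unfold Crest.FinProb.uniformProb
  congr 2
  congr 1
  ext cs
  simp only [mem_filter, mem_univ, true_and, Set.mem_ofPred_eq, iterPos_eq]
  exact ⟨fun h => Equiv.coe_fn_injective h, fun h => by rw [h]⟩

/-- support counting -/
theorem tv_ge {Ω G : Type} [Fintype Ω] [Nonempty Ω] [Fintype G] [DecidableEq G] (F : Ω → G) :
    1 - (Fintype.card Ω : ℝ) / (Fintype.card G : ℝ) ≤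
      (1 / 2) * ∑ g : G, |((univ.filter (fun cs : Ω => F cs = g)).card : ℝ) /
        (Fintype.card Ω : ℝ) - 1 / (Fintype.card G : ℝ)| := by
  classical
  have hΩ : (0 : ℝ) < Fintype.card Ω := by exact_mod_cast Fintype.card_pos
  have : Nonempty G := ⟨F (Classical.arbitrary Ω)⟩
  have hG : (0 : ℝ) < Fintype.card G := by exact_mod_cast Fintype.card_pos
  set p : G → ℝ := fun g => ((univ.filter (fun cs : Ω => F cs = g)).card : ℝ) /
        (Fintype.card Ω : ℝ) with hp
  set S : Finset G := univ.image F with hS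
  have hsum : ∑ g ∈ S, p g = 1 := by
    simp only [hp]
    rw [← sum_div, div_eq_one_iff_eq hΩ.ne']
    have := card_eq_sum_card_fiberwise (s := (univ : Finset Ω)) (t := S) (f := F)
      (fun x _ => by simp [hS])
    rw [← card_univ, this]; push_cast; rfl
  have hzero : ∀ g ∈ Sᶜ, p g = 0 := by
    intro g hg
    simp only [hp]
    rw [filter_eq_empty_iff.2]
    · simp
    · intro cs _ h
      simp only [hS, mem_compl, mem_image, mem_univ, true_and, not_exists] at hg
      exact hg cs h
  have hcard : (S.card : ℝ) ≤ Fintype.card Ω := by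
    have : S.card ≤ Fintype.card Ω := by rw [← card_univ]; exact card_image_le
    exact_mod_cast this
  have h1 : 1 - S.card / (Fintype.card G : ℝ) ≤ ∑ g ∈ S, |p g - 1 / (Fintype.card G : ℝ)| := by
    calc 1 - S.card / (Fintype.card G : ℝ) = ∑ g ∈ S, (p g - 1 / (Fintype.card G : ℝ)) := by
          rw [sum_sub_distrib, hsum, sum_const, nsmul_eq_mul]; ring
      _ ≤ _ := sum_le_sum fun g _ => le_abs_self _
  have h2 : 1 - S.card / (Fintype.card G : ℝ) = ∑ g ∈ Sᶜ, |p g - 1 / (Fintype.card G : ℝ)| := by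
    rw [sum_congr rfl (g := fun _ => 1 / (Fintype.card G : ℝ))]
    · rw [sum_const, nsmul_eq_mul, card_compl, Nat.cast_sub (card_le_univ S)]
      field_simp
    · intro g hg
      rw [hzero g hg, zero_sub, abs_neg, abs_of_pos (by positivity)]
  have h3 : S.card / (Fintype.card G : ℝ) ≤ (Fintype.card Ω : ℝ) / (Fintype.card G : ℝ) :=
    div_le_div_of_nonneg_right hcard hG.le
  rw [← sum_add_sum_compl S]
  linarith

end Crest.Agent.H0222.Linkx
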