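import Crest.Agent.H0222.Jobs
import Crest.Agent.H0222.LinkA

/-! `d + 1` Thorp shuffles make one butterfly pass. -/

set_option autoImplicit false

namespace Crest.Agent.H0222.Linkx

open Finset Crest.ProbabilityR.Shuffle Crest.Agent.H0222

/-! ### averaged operators -/

section av
variable {G M : Type} [Group G] [Ring M] [Algebra ℝ M]

/-- the averaged operator -/
noncomputable def Av {Ω : Type} [Fintype Ω] (ρ : G →* M) (F : Ω → G) : M :=
  (Fintype.card Ω : ℝ)⁻¹ • ∑ ω : Ω, ρ (F ω)

theorem Av_equiv {Ω Ω' : Type} [Fintype Ω] [Fintype Ω'] (ρ : G →* M) (F : Ω' → G) (e : Ω ≃ Ω') :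
    Av ρ (fun ω => F (e ω)) = Av ρ F := by
  unfold Av
  rw [Fintype.card_congr e, Equiv.sum_comp e (fun ω => ρ (F ω))]

theorem Av_prod {Ω Ω' : Type} [Fintype Ω] [Fintype Ω'] (ρ : G →* M) (F : Ω → G) (F' : Ω' → G) :
    Av ρ (fun p : Ω × Ω' => F p.1 * F' p.2) = Av ρ F * Av ρ F' := by
  unfold Av
  rw [smul_mul_smul_comm, Fintype.card_prod, Nat.cast_mul, mul_inv, Fintype.sum_prod_type,
    sum_mul_sum]
  simp only [map_mul]

theorem Av_one {Ω : Type} [Fintype Ω] [Nonempty Ω] (ρ : G →* M) :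
    Av ρ (fun _ : Ω => (1 : G)) = 1 := by
  unfold Av
  have hΩ : (Fintype.card Ω : ℝ) ≠ 0 := by exact_mod_cast Fintype.card_ne_zero
  simp only [map_one, sum_const, card_univ]
  rw [← Nat.cast_smul_eq_nsmul ℝ, smul_smul, inv_mul_cancel₀ hΩ, one_smul]

theorem Av_fst {Ω Ω' : Type} [Fintype Ω] [Fintype Ω'] [Nonempty Ω'] (ρ : G →* M) (F : Ω → G) :
    Av ρ (fun p : Ω × Ω' => F p.1) = Av ρ F := by
  have := Av_prod ρ F (fun _ : Ω' => (1 : G))
  simp only [mul_one] at this
  rw [this, Av_one, mul_one]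

theorem Av_prodF {Ω : Type} [Fintype Ω] [DecidableEq Ω] (ρ : G →* M) (F : Ω → G) :
    ∀ t : ℕ, Av ρ (prodF F t) = Av ρ F ^ t
  | 0 => by
      rw [pow_zero]
      exact Av_one (Ω := Fin 0 → Ω) ρ
  | t + 1 => by
      rw [pow_succ', ← Av_prodF ρ F t, ← Av_prod,
        ← Av_equiv ρ (prodF F (t + 1)) (Fin.snocEquiv (fun _ => Ω))]
      congr 1
      funext p
      rw [prodF_succ]
      simp [Fin.snocEquiv]

end av

theorem Av_lam_single {P Ω : Type} [Fintype P] [DecidableEq P] [Fintype Ω]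
    (F : Ω → Equiv.Perm P) (π : Equiv.Perm P) :
    (Av (M := Module.End ℝ (LG P)) (lam P) F) (EuclideanSpace.single 1 (1 : ℝ)) π =
      ((univ.filter (fun ω : Ω => F ω = π)).card : ℝ) / (Fintype.card Ω : ℝ) := by
  unfold Av
  rw [LinearMap.smul_apply, LinearMap.sum_apply]
  simp only [PiLp.smul_apply, smul_eq_mul, WithLp.ofLp_sum, Finset.sum_apply]
  rw [div_eq_inv_mul, card_filter]
  push_cast
  congr 1
  refine sum_congr rfl fun ω _ => ?_
  rw [lam_apply]
  simp [inv_mul_eq_one]

/-! ### binary encoding -/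

/-- most significant bit first -/
def bval (d : ℕ) (x : Cube d) : ℕ := ∑ i : Fin d, if x i then 2 ^ (d - 1 - i.val) else 0

theorem bval_cons (d : ℕ) (x : Cube (d + 1)) :
    bval (d + 1) x = (if x 0 then 2 ^ d else 0) + bval d (Fin.tail x) := by
  unfold bval
  rw [Fin.sum_univ_succ]
  congr 1
  refine sum_congr rfl fun i _ => ?_
  have : d + 1 - 1 - (i.succ).val = d - 1 - i.val := by simp; omega
  rw [this]; rfl

theorem bval_snoc (d : ℕ) (z : Cube d) (b : Bool) :
    bval (d + 1) (Fin.snoc z b : Cube (d + 1)) = 2 * bval d z + (if b then 1 else 0) := by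
  unfold bval
  rw [Fin.sum_univ_castSucc, mul_sum]
  congr 1
  · refine sum_congr rfl fun i _ => ?_
    have hi := i.isLt
    have : d + 1 - 1 - (i.castSucc).val = (d - 1 - i.val) + 1 := by simp; omega
    rw [this, Fin.snoc_castSucc]
    split_ifs
    · ring
    · rfl
  · simp

theorem bval_lt : ∀ (d : ℕ) (x : Cube d), bval d x < 2 ^ d
  | 0, x => by simp [bval]
  | d + 1, x => by
      rw [bval_cons]
      have := bval_lt d (Fin.tail x)
      split_ifs <;> omega

theorem bval_inj : ∀ (d : ℕ) (x y : Cube d), bval d x = bval d y → x = y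
  | 0, x, y, _ => Subsingleton.elim _ _
  | d + 1, x, y, h => by
      rw [bval_cons, bval_cons] at h
      have h1 := bval_lt d (Fin.tail x)
      have h2 := bval_lt d (Fin.tail y)
      have h0 : x 0 = y 0 := by
        revert h
        cases x 0 <;> cases y 0 <;> simp <;> omega
      rw [h0] at h
      have h3 := bval_inj d _ _ (Nat.add_left_cancel h)
      rw [← Fin.cons_self_tail x, ← Fin.cons_self_tail y, h0, h3]

/-- encoding of the cube -/
noncomputable def encN (d N : ℕ) (h : 2 ^ d = N) : Cube d ≃ Fin N :=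
  Equiv.ofBijective (fun x => ⟨bval d x, h ▸ bval_lt d x⟩) (by
    rw [Fintype.bijective_iff_injective_and_card]
    refine ⟨fun x y hxy => bval_inj d x y (congrArg Fin.val hxy), ?_⟩
    simp [h])

noncomputable def enc' (d : ℕ) : Cube d ≃ Fin (2 ^ d) := encN d _ rfl

noncomputable def enc (d : ℕ) : Cube (d + 1) ≃ Fin (2 * 2 ^ d) := encN (d + 1) _ (by ring)

theorem enc'_val (d : ℕ) (x : Cube d) : (enc' d x).val = bval d x := rfl

theorem enc_val (d : ℕ) (x : Cube (d + 1)) : (enc d x).val = bval (d + 1) x := rfl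

theorem stepPos_enc (d : ℕ) (c : Fin (2 ^ d) → Bool) (x : Cube (d + 1)) :
    stepPos (2 ^ d) c (enc d x) =
      enc d (Fin.snoc (Fin.tail x) (xor (x 0) (c (enc' d (Fin.tail x))))) := by
  apply Fin.ext
  have hlt := bval_lt d (Fin.tail x)
  have hmod : (enc d x).val % 2 ^ d = bval d (Fin.tail x) := by
    rw [enc_val, bval_cons]
    split_ifs
    · rw [Nat.add_mod_left, Nat.mod_eq_of_lt hlt]
    · rw [zero_add, Nat.mod_eq_of_lt hlt]
  have hdec : decide (2 ^ d ≤ (enc d x).val) = x 0 := by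
    rw [enc_val, bval_cons]
    cases x 0 <;> simp
    omega
  have hc : (⟨(enc d x).val % 2 ^ d, Nat.mod_lt _ (by positivity)⟩ : Fin (2 ^ d)) =
      enc' d (Fin.tail x) := Fin.ext hmod
  rw [enc_val (x := Fin.snoc _ _), bval_snoc]
  simp only [stepPos]
  rw [hc, hdec, hmod]

/-- conjugation by the encoding -/
noncomputable def cj (d : ℕ) : Equiv.Perm (Fin (2 * 2 ^ d)) ≃* Equiv.Perm (Cube (d + 1)) :=
  (enc d).symm.permCongrHom

theorem cj_apply (d : ℕ) (g : Equiv.Perm (Fin (2 * 2 ^ d))) (x : Cube (d + 1)) :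
    cj d g x = (enc d).symm (g (enc d x)) := rfl

/-- one shuffle on the cube -/
noncomputable def stepC (d : ℕ) (c : Fin (2 ^ d) → Bool) : Equiv.Perm (Cube (d + 1)) :=
  cj d (stepP (2 ^ d) c)

theorem stepC_apply (d : ℕ) (c : Fin (2 ^ d) → Bool) (x : Cube (d + 1)) :
    stepC d c x = Fin.snoc (Fin.tail x) (xor (x 0) (c (enc' d (Fin.tail x)))) := by
  rw [stepC, cj_apply, stepP_apply, stepPos_enc, Equiv.symm_apply_apply]

/-! ### one pass -/

/-- cyclic shift of the coordinates -/
def sh (d j : ℕ) : Equiv.Perm (Fin (d + 1)) := Equiv.addRight (Fin.ofNat (d + 1) j)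

theorem sh_val (d j : ℕ) (i : Fin (d + 1)) : (sh d j i).val = (i.val + j) % (d + 1) := by
  simp [sh, Fin.val_add]

theorem sh_zero_eq (d : ℕ) (j : Fin (d + 1)) : sh d j.val 0 = j := by
  apply Fin.ext
  rw [sh_val]; simp [Nat.mod_eq_of_lt j.isLt]

theorem sh_succ_ne (d : ℕ) (j : Fin (d + 1)) (i : Fin d) : sh d j.val i.succ ≠ j := by
  intro h
  have := (sh d j.val).injective (h.trans (sh_zero_eq d j).symm)
  exact Fin.succ_ne_zero i this

theorem sh_castSucc (d j : ℕ) (i : Fin d) : sh d (j + 1) i.castSucc = sh d j i.succ := by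
  apply Fin.ext
  rw [sh_val, sh_val]; simp only [Fin.val_castSucc, Fin.val_succ]
  congr 1; omega

theorem sh_last (d j : ℕ) : sh d (j + 1) (Fin.last d) = sh d j 0 := by
  apply Fin.ext
  rw [sh_val, sh_val]; simp only [Fin.val_last, Fin.val_zero]
  rw [show d + (j + 1) = (0 + j) + (d + 1) by omega, Nat.add_mod_right]

/-- coordinates adapted to layer `j` -/
noncomputable def rj (d : ℕ) (j : Fin (d + 1)) : Bool × Fin (2 ^ d) ≃ Cube (d + 1) :=
  ((Equiv.prodCongr (Equiv.refl Bool) (enc' d).symm).trans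
    (Fin.consEquiv (fun _ : Fin (d + 1) => Bool))).trans
    (Equiv.arrowCongr (sh d j.val) (Equiv.refl Bool))

theorem rj_symm (d : ℕ) (j : Fin (d + 1)) (z : Cube (d + 1)) :
    (rj d j).symm z = (z j, enc' d (fun i => z (sh d j.val i.succ))) := by
  apply (rj d j).injective
  rw [Equiv.apply_symm_apply]
  funext i
  obtain ⟨k, rfl⟩ := (sh d j.val).surjective i
  refine Fin.cases ?_ (fun k => ?_) k
  · have h0 : (sh d j.val).symm j = 0 := by rw [Equiv.symm_apply_eq, sh_zero_eq]
    simp [rj, Fin.consEquiv, sh_zero_eq, h0]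
  · simp [rj, Fin.consEquiv]

/-- splitting a bit table -/
noncomputable def split (d : ℕ) :
    Bits (d + 1) ≃ (Fin (d + 1) → Fin (2 ^ d) → Bool) × (Fin (d + 1) → Fin (2 ^ d) → Bool) where
  toFun ω := (fun j u => ω j (rj d j (false, u)), fun j u => ω j (rj d j (true, u)))
  invFun p := fun j z =>
    if ((rj d j).symm z).1 then p.2 j ((rj d j).symm z).2 else p.1 j ((rj d j).symm z).2
  left_inv ω := by
    funext j z
    obtain ⟨⟨b, u⟩, rfl⟩ := (rj d j).surjective z
    cases b <;> simp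
  right_inv p := by
    ext j u <;> simp

theorem pass_aux (d : ℕ) (ω : Bits (d + 1)) (x : Cube (d + 1)) :
    ∀ (t : ℕ) (ht : t ≤ d + 1),
      prodF (stepC d) t (fun i => (split d ω).1 (Fin.castLE ht i)) x =
        fun i => if (sh d t i).val < t then bf ω x (sh d t i) else x (sh d t i)
  | 0, ht => by
      rw [prodF_zero]
      funext i
      have : sh d 0 i = i := by simp [sh]
      simp [this]
  | t + 1, ht => by
      have ih := pass_aux d ω x t (by omega)
      rw [prodF_succ, Equiv.Perm.mul_apply]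
      have e : (fun i : Fin t => (split d ω).1 (Fin.castLE ht i.castSucc)) =
          (fun i => (split d ω).1 (Fin.castLE (show t ≤ d + 1 by omega) i)) := rfl
      rw [e, ih, stepC_apply]
      set j : Fin (d + 1) := ⟨t, by omega⟩ with hj
      have hjt : t = j.val := rfl
      have hs0 : sh d t 0 = j := sh_zero_eq d j
      funext i
      refine Fin.lastCases ?_ (fun i => ?_) i
      · rw [Fin.snoc_last, sh_last, hs0, if_neg (by simp [hj]), if_pos (by simp [hj])]
        rw [(bf_eq_iff ω x _).1 rfl j]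
        congr 1
        have hc : Fin.castLE ht (Fin.last t) = j := rfl
        rw [hc]
        change ω j _ = ω j _
        congr 1
        apply (rj d j).symm.injective
        rw [Equiv.symm_apply_apply, rj_symm, mix_self]
        congr 2
        funext k
        have hne := sh_succ_ne d j k
        simp only [Fin.tail, mix]
        rw [if_neg hne]
        rfl
      · rw [Fin.snoc_castSucc, sh_castSucc]
        simp only [Fin.tail]
        have hne : (sh d t i.succ).val ≠ t := fun h => sh_succ_ne d j i (Fin.ext h)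
        by_cases h : (sh d t i.succ).val < t
        · rw [if_pos h, if_pos (by omega)]
        · rw [if_neg h, if_neg (by omega)]

theorem pass (d : ℕ) (ω : Bits (d + 1)) : prodF (stepC d) (d + 1) (split d ω).1 = bf ω := by
  ext1 x
  have := pass_aux d ω x (d + 1) le_rfl
  refine Eq.trans this ?_
  funext i
  have h : sh d (d + 1) i = i := by
    apply Fin.ext; rw [sh_val, Nat.add_mod_right, Nat.mod_eq_of_lt i.isLt]
  rw [h, if_pos i.isLt]

theorem Aop_eq (d : ℕ) :
    Aop (lam (Cube (d + 1))) =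
      Av (M := Module.End ℝ (LG (Cube (d + 1)))) (lam (Cube (d + 1))) (stepC d) ^ (d + 1) := by
  rw [← Av_prodF, ← Av_fst (Ω' := Fin (d + 1) → Fin (2 ^ d) → Bool), ← Av_equiv _ _ (split d)]
  simp only [pass]
  rfl

end Crest.Agent.H0222.Linkx

namespace Crest.Agent.H0222

open Finset Linkx

theorem link : Link := by
  intro d T
  rw [Aop_eq, ← pow_mul, mul_comm (d + 1) T, ← Av_prodF]
  unfold Crest.ProbabilityR.Shuffle.tvFromUniform
  congr 1
  rw [← Equiv.sum_comp (cj d).toEquiv]
  refine sum_congr rfl fun g _ => ?_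
  rw [uniformProb_iter, Av_lam_single]
  have e2 : (Fintype.card (Equiv.Perm (Cube (d + 1))) : ℝ) = ((2 * 2 ^ d).factorial : ℝ) := by
    rw [← Fintype.card_congr (cj d).toEquiv]
    simp [Fintype.card_perm]
  rw [e2]
  congr 5
  ext cs
  have := prodF_map (cj d).toMonoidHom (stepP (2 ^ d)) (T * (d + 1)) cs
  simp only [mem_filter, mem_univ, true_and]
  change _ ↔ prodF (fun c => (cj d).toMonoidHom (stepP (2 ^ d) c)) _ cs = _
  rw [← this]
  simp

end Crest.Agent.H0222
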