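import Crest.Agent.H0222.Rep

/-! Lower bound on the interchange Laplacian for representations without large fixed vectors. -/

set_option autoImplicit false
set_option linter.unusedSectionVars false

namespace Crest.Agent.H0222

open Finset Equiv
open scoped InnerProductSpace

variable {P : Type} [Fintype P] [DecidableEq P]
variable {V : Type} [NormedAddCommGroup V] [InnerProductSpace ℝ V]
variable {ρ : Perm P →* (V →ₗ[ℝ] V)}

/-- `v` is fixed by the transpositions of `K` -/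
def FixSw (ρ : Perm P →* (V →ₗ[ℝ] V)) (K : Finset P) (v : V) : Prop :=
  ∀ a ∈ K, ∀ b ∈ K, ρ (swap a b) v = v

def NoFix (ρ : Perm P →* (V →ₗ[ℝ] V)) (W : Finset P) (U : Submodule ℝ V) (l : ℕ) : Prop :=
  ∀ K ⊆ W, K.card = l + 1 → ∀ v ∈ U, FixSw ρ K v → v = 0

theorem fixSw_star {K : Finset P} {v : V} (hv : FixSw ρ K v) {a : P} (ha : a ∉ K) :
    FixSw ρ (insert a K) (v + ∑ b ∈ K, ρ (swap a b) v) := by
  have key : ∀ b ∈ K, ρ (swap a b) (v + ∑ b ∈ K, ρ (swap a b) v) =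
      v + ∑ b ∈ K, ρ (swap a b) v := by
    intro b hb
    rw [map_add, map_sum, ← add_sum_erase K _ hb, ← add_sum_erase K _ hb, rep_swap_swap,
      ← add_assoc, ← add_assoc, add_comm v]
    congr 1
    refine sum_congr rfl fun c hc => ?_
    have hcb := (mem_erase.1 hc).1
    have hcK := (mem_erase.1 hc).2
    have hac : a ≠ c := fun h => ha (h ▸ hcK)
    have hab : a ≠ b := fun h => ha (h ▸ hb)
    have : swap a b * swap a c = swap a c * swap c b := by
      rw [mul_swap_eq_swap_mul (swap a c) c b, swap_apply_right,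
        swap_apply_of_ne_of_ne hab.symm hcb.symm]
    rw [rep_mul, this, ← rep_mul, hv c hcK b hb]
  intro x hx y hy
  rcases mem_insert.1 hx with rfl | hx'
  · rcases mem_insert.1 hy with rfl | hy'
    · rw [swap_self, ← Perm.one_def, rep_one]
    · exact key y hy'
  · rcases mem_insert.1 hy with rfl | hy'
    · rw [swap_comm]; exact key x hx'
    · have hxa : a ≠ x := fun h => ha (h ▸ hx')
      have hya : a ≠ y := fun h => ha (h ▸ hy')
      rw [map_add, hv x hx' y hy', map_sum]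
      congr 1
      refine sum_equiv (swap x y) (fun c => ?_) (fun c _ => ?_)
      · rw [swap_apply_def]; split_ifs with h1 h2
        · simp [h1, hx', hy']
        · simp [h2, hx', hy']
        · rfl
      · rw [rep_conj, hv x hx' y hy', swap_apply_of_ne_of_ne hxa hya]

theorem NoFix.star {W : Finset P} {U : Submodule ℝ V} {l : ℕ} (h : NoFix ρ W U l)
    (hU : ∀ x ∈ W, ∀ y ∈ W, ∀ v ∈ U, ρ (swap x y) v ∈ U) {K : Finset P} (hK : K ⊆ W)
    (hc : K.card = l) {v : V} (hvU : v ∈ U) (hv : FixSw ρ K v) {a : P} (haW : a ∈ W)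
    (ha : a ∉ K) : ∑ b ∈ K, ρ (swap a b) v = -v := by
  have := h (insert a K) (insert_subset haW hK) (by rw [card_insert_of_notMem ha, hc]) _
    (U.add_mem hvU (U.sum_mem fun b hb => hU a haW b (hK hb) v hvU)) (fixSw_star hv ha)
  rw [eq_neg_iff_add_eq_zero, add_comm]; exact this

variable [FiniteDimensional ℝ V]

theorem psi (hρ : Iso ρ) : ∀ (N : ℕ) (W : Finset P) (l : ℕ) (U : Submodule ℝ V),
    W.card + l < N → (∀ x ∈ W, ∀ y ∈ W, ∀ v ∈ U, ρ (swap x y) v ∈ U) → NoFix ρ W U l →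
    ∀ u ∈ U, ((W.card : ℝ) - l) * max (l : ℝ) (W.card / 2) * ‖u‖ ^ 2 ≤ ⟪u, lap ρ W u⟫_ℝ := by
  intro N
  induction N with
  | zero => intro W l U h; omega
  | succ N ih =>
  intro W l U hN hU hF
  refine inner_ge_of_eig (hρ.lap_symm W) U (lap_mem ρ W U hU) _ fun μ v hvU hv0 hμ => ?_
  have eig : ∀ w : V, w ≠ 0 → lap ρ W w = μ • w → ∀ c : ℝ, c * ‖w‖ ^ 2 ≤ ⟪w, lap ρ W w⟫_ℝ →
      c ≤ μ := by
    intro w hw h c hc
    rw [h, real_inner_smul_right, real_inner_self_eq_norm_sq] at hc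
    exact le_of_mul_le_mul_right hc (by positivity)
  have hμ0 : 0 ≤ μ := eig v hv0 hμ 0 (by rw [zero_mul]; exact hρ.lap_nonneg W v)
  by_cases hnl : W.card ≤ l
  · have : (W.card : ℝ) ≤ l := by exact_mod_cast hnl
    refine le_trans (mul_nonpos_of_nonpos_of_nonneg (by linarith) ?_) hμ0
    exact le_max_of_le_left (Nat.cast_nonneg _)
  have hnl' : (l : ℝ) + 1 ≤ W.card := by exact_mod_cast (not_le.1 hnl)
  rcases l with _ | l
  · exfalso
    obtain ⟨a, ha⟩ : W.Nonempty := card_pos.1 (by omega)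
    refine hv0 (hF {a} (by simpa using ha) (by simp) v hvU fun x hx y hy => ?_)
    rw [mem_singleton.1 hx, mem_singleton.1 hy, swap_self, ← Perm.one_def, rep_one]
  set U0 : Submodule ℝ V := U ⊓ LinearMap.ker (lap ρ W - μ • LinearMap.id) with hU0
  have mem0 : ∀ w, w ∈ U0 ↔ w ∈ U ∧ lap ρ W w = μ • w := by
    intro w; simp [hU0, sub_eq_zero]
  have hU0i : ∀ x ∈ W, ∀ y ∈ W, ∀ w ∈ U0, ρ (swap x y) w ∈ U0 := by
    intro x hx y hy w hw
    rw [mem0] at hw ⊢
    refine ⟨hU x hx y hy w hw.1, ?_⟩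
    rw [lap_comm ρ W _ _ w, hw.2, map_smul]
    intro c
    rw [swap_apply_def]; split_ifs with h1 h2
    · simp [h1, hx, hy]
    · simp [h2, hx, hy]
    · rfl
  by_cases hB : NoFix ρ W U0 l
  · have := eig v hv0 hμ _ (ih W l U0 (by omega) hU0i hB v ((mem0 v).2 ⟨hvU, hμ⟩))
    refine le_trans ?_ this
    push_cast at hnl' ⊢
    rcases le_or_gt (2 * (l + 1)) W.card with h | h
    · have h' : (2 : ℝ) * (l + 1) ≤ W.card := by exact_mod_cast h
      rw [max_eq_right (by linarith), max_eq_right (by linarith)]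
      nlinarith
    · have h' : (W.card : ℝ) + 1 ≤ 2 * (l + 1) := by exact_mod_cast h
      rw [max_eq_left (by linarith)]
      calc _ ≤ ((W.card : ℝ) - l) * l := by nlinarith
        _ ≤ _ := mul_le_mul_of_nonneg_left (le_max_left _ _) (by linarith)
  · simp only [NoFix, not_forall] at hB
    obtain ⟨K, hK, hc, w, hw, hfix, hw0⟩ := hB
    rw [mem0] at hw
    refine eig w hw0 hw.2 _ ?_
    have hsub : ∀ x ∈ W \ K, ∀ y ∈ W \ K, ∀ v ∈ U, ρ (swap x y) v ∈ U :=
      fun x hx y hy => hU x (mem_sdiff.1 hx).1 y (mem_sdiff.1 hy).1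
    have hcd : (W \ K).card = W.card - (l + 1) := by rw [card_sdiff_of_subset hK, hc]
    have h1 := ih (W \ K) (l + 1) U (by omega) hsub
      (fun K' hK' => hF K' (hK'.trans sdiff_subset)) w hw.1
    have h2 := hρ.lap_nonneg (W \ K) w
    have cross : ∀ a ∈ W \ K, ∑ b ∈ K, (‖w‖ ^ 2 - ⟪w, ρ (swap a b) w⟫_ℝ) = (l + 2) * ‖w‖ ^ 2 := by
      intro a ha
      rw [sum_sub_distrib, ← inner_sum, hF.star hU hK hc hw.1 hfix (mem_sdiff.1 ha).1
        (mem_sdiff.1 ha).2, inner_neg_right, real_inner_self_eq_norm_sq, sum_const, hc]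
      simp only [nsmul_eq_mul]; push_cast; ring
    have hcd' : ((W \ K).card : ℝ) = W.card - (l + 1) := by
      rw [hcd, Nat.cast_sub (by omega)]; push_cast; ring
    have e : ⟪w, lap ρ W w⟫_ℝ = ⟪w, lap ρ (W \ K) w⟫_ℝ +
        (W.card - (l + 1)) * ((l + 2) * ‖w‖ ^ 2) := by
      rw [inner_lap, inner_lap, ← sum_sdiff hK]
      simp_rw [← sum_sdiff hK (f := fun y => ‖w‖ ^ 2 - ⟪w, ρ (swap _ y) w⟫_ℝ)]
      rw [sum_add_distrib, sum_add_distrib, sum_congr rfl cross, sum_comm (s := K) (t := W \ K)]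
      have : ∑ x ∈ K, ∑ y ∈ K, (‖w‖ ^ 2 - ⟪w, ρ (swap x y) w⟫_ℝ) = 0 :=
        sum_eq_zero fun x hx => sum_eq_zero fun y hy => by
          rw [hfix x hx y hy, real_inner_self_eq_norm_sq, sub_self]
      rw [this]
      rw [sum_congr rfl (fun a ha => (by simpa only [swap_comm a] using cross a ha :
        ∑ b ∈ K, (‖w‖ ^ 2 - ⟪w, ρ (swap b a) w⟫_ℝ) = (l + 2) * ‖w‖ ^ 2)), sum_const, nsmul_eq_mul,
        hcd']
      ring
    rw [e]
    rw [hcd'] at h1
    push_cast at hnl' h1 ⊢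
    have hw2 : 0 ≤ ‖w‖ ^ 2 := sq_nonneg _
    set n : ℝ := (W.card : ℝ)
    set L : ℝ := (l : ℝ) + 1 with hL
    rw [show (l : ℝ) + 2 = L + 1 by rw [hL]; ring]
    rcases le_total (n / 2) L with h | h
    · rw [max_eq_left h]
      have : 0 ≤ (n - L) * ‖w‖ ^ 2 := mul_nonneg (by linarith) hw2
      nlinarith
    · rw [max_eq_right h]
      have h3 : (n - L - L) * ((n - L) / 2) * ‖w‖ ^ 2 ≤
          (n - L - L) * max L ((n - L) / 2) * ‖w‖ ^ 2 :=
        mul_le_mul_of_nonneg_right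
          (mul_le_mul_of_nonneg_left (le_max_right _ _) (by linarith)) hw2
      have : 0 ≤ (n - L) * ‖w‖ ^ 2 := mul_nonneg (by linarith) hw2
      nlinarith

end Crest.Agent.H0222
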