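import Crest.Agent.H0222.Spec

/-! Basic facts on isometric representations of symmetric groups. -/

set_option autoImplicit false
set_option linter.unusedSectionVars false

namespace Crest.Agent.H0222

open Finset Equiv
open scoped InnerProductSpace

variable {P : Type} [Fintype P] [DecidableEq P]
variable {V : Type} [NormedAddCommGroup V] [InnerProductSpace ℝ V]
variable {ρ : Perm P →* (V →ₗ[ℝ] V)}

theorem rep_mul (ρ : Perm P →* (V →ₗ[ℝ] V)) (g h : Perm P) (v : V) :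
    ρ g (ρ h v) = ρ (g * h) v := by rw [map_mul, Module.End.mul_apply]

theorem rep_one (ρ : Perm P →* (V →ₗ[ℝ] V)) (v : V) : ρ 1 v = v := by
  rw [map_one, Module.End.one_apply]

theorem rep_swap_swap (ρ : Perm P →* (V →ₗ[ℝ] V)) (x y : P) (v : V) :
    ρ (swap x y) (ρ (swap x y) v) = v := by rw [rep_mul, swap_mul_self, rep_one]

theorem rep_conj (ρ : Perm P →* (V →ₗ[ℝ] V)) (g : Perm P) (x y : P) (v : V) :
    ρ g (ρ (swap x y) v) = ρ (swap (g x) (g y)) (ρ g v) := by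
  rw [rep_mul, rep_mul, mul_swap_eq_swap_mul]

theorem Iso.norm_map (hρ : Iso ρ) (g : Perm P) (v : V) : ‖ρ g v‖ = ‖v‖ := by
  have := hρ g v v
  rw [real_inner_self_eq_norm_sq, real_inner_self_eq_norm_sq] at this
  exact (pow_left_inj₀ (norm_nonneg _) (norm_nonneg _) two_ne_zero).1 this

theorem Iso.adj (hρ : Iso ρ) (g : Perm P) (u v : V) : ⟪ρ g u, v⟫_ℝ = ⟪u, ρ g⁻¹ v⟫_ℝ := by
  rw [← hρ g u, rep_mul, mul_inv_cancel, rep_one]

theorem Iso.swap_symm (hρ : Iso ρ) (x y : P) : (ρ (swap x y)).IsSymmetric := by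
  intro u v
  rw [hρ.adj, swap_inv]

theorem Iso.comp {P' : Type} [Fintype P'] [DecidableEq P'] (hρ : Iso ρ) (e : Perm P' →* Perm P) :
    Iso (ρ.comp e) := fun g u v => hρ (e g) u v

theorem lap_apply (ρ : Perm P →* (V →ₗ[ℝ] V)) (W : Finset P) (v : V) :
    lap ρ W v = (1 / 2 : ℝ) • ∑ x ∈ W, ∑ y ∈ W, (v - ρ (swap x y) v) := by
  simp [lap, LinearMap.sum_apply]

theorem Iso.lap_symm (hρ : Iso ρ) (W : Finset P) : (lap ρ W).IsSymmetric := by
  intro u v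
  rw [lap_apply, lap_apply, real_inner_smul_left, real_inner_smul_right, sum_inner, inner_sum]
  congr 1
  refine sum_congr rfl fun x _ => ?_
  rw [sum_inner, inner_sum]
  refine sum_congr rfl fun y _ => ?_
  rw [inner_sub_left, inner_sub_right, hρ.swap_symm x y u v]

theorem inner_lap (ρ : Perm P →* (V →ₗ[ℝ] V)) (W : Finset P) (v : V) :
    ⟪v, lap ρ W v⟫_ℝ = 1 / 2 * ∑ x ∈ W, ∑ y ∈ W, (‖v‖ ^ 2 - ⟪v, ρ (swap x y) v⟫_ℝ) := by
  rw [lap_apply, real_inner_smul_right, inner_sum]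
  congr 1
  refine sum_congr rfl fun x _ => ?_
  rw [inner_sum]
  refine sum_congr rfl fun y _ => ?_
  rw [inner_sub_right, real_inner_self_eq_norm_sq]

theorem Iso.inner_le (hρ : Iso ρ) (g : Perm P) (v : V) : ⟪v, ρ g v⟫_ℝ ≤ ‖v‖ ^ 2 := by
  have := real_inner_le_norm v (ρ g v)
  rw [hρ.norm_map] at this
  linarith [sq ‖v‖]

theorem Iso.lap_nonneg (hρ : Iso ρ) (W : Finset P) (v : V) : 0 ≤ ⟪v, lap ρ W v⟫_ℝ := by
  rw [inner_lap]
  refine mul_nonneg (by norm_num) (sum_nonneg fun x _ => sum_nonneg fun y _ => ?_)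
  linarith [hρ.inner_le (swap x y) v]

theorem lap_comm (ρ : Perm P →* (V →ₗ[ℝ] V)) (W : Finset P) (g : Perm P)
    (hg : ∀ x, x ∈ W ↔ g x ∈ W) (v : V) : lap ρ W (ρ g v) = ρ g (lap ρ W v) := by
  rw [lap_apply, lap_apply, map_smul, map_sum]
  congr 1
  symm
  refine sum_equiv g hg fun x _ => ?_
  rw [map_sum]
  refine sum_equiv g hg fun y _ => ?_
  rw [map_sub, rep_conj]

theorem lap_comm_of (ρ : Perm P →* (V →ₗ[ℝ] V)) (W : Finset P) (T : V →ₗ[ℝ] V)
    (hT : ∀ x ∈ W, ∀ y ∈ W, ∀ v, ρ (swap x y) (T v) = T (ρ (swap x y) v)) (v : V) :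
    lap ρ W (T v) = T (lap ρ W v) := by
  rw [lap_apply, lap_apply, map_smul, map_sum]
  congr 1
  refine sum_congr rfl fun x hx => ?_
  rw [map_sum]
  refine sum_congr rfl fun y hy => ?_
  rw [map_sub, hT x hx y hy]

theorem lap_mem (ρ : Perm P →* (V →ₗ[ℝ] V)) (W : Finset P) (U : Submodule ℝ V)
    (hU : ∀ x ∈ W, ∀ y ∈ W, ∀ v ∈ U, ρ (swap x y) v ∈ U) : ∀ v ∈ U, lap ρ W v ∈ U := by
  intro v hv
  rw [lap_apply]
  exact U.smul_mem _ (U.sum_mem fun x hx => U.sum_mem fun y hy => U.sub_mem hv (hU x hx y hy v hv))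

theorem Aop_apply {d : ℕ} (ρ : Perm (Cube d) →* (V →ₗ[ℝ] V)) (v : V) :
    Aop ρ v = (Fintype.card (Bits d) : ℝ)⁻¹ • ∑ ω : Bits d, ρ (bf ω) v := by
  simp [Aop, LinearMap.sum_apply]

theorem Aop_comm_of {d : ℕ} (ρ : Perm (Cube d) →* (V →ₗ[ℝ] V)) (T : V →ₗ[ℝ] V)
    (hT : ∀ g v, T (ρ g v) = ρ g (T v)) (v : V) : T (Aop ρ v) = Aop ρ (T v) := by
  rw [Aop_apply, Aop_apply, map_smul, map_sum]
  simp only [hT]

theorem norm_avg_le {Ω : Type} [Fintype Ω] (f : Ω → V) (c : ℝ) (hc : 0 ≤ c) (h : ∀ ω, ‖f ω‖ ≤ c) :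
    ‖(Fintype.card Ω : ℝ)⁻¹ • ∑ ω, f ω‖ ≤ c := by
  rw [norm_smul, Real.norm_eq_abs, abs_of_nonneg (by positivity)]
  have h1 : ‖∑ ω, f ω‖ ≤ Fintype.card Ω * c := by
    refine (norm_sum_le _ _).trans ((sum_le_sum fun ω _ => h ω).trans ?_)
    simp
  rcases Nat.eq_zero_or_pos (Fintype.card Ω) with h0 | h0
  · simp [h0, hc]
  · have : (0 : ℝ) < Fintype.card Ω := by exact_mod_cast h0
    calc _ ≤ (Fintype.card Ω : ℝ)⁻¹ * (Fintype.card Ω * c) :=
          mul_le_mul_of_nonneg_left h1 (by positivity)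
      _ = c := by field_simp

theorem iso_lam : Iso (lam P) := by
  intro g u v
  simp only [PiLp.inner_apply, lam_apply]
  exact Fintype.sum_equiv (Equiv.mulLeft g⁻¹) _ _ (fun π => rfl)

theorem iso_rho : Iso (rho P) := by
  intro g u v
  simp only [PiLp.inner_apply, rho_apply]
  exact Fintype.sum_equiv (Equiv.mulRight g) _ _ (fun π => rfl)

theorem lam_rho (g h : Perm P) (u : LG P) : lam P g (rho P h u) = rho P h (lam P g u) := by
  ext π; simp [lam_apply, rho_apply, mul_assoc]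

theorem lap_lam_eq_rho (u : LG P) : lap (lam P) univ u = lap (rho P) univ u := by
  rw [lap_apply, lap_apply]
  congr 1
  ext π
  simp only [WithLp.ofLp_sum, Finset.sum_apply, PiLp.sub_apply, lam_apply, rho_apply, swap_inv]
  symm
  refine Fintype.sum_equiv π _ _ fun x => Fintype.sum_equiv π _ _ fun y => ?_
  rw [mul_swap_eq_swap_mul]

end Crest.Agent.H0222
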