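import Crest.Agent.H0222.ScaleA

/-! The trace bound: `K1 → K3 → T3 → KT`. -/

set_option autoImplicit false

namespace Crest.Agent.H0222.Cx

open Finset

variable {d : ℕ}

theorem mem_U1 {ω : Bits d} {j : Fin d} {U : Finset (Cube d)} {u : Cube d} :
    u ∈ U1 ω j U ↔ u ∈ U ∧ u j = true ∧ partner ω j u ∈ U := by simp [U1]

theorem two_U1_le (ω : Bits d) (j : Fin d) (U : Finset (Cube d)) :
    2 * (U1 ω j U).card ≤ U.card := by
  have hd : Disjoint (U1 ω j U) ((U1 ω j U).image (partner ω j)) := by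
    refine disjoint_left.2 fun v hv hv' => ?_
    obtain ⟨w, hw, rfl⟩ := mem_image.1 hv'
    have h1 := (mem_U1.1 hv).2.1
    rw [partner_bit, (mem_U1.1 hw).2.1] at h1
    simp at h1
  have hs : U1 ω j U ∪ (U1 ω j U).image (partner ω j) ⊆ U := by
    refine union_subset (fun v hv => (mem_U1.1 hv).1) fun v hv => ?_
    obtain ⟨w, hw, rfl⟩ := mem_image.1 hv
    exact (mem_U1.1 hw).2.2
  have := card_le_card hs
  rw [card_union_of_disjoint hd, card_image_of_injective _ (partner ω j).injective] at this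
  omega

theorem U1_insert (ω : Bits d) (j : Fin d) (A : Finset (Cube d)) (v : Cube d) :
    (U1 ω j (insert v A)).card ≤ (U1 ω j A).card + if partner ω j v ∈ A then 1 else 0 := by
  by_cases hp : partner ω j v ∈ A
  · rw [if_pos hp]
    refine le_trans (card_le_card (t := insert (if v j = true then v else partner ω j v)
      (U1 ω j A)) fun u hu => ?_) (card_insert_le _ _)
    obtain ⟨h1, h2, h3⟩ := mem_U1.1 hu
    rcases mem_insert.1 h1 with h1 | h1
    · rw [h1] at h2; rw [if_pos h2, h1]; exact mem_insert_self _ _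
    · rcases mem_insert.1 h3 with h3 | h3
      · have e : u = partner ω j v := by rw [← h3, partner_partner]
        have hv : ¬ v j = true := by
          rw [← h3, partner_bit, h2]; simp
        rw [if_neg hv, e]; exact mem_insert_self _ _
      · exact mem_insert_of_mem (mem_U1.2 ⟨h1, h2, h3⟩)
  · rw [if_neg hp, add_zero]
    refine card_le_card fun u hu => ?_
    obtain ⟨h1, h2, h3⟩ := mem_U1.1 hu
    rcases mem_insert.1 h1 with h1 | h1
    · rw [h1] at h3
      rcases mem_insert.1 h3 with h3 | h3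
      · exact absurd h3 (partner_ne _ _ _)
      · exact absurd h3 hp
    · rcases mem_insert.1 h3 with h3 | h3
      · have e : u = partner ω j v := by rw [← h3, partner_partner]
        exact absurd (e ▸ h1) hp
      · exact mem_U1.2 ⟨h1, h2, h3⟩

theorem sum_insert_le (ω : Bits d) (j : Fin d) (A : Finset (Cube d)) (s : ℝ) (hs : 0 ≤ s) :
    ∑ v : Cube d, (1 + s) ^ (U1 ω j (insert v A)).card ≤
      (1 + s) ^ (U1 ω j A).card * (2 ^ d + s * A.card) := by
  have h1 : ∀ v : Cube d, (1 + s) ^ (U1 ω j (insert v A)).card ≤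
      (1 + s) ^ (U1 ω j A).card * (1 + s * if partner ω j v ∈ A then 1 else 0) := by
    intro v
    refine (pow_le_pow_right₀ (by linarith) (U1_insert ω j A v)).trans (le_of_eq ?_)
    split_ifs <;> simp [pow_succ]
  refine (sum_le_sum fun v _ => h1 v).trans (le_of_eq ?_)
  rw [← mul_sum, sum_add_distrib, ← mul_sum]
  congr 2
  · simp
  · congr 1
    rw [Equiv.sum_comp (partner ω j) (fun v => if v ∈ A then (1 : ℝ) else 0)]
    simp

theorem sum_fun_le (ω : Bits d) (j : Fin d) (s : ℝ) (hs : 0 ≤ s) (m : ℕ) :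
    ∑ y : Fin m → Cube d, (1 + s) ^ (U1 ω j (univ.image y)).card ≤
      (2 ^ d) ^ m * Real.exp (s * (m : ℝ) ^ 2 / (2 * 2 ^ d)) := by
  induction m with
  | zero => simp [U1]
  | succ m ih =>
    rw [← (Fin.consEquiv (fun _ : Fin (m + 1) => Cube d)).sum_comp, Fintype.sum_prod_type,
      sum_comm]
    have him : ∀ (v : Cube d) (y : Fin m → Cube d),
        univ.image ((Fin.consEquiv (fun _ : Fin (m + 1) => Cube d)) (v, y)) =
          insert v (univ.image y) := by
      intro v y
      ext w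
      simp [Fin.consEquiv, Fin.exists_fin_succ, eq_comm]
    simp only [him]
    have h1 : ∀ y : Fin m → Cube d,
        ∑ v : Cube d, (1 + s) ^ (U1 ω j (insert v (univ.image y))).card ≤
        (1 + s) ^ (U1 ω j (univ.image y)).card * (2 ^ d * Real.exp (s * m / 2 ^ d)) := by
      intro y
      refine (sum_insert_le ω j _ s hs).trans (mul_le_mul_of_nonneg_left ?_ (by positivity))
      have c : ((univ.image y).card : ℝ) ≤ m := by
        have := card_image_le (s := (univ : Finset (Fin m))) (f := y)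
        rw [card_univ, Fintype.card_fin] at this
        exact_mod_cast this
      have e := Real.add_one_le_exp (s * m / 2 ^ d)
      have e2 : (2 : ℝ) ^ d * (s * m / 2 ^ d + 1) = 2 ^ d + s * m := by field_simp; ring
      have e3 := mul_le_mul_of_nonneg_left e (show (0 : ℝ) ≤ 2 ^ d by positivity)
      have e4 := mul_le_mul_of_nonneg_left c hs
      linarith
    refine (sum_le_sum fun y _ => h1 y).trans ?_
    rw [← sum_mul]
    refine (mul_le_mul_of_nonneg_right ih (by positivity)).trans ?_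
    rw [pow_succ ((2 : ℝ) ^ d) m, mul_mul_mul_comm, ← Real.exp_add]
    refine mul_le_mul_of_nonneg_left (Real.exp_le_exp.2 ?_) (by positivity)
    have : s * ((m + 1 : ℕ) : ℝ) ^ 2 / (2 * 2 ^ d) =
        s * (m : ℝ) ^ 2 / (2 * 2 ^ d) + s * m / 2 ^ d + s / (2 * 2 ^ d) := by
      push_cast; field_simp; ring
    rw [this]
    have : 0 ≤ s / (2 * 2 ^ d) := by positivity
    linarith

theorem sum_emb_le {ι : Type} [Fintype ι] (ω : Bits d) (f : Finset (Cube d) → ℝ)
    (hf : ∀ A, 0 ≤ f A) :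
    ∑ x : ι ↪ Cube d, f (outs ω x) ≤ ∑ y : Fin (Fintype.card ι) → Cube d, f (univ.image y) := by
  classical
  let e := Fintype.equivFin ι
  let φ : (ι ↪ Cube d) → (Fin (Fintype.card ι) → Cube d) := fun x a => bf ω (x (e.symm a))
  have hφ : Function.Injective φ := by
    intro x x' h
    ext1 a
    have := congrFun h (e a)
    simpa [φ] using this
  have him : ∀ x, outs ω x = univ.image (φ x) := by
    intro x
    ext w
    simp only [outs, mem_image, mem_univ, true_and, φ]
    exact ⟨fun ⟨a, ha⟩ => ⟨e a, by simpa using ha⟩, fun ⟨a, ha⟩ => ⟨_, ha⟩⟩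
  simp only [him]
  rw [← sum_image (s := univ) (g := φ) (f := fun y => f (univ.image y))
    (fun x _ x' _ h => hφ h)]
  exact sum_le_sum_of_subset_of_nonneg (subset_univ _) fun y _ _ => hf _

theorem card_emb_le (ι : Type) [Fintype ι] :
    ∑ _x : ι ↪ Cube d, (1 : ℝ) ≤ (2 ^ d) ^ Fintype.card ι := by
  refine (sum_emb_le (ι := ι) (fun _ _ => false) (fun _ => (1 : ℝ)) (fun _ => zero_le_one)).trans
    (le_of_eq ?_)
  simp

theorem Kmat_symm (d : ℕ) (ι : Type) [Fintype ι] : (Kmat d ι).IsSymm := by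
  ext x x'
  simp only [Matrix.transpose_apply, Kmat]
  rw [sum_comm]
  congr 1
  refine sum_congr rfl fun ω _ => sum_congr rfl fun ω' _ => ?_
  simp only [eq_comm]

theorem Kmat_nonneg (d : ℕ) (ι : Type) [Fintype ι] (x y : ι ↪ Cube d) : 0 ≤ Kmat d ι x y := by
  unfold Kmat
  refine div_nonneg (sum_nonneg fun _ _ => sum_nonneg fun _ _ => ?_) (by positivity)
  split_ifs <;> norm_num

theorem kt_aux (h1 : K1) (h3 : K3) (t3 : T3) (d : ℕ) (ι : Type) [Fintype ι] (Bd : ℝ)
    (hB1 : 1 ≤ Bd)
    (hB : ∀ (ω : Bits d) (j : Fin d), ∑ x : ι ↪ Cube d,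
      Real.exp (70 * ((U1 ω j (outs ω x)).card : ℝ)) ≤ (2 ^ d) ^ Fintype.card ι * Bd) :
    (Kmat d ι ^ 128).trace ≤ Bd := by
  obtain ⟨κ, hκ0, hκ, hK⟩ := h3 d
  have hC : (0 : ℝ) < Fintype.card (Bits d) := by exact_mod_cast Fintype.card_pos
  obtain ⟨n, hn⟩ : ∃ n : ℝ, n = (2 ^ d) ^ Fintype.card ι := ⟨_, rfl⟩
  have hn0 : 0 < n := by rw [hn]; positivity
  refine (t3 _ _ (Kmat_symm d ι) (Kmat_nonneg d ι)).trans ?_
  have hx : ∀ x : ι ↪ Cube d, (∑ y, Kmat d ι x y ^ (128 / 127 : ℝ)) ^ 127 ≤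
      n⁻¹ * ((∑ ω : Bits d, Real.exp (∑ j, κ j * ((U1 ω j (outs ω x)).card : ℝ))) /
        (Fintype.card (Bits d) : ℝ)) := by
    intro x
    have a1 : (∑ ω : Bits d, ∑ ω' : Bits d,
        (2 : ℝ) ^ (((∑ j : Fin d, cyc ω ω' j (outs ω x) : ℕ) : ℝ) / 127)) /
          (Fintype.card (Bits d) : ℝ) ^ 2 ≤
        (∑ ω : Bits d, Real.exp ((∑ j, κ j * ((U1 ω j (outs ω x)).card : ℝ)) / 127)) /
          (Fintype.card (Bits d) : ℝ) := by
      rw [sq, ← div_div, sum_div]
      exact div_le_div_of_nonneg_right (sum_le_sum fun ω _ => hK ω _) hC.le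
    have a2 := (h1 d ι x).trans (mul_le_mul_of_nonneg_left a1 (by positivity))
    refine (pow_le_pow_left₀ (sum_nonneg fun y _ => Real.rpow_nonneg (Kmat_nonneg d ι x y) _)
      a2 127).trans ?_
    rw [mul_pow]
    have a3 : (((2 : ℝ) ^ d) ^ (-(Fintype.card ι : ℝ) / 127)) ^ 127 = n⁻¹ := by
      rw [← Real.rpow_natCast _ 127, ← Real.rpow_mul (by positivity), hn,
        ← Real.rpow_natCast _ (Fintype.card ι), ← Real.rpow_neg (by positivity)]
      congr 1
      push_cast; ring
    rw [a3]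
    refine mul_le_mul_of_nonneg_left ?_ (by positivity)
    have a4 := pow_sum_div_card_le_sum_pow (s := (univ : Finset (Bits d)))
      (f := fun ω => Real.exp ((∑ j, κ j * ((U1 ω j (outs ω x)).card : ℝ)) / 127))
      (fun _ _ => (Real.exp_pos _).le) 126
    rw [card_univ] at a4
    rw [div_pow, pow_succ (Fintype.card (Bits d) : ℝ) 126, ← div_div]
    refine div_le_div_of_nonneg_right (a4.trans (le_of_eq ?_)) hC.le
    refine sum_congr rfl fun ω _ => ?_
    rw [← Real.exp_nat_mul]
    congr 1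
    push_cast; ring
  refine (sum_le_sum fun x _ => hx x).trans ?_
  rw [← mul_sum, ← sum_div, sum_comm, inv_mul_le_iff₀ hn0, div_le_iff₀ hC]
  have hω : ∀ ω : Bits d, ∑ x : ι ↪ Cube d,
      Real.exp (∑ j, κ j * ((U1 ω j (outs ω x)).card : ℝ)) ≤ n * Bd := by
    intro ω
    have hw : ∑ j, κ j / 70 ≤ 1 := by rw [← sum_div, div_le_one (by norm_num)]; exact hκ
    have b1 : ∀ x : ι ↪ Cube d, Real.exp (∑ j, κ j * ((U1 ω j (outs ω x)).card : ℝ)) ≤
        ∑ j, κ j / 70 * Real.exp (70 * ((U1 ω j (outs ω x)).card : ℝ)) +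
          (1 - ∑ j, κ j / 70) * 1 := by
      intro x
      rw [mul_one]
      refine le_trans (le_of_eq ?_) (exp_subconvex univ (fun j => κ j / 70)
        (fun j => 70 * ((U1 ω j (outs ω x)).card : ℝ))
        (fun j _ => div_nonneg (hκ0 j) (by norm_num)) hw)
      congr 1
      exact sum_congr rfl fun j _ => by ring
    refine (sum_le_sum fun x _ => b1 x).trans ?_
    rw [sum_add_distrib, sum_comm, ← mul_sum]
    have b2 : ∑ j, ∑ x : ι ↪ Cube d, κ j / 70 * Real.exp (70 * ((U1 ω j (outs ω x)).card : ℝ)) ≤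
        (∑ j, κ j / 70) * (n * Bd) := by
      rw [sum_mul]
      refine sum_le_sum fun j _ => ?_
      rw [← mul_sum, hn]
      exact mul_le_mul_of_nonneg_left (hB ω j) (div_nonneg (hκ0 j) (by norm_num))
    have b3 : ∑ _x : ι ↪ Cube d, (1 : ℝ) ≤ n * Bd := by
      refine (card_emb_le ι).trans ?_
      rw [← hn]
      exact le_mul_of_one_le_right hn0.le hB1
    have b4 := mul_le_mul_of_nonneg_left b3 (sub_nonneg.2 hw)
    linarith
  refine (sum_le_sum fun ω _ => hω ω).trans (le_of_eq ?_)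
  rw [sum_const, card_univ, nsmul_eq_mul]
  ring

end Crest.Agent.H0222.Cx

namespace Crest.Agent.H0222

open Finset Cx

theorem kt (h1 : K1) (h3 : K3) (t3 : T3) : KT := by
  intro d ι _
  constructor
  · refine kt_aux h1 h3 t3 d ι _ (Real.one_le_exp (by positivity)) fun ω j => ?_
    have b1 : ∀ x : ι ↪ Cube d, Real.exp (70 * ((U1 ω j (outs ω x)).card : ℝ)) ≤
        1 * Real.exp (35 * (Fintype.card ι : ℝ)) := by
      intro x
      rw [one_mul]
      refine Real.exp_le_exp.2 ?_
      have c1 := two_U1_le ω j (outs ω x)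
      have c2 : (outs ω x).card ≤ Fintype.card ι := card_image_le
      have c3 : (2 * (U1 ω j (outs ω x)).card : ℝ) ≤ Fintype.card ι := by
        exact_mod_cast c1.trans c2
      linarith
    refine (sum_le_sum fun x _ => b1 x).trans ?_
    rw [← sum_mul]
    exact mul_le_mul_of_nonneg_right (card_emb_le ι) (Real.exp_pos _).le
  · refine kt_aux h1 h3 t3 d ι _ (Real.one_le_exp (by positivity)) fun ω j => ?_
    have hs : 0 ≤ Real.exp 70 - 1 := sub_nonneg.2 (Real.one_le_exp (by norm_num))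
    have b1 := sum_emb_le (ι := ι) ω
      (fun A => (1 + (Real.exp 70 - 1)) ^ (U1 ω j A).card) (fun _ => by positivity)
    have b2 := b1.trans (sum_fun_le ω j _ hs _)
    refine le_trans (le_of_eq ?_) (b2.trans ?_)
    · refine sum_congr rfl fun x _ => ?_
      rw [add_sub_cancel, ← Real.exp_nat_mul, mul_comm]
    · refine mul_le_mul_of_nonneg_left (Real.exp_le_exp.2 ?_) (by positivity)
      refine div_le_div_of_nonneg_right ?_ (by positivity)
      exact mul_le_mul_of_nonneg_right (by linarith) (by positivity)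

end Crest.Agent.H0222
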