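import Crest.Agent.H0222.Jobs

/-! Multi-scale combination: `K2 → K3`. -/

set_option autoImplicit false

namespace Crest.Agent.H0222.Cx

open Finset

theorem exp_subconvex {ι : Type} (s : Finset ι) (w a : ι → ℝ) (hw : ∀ i ∈ s, 0 ≤ w i)
    (hs : ∑ i ∈ s, w i ≤ 1) :
    Real.exp (∑ i ∈ s, w i * a i) ≤ ∑ i ∈ s, w i * Real.exp (a i) + (1 - ∑ i ∈ s, w i) := by
  obtain ⟨A, hA⟩ : ∃ A, A = ∑ i ∈ s, w i * a i := ⟨_, rfl⟩
  rw [← hA]
  have tang : ∀ x : ℝ, Real.exp A * (1 + x - A) ≤ Real.exp x := by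
    intro x
    have h1 := Real.add_one_le_exp (x - A)
    have h2 : Real.exp x = Real.exp A * Real.exp (x - A) := by rw [← Real.exp_add]; congr 1; ring
    rw [h2]
    exact mul_le_mul_of_nonneg_left (by linarith) (Real.exp_pos _).le
  have h1 : ∑ i ∈ s, w i * (Real.exp A * (1 + a i - A)) ≤ ∑ i ∈ s, w i * Real.exp (a i) :=
    sum_le_sum fun i hi => mul_le_mul_of_nonneg_left (tang _) (hw i hi)
  have h2 : ∑ i ∈ s, w i * (Real.exp A * (1 + a i - A)) =
      Real.exp A * ((1 - A) * ∑ i ∈ s, w i + A) := by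
    conv_rhs => rw [mul_add, hA, mul_sum, mul_sum, mul_sum, ← hA, ← sum_add_distrib]
    refine sum_congr rfl fun i _ => by ring
  have h3 := mul_le_mul_of_nonneg_left (tang 0) (sub_nonneg.2 hs)
  rw [Real.exp_zero] at h3
  nlinarith

variable {d : ℕ}

theorem mem_cls {ω0 ω : Bits d} {t : ℕ} :
    ω ∈ cls ω0 t ↔ ∀ i : Fin d, t ≤ i.val → ω i = ω0 i := by simp [cls]

theorem chain_step (t : ℕ) (F Y : Bits d → ℝ) (B : ℝ) (hF0 : ∀ ω, 0 ≤ F ω)
    (hF : ∀ ω0, ∀ ω ∈ cls ω0 t, F ω = F ω0)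
    (hY : ∀ ω0, ∑ ω ∈ cls ω0 t, Y ω ≤ ((cls ω0 t).card : ℝ) * B) :
    ∑ ω, F ω * Y ω ≤ (∑ ω, F ω) * B := by
  classical
  let π : Bits d → Bits d := fun ω i => if t ≤ i.val then ω i else fun _ => false
  have hfib : ∀ ω0 : Bits d, univ.filter (fun ω => π ω = π ω0) = cls ω0 t := by
    intro ω0
    ext ω
    rw [mem_filter, mem_cls]
    constructor
    · rintro ⟨_, h⟩ i hi
      have := congrFun h i
      simpa [π, hi] using this
    · intro h
      refine ⟨mem_univ _, funext fun i => ?_⟩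
      by_cases hi : t ≤ i.val
      · simp [π, hi, h i hi]
      · simp [π, hi]
  rw [sum_mul, ← sum_fiberwise_of_maps_to (s := univ) (t := univ.image π) (g := π)
      (fun ω _ => mem_image_of_mem _ (mem_univ _)),
    ← sum_fiberwise_of_maps_to (s := univ) (t := univ.image π) (g := π)
      (fun ω _ => mem_image_of_mem _ (mem_univ _)) (fun ω => F ω * B)]
  refine sum_le_sum fun c hc => ?_
  obtain ⟨ω0, _, rfl⟩ := mem_image.1 hc
  have e1 : ∑ ω ∈ cls ω0 t, F ω * Y ω = F ω0 * ∑ ω ∈ cls ω0 t, Y ω := by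
    rw [mul_sum]; exact sum_congr rfl (fun ω hω => by rw [hF ω0 ω hω])
  have e2 : ∑ ω ∈ cls ω0 t, F ω * B = F ω0 * (((cls ω0 t).card : ℝ) * B) := by
    rw [sum_congr rfl (g := fun _ => F ω0 * B) (fun ω hω => by rw [hF ω0 ω hω]),
      sum_const, nsmul_eq_mul, mul_left_comm]
  rw [hfib ω0, e1, e2]
  exact mul_le_mul_of_nonneg_left (hY ω0) (hF0 ω0)

theorem chain (t : ℕ → ℕ) (ht : Antitone t) (Y : ℕ → Bits d → ℝ) (B : ℕ → ℝ)
    (hY0 : ∀ m ω, 0 ≤ Y m ω) (hB0 : ∀ m, 0 ≤ B m)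
    (hc : ∀ m ω0, ∀ ω ∈ cls ω0 (t (m + 1)), Y m ω = Y m ω0)
    (hY : ∀ m ω0, ∑ ω ∈ cls ω0 (t m), Y m ω ≤ ((cls ω0 (t m)).card : ℝ) * B m) (n : ℕ) :
    ∑ ω, ∏ m ∈ range n, Y m ω ≤ (Fintype.card (Bits d) : ℝ) * ∏ m ∈ range n, B m := by
  induction n with
  | zero => simp
  | succ n ih =>
    simp only [prod_range_succ]
    refine (chain_step (t n) _ _ (B n) (fun ω => prod_nonneg fun m _ => hY0 m ω) ?_
      (hY n)).trans ?_
    · intro ω0 ω hω
      refine prod_congr rfl fun m hm => hc m ω0 ω ?_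
      rw [mem_cls] at hω ⊢
      intro i hi
      exact hω i ((ht (Nat.succ_le_of_lt (mem_range.1 hm))).trans hi)
    · rw [← mul_assoc]
      exact mul_le_mul_of_nonneg_right ih (hB0 n)

theorem cyc_congr (ω : Bits d) {ω' ω'' : Bits d} {j : Fin d} (U : Finset (Cube d))
    (h : ∀ i : Fin d, j < i → ω'' i = ω' i) : cyc ω ω'' j U = cyc ω ω' j U := by
  unfold cyc
  rw [partner_congr h]

theorem cyc_le (ω ω' : Bits d) (j : Fin d) (U : Finset (Cube d)) :
    cyc ω ω' j U ≤ (U1 ω j U).card := card_image_le.trans (card_filter_le _ _)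

/-- depth of a layer -/
def dep (j : Fin d) : ℕ := d - 1 - j.val

/-- scale of a layer -/
def idx (j : Fin d) : ℕ := Nat.log 2 (dep j) - 6

theorem idx_spec {j : Fin d} (h : 64 ≤ dep j) :
    64 * 2 ^ idx j ≤ dep j ∧ dep j < 128 * 2 ^ idx j := by
  have h0 : dep j ≠ 0 := by omega
  have h6 : 6 ≤ Nat.log 2 (dep j) := by
    rw [Nat.le_log_iff_pow_le (by norm_num) h0]; simpa using h
  have e : Nat.log 2 (dep j) = idx j + 6 := by unfold idx; omega
  have h1 := Nat.pow_log_le_self 2 h0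
  have h2 := Nat.lt_pow_succ_log_self (b := 2) (by norm_num) (dep j)
  rw [e] at h1 h2
  constructor
  · rw [pow_add] at h1; omega
  · rw [Nat.succ_eq_add_one, add_assoc, pow_add] at h2; omega

theorem idx_lt (j : Fin d) : idx j < d := by
  have h1 : Nat.log 2 (dep j) ≤ dep j := Nat.log_le_self _ _
  have := j.2
  unfold idx
  unfold dep at h1 ⊢
  omega

theorem card_dep_le (a b : ℕ) (s : Finset (Fin d)) (h : ∀ j ∈ s, a ≤ dep j ∧ dep j < b) :
    s.card ≤ b - a := by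
  rw [← Nat.card_Ico]
  refine card_le_card_of_injOn dep (fun j hj => mem_coe.2 (mem_Ico.2 (h j (mem_coe.1 hj)))) ?_
  intro j _ j' _ e
  have := j.2
  have := j'.2
  unfold dep at e
  exact Fin.ext (by omega)

/-- the weights -/
noncomputable def kap (j : Fin d) : ℝ :=
  if dep j < 64 then Real.log 2 else (9 / 8) / (4 ^ (2 ^ idx j) * 2 ^ idx j)

theorem kap_nonneg (j : Fin d) : 0 ≤ kap j := by
  unfold kap
  split_ifs
  · exact Real.log_nonneg (by norm_num)
  · positivity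

/-- layers of scale `i` -/
def Jsc (d i : ℕ) : Finset (Fin d) := univ.filter (fun j => ¬ dep j < 64 ∧ idx j = i)

theorem card_Jsc (i : ℕ) : (Jsc d i).card ≤ 64 * 2 ^ i := by
  refine (card_dep_le (64 * 2 ^ i) (128 * 2 ^ i) _ fun j hj => ?_).trans (by omega)
  obtain ⟨h1, h2⟩ := (mem_filter.1 hj).2
  rw [← h2]
  exact idx_spec (not_lt.1 h1)

theorem geo_aux (n : ℕ) : ∑ i ∈ range n, (72 : ℝ) / 4 ^ (i + 1) ≤ 24 - 24 / 4 ^ n := by
  induction n with
  | zero => simp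
  | succ n ih =>
    rw [sum_range_succ]
    have : (24 : ℝ) - 24 / 4 ^ (n + 1) = 24 - 24 / 4 ^ n + 72 / 4 ^ (n + 1) := by
      field_simp; ring
    linarith

theorem sum_kap : ∑ j : Fin d, kap j ≤ 70 := by
  rw [← sum_filter_add_sum_filter_not univ (fun j : Fin d => dep j < 64)]
  have h1 : ∑ j ∈ univ.filter (fun j : Fin d => dep j < 64), kap j ≤ 64 * Real.log 2 := by
    rw [sum_congr rfl (g := fun _ => Real.log 2)
      (fun j hj => by unfold kap; rw [if_pos (mem_filter.1 hj).2]), sum_const, nsmul_eq_mul]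
    refine mul_le_mul_of_nonneg_right ?_ (Real.log_nonneg (by norm_num))
    have := card_dep_le 0 64 (univ.filter (fun j : Fin d => dep j < 64))
      (fun j hj => ⟨Nat.zero_le _, (mem_filter.1 hj).2⟩)
    exact_mod_cast this
  have h2 : ∑ j ∈ univ.filter (fun j : Fin d => ¬ dep j < 64), kap j ≤ 24 := by
    rw [← sum_fiberwise_of_maps_to (t := range d) (g := idx)
      (fun j _ => mem_range.2 (idx_lt j))]
    have h3 : ∀ i ∈ range d, ∑ j ∈ (univ.filter (fun j : Fin d => ¬ dep j < 64)).filter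
        (fun j => idx j = i), kap j ≤ (72 : ℝ) / 4 ^ (i + 1) := by
      intro i _
      rw [filter_filter, sum_congr rfl (g := fun _ => (9 / 8 : ℝ) / (4 ^ (2 ^ i) * 2 ^ i))
        (fun j hj => by
          unfold kap; rw [if_neg (mem_filter.1 hj).2.1, (mem_filter.1 hj).2.2]),
        sum_const, nsmul_eq_mul]
      have c : ((Jsc d i).card : ℝ) ≤ 64 * 2 ^ i := by exact_mod_cast card_Jsc i
      have e : (64 * 2 ^ i : ℝ) * ((9 / 8 : ℝ) / (4 ^ (2 ^ i) * 2 ^ i)) = 72 / 4 ^ (2 ^ i) := by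
        field_simp; norm_num
      refine (mul_le_mul_of_nonneg_right c (by positivity)).trans ?_
      rw [e]
      refine div_le_div_of_nonneg_left (by norm_num) (by positivity) ?_
      exact pow_le_pow_right₀ (by norm_num) (Nat.lt_two_pow_self)
    refine (sum_le_sum h3).trans ((geo_aux d).trans ?_)
    have : (0 : ℝ) ≤ 24 / 4 ^ d := by positivity
    linarith
  have h3 := Real.log_two_lt_d9
  linarith

theorem scale_bound (h : K2) (ω ω0 : Bits d) (U : Finset (Cube d)) (i : ℕ) :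
    ∑ ω' ∈ cls ω0 (d - 32 * 2 ^ i),
      Real.exp (∑ j ∈ Jsc d i, 2 * (Real.log 2 * (cyc ω ω' j U : ℝ) / 127)) ≤
      ((cls ω0 (d - 32 * 2 ^ i)).card : ℝ) *
        Real.exp (∑ j ∈ Jsc d i, 2 * (kap j * ((U1 ω j U).card : ℝ) / 127)) := by
  obtain ⟨u, hu⟩ : ∃ u : ℕ, u = 2 ^ i := ⟨_, rfl⟩
  have hu1 : 1 ≤ u := by rw [hu]; exact Nat.one_le_two_pow
  have hur : (0 : ℝ) < u := by exact_mod_cast hu1
  rw [← hu]
  obtain ⟨θ, hθ⟩ : ∃ θ : ℝ, θ = 1 / (127 * u) := ⟨_, rfl⟩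
  have hθ0 : 0 ≤ θ := by rw [hθ]; positivity
  have hsum : ∑ _j ∈ Jsc d i, θ ≤ 1 := by
    rw [sum_const, nsmul_eq_mul, hθ, mul_one_div, div_le_one (by positivity)]
    have c : ((Jsc d i).card : ℝ) ≤ 64 * u := by rw [hu]; exact_mod_cast card_Jsc i
    linarith
  obtain ⟨β, hβ⟩ : ∃ β : Fin d → ℝ, β = fun j => ((U1 ω j U).card : ℝ) * (9 / 4) / 4 ^ u :=
    ⟨_, rfl⟩
  have hB : ∑ j ∈ Jsc d i, 2 * (kap j * ((U1 ω j U).card : ℝ) / 127) =
      ∑ j ∈ Jsc d i, θ * β j := by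
    refine sum_congr rfl fun j hj => ?_
    unfold kap
    rw [if_neg (mem_filter.1 hj).2.1, (mem_filter.1 hj).2.2, hβ, hθ, ← hu]
    have : (2 : ℝ) ^ i = u := by rw [hu]; push_cast; rfl
    rw [this]
    field_simp
    ring
  have hpt : ∀ ω' : Bits d,
      Real.exp (∑ j ∈ Jsc d i, 2 * (Real.log 2 * (cyc ω ω' j U : ℝ) / 127)) ≤
      (∑ j ∈ Jsc d i, θ * ((2 : ℝ) ^ (2 * u * cyc ω ω' j U) / Real.exp (β j)) +
        (1 - ∑ _j ∈ Jsc d i, θ)) * Real.exp (∑ j ∈ Jsc d i, θ * β j) := by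
    intro ω'
    have e1 : ∑ j ∈ Jsc d i, 2 * (Real.log 2 * (cyc ω ω' j U : ℝ) / 127) =
        ∑ j ∈ Jsc d i, θ * (((2 * u * cyc ω ω' j U : ℕ) : ℝ) * Real.log 2 - β j) +
          ∑ j ∈ Jsc d i, θ * β j := by
      rw [← sum_add_distrib]
      refine sum_congr rfl fun j _ => ?_
      rw [hθ]; push_cast; field_simp; ring
    rw [e1, Real.exp_add]
    refine mul_le_mul_of_nonneg_right ?_ (Real.exp_pos _).le
    refine (exp_subconvex _ (fun _ => θ) _ (fun _ _ => hθ0) hsum).trans (le_of_eq ?_)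
    congr 1
    refine sum_congr rfl fun j _ => ?_
    rw [Real.exp_sub, Real.exp_nat_mul, Real.exp_log (by norm_num)]
  refine (sum_le_sum fun ω' _ => hpt ω').trans ?_
  rw [← sum_mul, hB]
  refine mul_le_mul_of_nonneg_right ?_ (Real.exp_pos _).le
  rw [sum_add_distrib, sum_comm, sum_const, nsmul_eq_mul]
  have hj : ∀ j ∈ Jsc d i, ∑ ω' ∈ cls ω0 (d - 32 * u),
      θ * ((2 : ℝ) ^ (2 * u * cyc ω ω' j U) / Real.exp (β j)) ≤
      θ * ((cls ω0 (d - 32 * u)).card : ℝ) := by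
    intro j hj
    rw [← mul_sum, ← sum_div]
    refine mul_le_mul_of_nonneg_left ?_ hθ0
    rw [div_le_iff₀ (Real.exp_pos _), hβ]
    obtain ⟨h1, h2⟩ := (mem_filter.1 hj).2
    have h3 := (idx_spec (not_lt.1 h1)).1
    rw [h2, ← hu] at h3
    unfold dep at h3
    exact h d ω ω0 j U u _ hu1 (by omega) (Nat.sub_le _ _)
  have := sum_le_sum hj
  rw [← sum_mul] at this
  linarith

theorem parity_bound (h : K2) (ω : Bits d) (U : Finset (Cube d)) (e : ℕ) :
    ∑ ω' : Bits d, Real.exp (∑ j ∈ univ.filter (fun j : Fin d => ¬ dep j < 64 ∧ idx j % 2 = e),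
        Real.log 2 * (cyc ω ω' j U : ℝ) / 127) ^ 2 ≤
      (Fintype.card (Bits d) : ℝ) *
        Real.exp (∑ j ∈ univ.filter (fun j : Fin d => ¬ dep j < 64 ∧ idx j % 2 = e),
          kap j * ((U1 ω j U).card : ℝ) / 127) ^ 2 := by
  by_cases he : e < 2
  swap
  · have : univ.filter (fun j : Fin d => ¬ dep j < 64 ∧ idx j % 2 = e) = ∅ :=
      filter_eq_empty_iff.2 fun j _ hj => he (by omega)
    rw [this]
    simp
  have key : ∀ f : Fin d → ℝ,
      Real.exp (∑ j ∈ univ.filter (fun j : Fin d => ¬ dep j < 64 ∧ idx j % 2 = e), f j) ^ 2 =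
        ∏ m ∈ range d, Real.exp (∑ j ∈ Jsc d (2 * m + e), 2 * f j) := by
    intro f
    rw [← Real.exp_sum, ← Real.exp_nat_mul, mul_sum,
      ← sum_fiberwise_of_maps_to (t := range d) (g := fun j => idx j / 2)
        (fun j _ => mem_range.2 (by have := idx_lt j; omega))]
    congr 1
    refine sum_congr rfl fun m _ => ?_
    rw [filter_filter]
    refine sum_congr ?_ fun j _ => by norm_num
    refine filter_congr fun j _ => ?_
    constructor
    · rintro ⟨⟨h1, h2⟩, h3⟩; exact ⟨h1, by omega⟩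
    · rintro ⟨h1, h2⟩; exact ⟨⟨h1, by omega⟩, by omega⟩
  simp only [key]
  refine chain (fun m => d - 32 * 2 ^ (2 * m + e)) ?_
    (fun m ω' => Real.exp (∑ j ∈ Jsc d (2 * m + e), 2 * (Real.log 2 * (cyc ω ω' j U : ℝ) / 127)))
    (fun m => Real.exp (∑ j ∈ Jsc d (2 * m + e), 2 * (kap j * ((U1 ω j U).card : ℝ) / 127)))
    (fun _ _ => (Real.exp_pos _).le) (fun _ => (Real.exp_pos _).le) ?_
    (fun m ω0 => scale_bound h ω ω0 U _) d
  · intro a b hab
    have : 2 ^ (2 * a + e) ≤ 2 ^ (2 * b + e) := Nat.pow_le_pow_right (by norm_num) (by omega)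
    simp only
    omega
  · intro m ω0 ω' hω'
    congr 1
    refine sum_congr rfl fun j hj => ?_
    rw [cyc_congr ω U (ω' := ω0) (ω'' := ω')]
    intro i hi
    refine mem_cls.1 hω' i ?_
    obtain ⟨h1, h2⟩ := (mem_filter.1 hj).2
    have h3 := (idx_spec (not_lt.1 h1)).2
    rw [h2] at h3
    have e1 : 2 ^ (2 * (m + 1) + e) = 4 * 2 ^ (2 * m + e) := by ring
    have hi' : j.val < i.val := hi
    unfold dep at h3
    simp only [e1]
    omega

end Crest.Agent.H0222.Cx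

namespace Crest.Agent.H0222

open Finset Cx

theorem k3 (h : K2) : K3 := by
  intro d
  refine ⟨kap, kap_nonneg, sum_kap, fun ω U => ?_⟩
  have hC : (0 : ℝ) < Fintype.card (Bits d) := by exact_mod_cast Fintype.card_pos
  rw [div_le_iff₀ hC]
  have split : ∀ f : Fin d → ℝ, ∑ j, f j =
      ∑ j ∈ univ.filter (fun j : Fin d => dep j < 64), f j +
      (∑ j ∈ univ.filter (fun j : Fin d => ¬ dep j < 64 ∧ idx j % 2 = 0), f j +
       ∑ j ∈ univ.filter (fun j : Fin d => ¬ dep j < 64 ∧ idx j % 2 = 1), f j) := by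
    intro f
    rw [← sum_filter_add_sum_filter_not univ (fun j : Fin d => dep j < 64),
      ← sum_filter_add_sum_filter_not (univ.filter (fun j : Fin d => ¬ dep j < 64))
        (fun j => idx j % 2 = 0), filter_filter, filter_filter]
    congr 3
    refine filter_congr fun j _ => ?_
    constructor
    · rintro ⟨h1, h2⟩; exact ⟨h1, by omega⟩
    · rintro ⟨h1, h2⟩; exact ⟨h1, by omega⟩
  obtain ⟨g, hg⟩ : ∃ g : Bits d → Fin d → ℝ,
      g = fun ω' j => Real.log 2 * (cyc ω ω' j U : ℝ) / 127 := ⟨_, rfl⟩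
  obtain ⟨k, hk⟩ : ∃ k : Fin d → ℝ, k = fun j => kap j * ((U1 ω j U).card : ℝ) / 127 := ⟨_, rfl⟩
  have p0 := parity_bound h ω U 0
  have p1 := parity_bound h ω U 1
  have hg' : ∀ ω' j, Real.log 2 * (cyc ω ω' j U : ℝ) / 127 = g ω' j := fun _ _ => by rw [hg]
  have hk' : ∀ j, kap j * ((U1 ω j U).card : ℝ) / 127 = k j := fun _ => by rw [hk]
  simp only [hg', hk'] at p0 p1
  have e1 : ∀ ω' : Bits d, (2 : ℝ) ^ (((∑ j : Fin d, cyc ω ω' j U : ℕ) : ℝ) / 127) =
      Real.exp (∑ j, g ω' j) := by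
    intro ω'
    rw [Real.rpow_def_of_pos (by norm_num), hg]
    congr 1
    push_cast
    rw [sum_div, mul_sum]
    exact sum_congr rfl fun j _ => by ring
  have e2 : (∑ j, kap j * ((U1 ω j U).card : ℝ)) / 127 = ∑ j, k j := by
    rw [sum_div, hk]
  simp only [e1]
  rw [e2, split k]
  have hsmall : ∀ ω', ∑ j ∈ univ.filter (fun j : Fin d => dep j < 64), g ω' j ≤
      ∑ j ∈ univ.filter (fun j : Fin d => dep j < 64), k j := by
    intro ω'
    refine sum_le_sum fun j hj => ?_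
    rw [← hg', ← hk']
    unfold kap
    rw [if_pos (mem_filter.1 hj).2]
    refine div_le_div_of_nonneg_right (mul_le_mul_of_nonneg_left ?_
      (Real.log_nonneg (by norm_num))) (by norm_num)
    exact_mod_cast cyc_le ω ω' j U
  generalize univ.filter (fun j : Fin d => dep j < 64) = S at *
  generalize univ.filter (fun j : Fin d => ¬ dep j < 64 ∧ idx j % 2 = 0) = E0 at *
  generalize univ.filter (fun j : Fin d => ¬ dep j < 64 ∧ idx j % 2 = 1) = E1 at *
  have hcs : ∑ ω', Real.exp (∑ j ∈ E0, g ω' j) * Real.exp (∑ j ∈ E1, g ω' j) ≤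
      Real.exp (∑ j ∈ E0, k j) * Real.exp (∑ j ∈ E1, k j) * (Fintype.card (Bits d) : ℝ) := by
    refine (pow_le_pow_iff_left₀ (sum_nonneg fun _ _ => by positivity) (by positivity)
      two_ne_zero).1 ?_
    refine (sum_mul_sq_le_sq_mul_sq _ _ _).trans ?_
    refine (mul_le_mul p0 p1 (sum_nonneg fun _ _ => by positivity) (by positivity)).trans
      (le_of_eq ?_)
    ring
  calc ∑ ω', Real.exp (∑ j, g ω' j)
      ≤ ∑ ω', Real.exp (∑ j ∈ S, k j) *
          (Real.exp (∑ j ∈ E0, g ω' j) * Real.exp (∑ j ∈ E1, g ω' j)) := by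
        refine sum_le_sum fun ω' _ => ?_
        rw [split (g ω'), Real.exp_add, Real.exp_add]
        exact mul_le_mul_of_nonneg_right (Real.exp_le_exp.2 (hsmall ω')) (by positivity)
    _ ≤ _ := by
        rw [← mul_sum, Real.exp_add, Real.exp_add, mul_assoc]
        exact mul_le_mul_of_nonneg_left hcs (by positivity)

end Crest.Agent.H0222
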