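import Crest.Agent.H0222.Defs

/-! Spectral decomposition helpers. -/

set_option autoImplicit false

namespace Crest.Agent.H0222

open Finset
open scoped InnerProductSpace

variable {V : Type} [NormedAddCommGroup V] [InnerProductSpace ℝ V]

theorem inner_eig_zero {T : V →ₗ[ℝ] V} (hT : T.IsSymmetric) {v w : V} {μ ν : ℝ}
    (hv : T v = μ • v) (hw : T w = ν • w) (h : μ ≠ ν) : ⟪v, w⟫_ℝ = 0 := by
  have := hT v w
  rw [hv, hw, real_inner_smul_left, real_inner_smul_right] at this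
  have h2 : (μ - ν) * ⟪v, w⟫_ℝ = 0 := by linarith
  rcases mul_eq_zero.1 h2 with h3 | h3
  · exact absurd (sub_eq_zero.1 h3) h
  · exact h3

theorem inner_sum_eig {T : V →ₗ[ℝ] V} (hT : T.IsSymmetric) (S : Finset ℝ) {v w : ℝ → V}
    (hv : ∀ μ, T (v μ) = μ • v μ) (hw : ∀ μ, T (w μ) = μ • w μ) :
    ⟪∑ μ ∈ S, v μ, ∑ μ ∈ S, w μ⟫_ℝ = ∑ μ ∈ S, ⟪v μ, w μ⟫_ℝ := by
  rw [sum_inner]
  refine sum_congr rfl fun μ hμ => ?_
  rw [inner_sum, sum_eq_single μ]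
  · intro ν _ hν; exact inner_eig_zero hT (hv μ) (hw ν) (Ne.symm hν)
  · intro h; exact absurd hμ h

theorem norm_sq_sum_eig {T : V →ₗ[ℝ] V} (hT : T.IsSymmetric) (S : Finset ℝ) {v : ℝ → V}
    (hv : ∀ μ, T (v μ) = μ • v μ) : ‖∑ μ ∈ S, v μ‖ ^ 2 = ∑ μ ∈ S, ‖v μ‖ ^ 2 := by
  rw [← real_inner_self_eq_norm_sq, inner_sum_eig hT S hv hv]
  exact sum_congr rfl fun μ _ => real_inner_self_eq_norm_sq _

variable [FiniteDimensional ℝ V]

/-- decomposition into eigenvectors inside an invariant subspace -/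
theorem dec {T : V →ₗ[ℝ] V} (hT : T.IsSymmetric) (U : Submodule ℝ V) (hU : ∀ u ∈ U, T u ∈ U)
    {h : V} (hh : h ∈ U) :
    ∃ (S : Finset ℝ) (v : ℝ → V), (∀ μ, v μ ∈ U) ∧ (∀ μ, T (v μ) = μ • v μ) ∧
      h = ∑ μ ∈ S, v μ := by
  classical
  have hT' : (T.restrict hU).IsSymmetric := hT.restrict_invariant hU
  set b := hT'.eigenvectorBasis (n := Module.finrank ℝ U) rfl with hb
  set lamb := hT'.eigenvalues (n := Module.finrank ℝ U) rfl with hl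
  have hbe : ∀ i, T (b i : V) = lamb i • (b i : V) := by
    intro i
    have := hT'.apply_eigenvectorBasis (n := Module.finrank ℝ U) rfl i
    have h2 := congrArg Subtype.val this
    simpa [LinearMap.restrict_apply] using h2
  refine ⟨univ.image lamb, fun μ => ∑ i ∈ univ.filter (fun i => lamb i = μ),
    (b.repr ⟨h, hh⟩ i) • (b i : V), fun μ => ?_, fun μ => ?_, ?_⟩
  · exact U.sum_mem fun i _ => U.smul_mem _ (b i).2
  · rw [map_sum, smul_sum]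
    refine sum_congr rfl fun i hi => ?_
    rw [map_smul, hbe, (mem_filter.1 hi).2, smul_comm]
  · rw [sum_fiberwise_of_maps_to (fun i _ => mem_image_of_mem lamb (mem_univ i))]
    have := congrArg Subtype.val (b.sum_repr ⟨h, hh⟩)
    simpa using this.symm

theorem norm_le_of_eig {T : V →ₗ[ℝ] V} (hT : T.IsSymmetric) (U : Submodule ℝ V)
    (hU : ∀ u ∈ U, T u ∈ U) (A : V →ₗ[ℝ] V) (hA : ∀ v, T (A v) = A (T v)) (θ : ℝ)
    (h : ∀ μ : ℝ, ∀ v ∈ U, T v = μ • v → ‖A v‖ ^ 2 ≤ θ * ‖v‖ ^ 2) :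
    ∀ u ∈ U, ‖A u‖ ^ 2 ≤ θ * ‖u‖ ^ 2 := by
  intro u hu
  obtain ⟨S, v, h1, h2, rfl⟩ := dec hT U hU hu
  rw [map_sum, norm_sq_sum_eig hT S (v := fun μ => A (v μ))
    (fun μ => by rw [hA, h2, map_smul]), norm_sq_sum_eig hT S h2, mul_sum]
  exact sum_le_sum fun μ _ => h μ _ (h1 μ) (h2 μ)

theorem inner_ge_of_eig {T : V →ₗ[ℝ] V} (hT : T.IsSymmetric) (U : Submodule ℝ V)
    (hU : ∀ u ∈ U, T u ∈ U) (c : ℝ)
    (h : ∀ μ : ℝ, ∀ v ∈ U, v ≠ 0 → T v = μ • v → c ≤ μ) :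
    ∀ u ∈ U, c * ‖u‖ ^ 2 ≤ ⟪u, T u⟫_ℝ := by
  intro u hu
  obtain ⟨S, v, h1, h2, rfl⟩ := dec hT U hU hu
  rw [map_sum, inner_sum_eig hT S h2 (w := fun μ => T (v μ))
    (fun μ => by rw [h2, map_smul, h2]), norm_sq_sum_eig hT S h2, mul_sum]
  refine sum_le_sum fun μ _ => ?_
  rw [h2, real_inner_smul_right, real_inner_self_eq_norm_sq]
  by_cases hv : v μ = 0
  · simp [hv]
  · exact mul_le_mul_of_nonneg_right (h μ _ (h1 μ) hv (h2 μ)) (sq_nonneg _)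

theorem inner_le_of_eig {T : V →ₗ[ℝ] V} (hT : T.IsSymmetric) (U : Submodule ℝ V)
    (hU : ∀ u ∈ U, T u ∈ U) (c : ℝ)
    (h : ∀ μ : ℝ, ∀ v ∈ U, v ≠ 0 → T v = μ • v → μ ≤ c) :
    ∀ u ∈ U, ⟪u, T u⟫_ℝ ≤ c * ‖u‖ ^ 2 := by
  intro u hu
  obtain ⟨S, v, h1, h2, rfl⟩ := dec hT U hU hu
  rw [map_sum, inner_sum_eig hT S h2 (w := fun μ => T (v μ))
    (fun μ => by rw [h2, map_smul, h2]), norm_sq_sum_eig hT S h2, mul_sum]
  refine sum_le_sum fun μ _ => ?_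
  rw [h2, real_inner_smul_right, real_inner_self_eq_norm_sq]
  by_cases hv : v μ = 0
  · simp [hv]
  · exact mul_le_mul_of_nonneg_right (h μ _ (h1 μ) hv (h2 μ)) (sq_nonneg _)

/-- the spectral subspace `T ≤ c` -/
def Fil (T : V →ₗ[ℝ] V) (c : ℝ) (h : V) : Prop :=
  ∀ (μ : ℝ) (w : V), c < μ → T w = μ • w → ⟪w, h⟫_ℝ = 0

theorem fil_bound {T : V →ₗ[ℝ] V} (hT : T.IsSymmetric) (hpos : ∀ v, 0 ≤ ⟪v, T v⟫_ℝ) {c : ℝ} {h : V}
    (hh : Fil T c h) (α β C : ℝ) (hC : ∀ μ, 0 ≤ μ → μ ≤ c → α * μ ^ 2 + β * μ ≤ C) :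
    α * ‖T h‖ ^ 2 + β * ⟪h, T h⟫_ℝ ≤ C * ‖h‖ ^ 2 := by
  obtain ⟨S, v, -, h2, h3⟩ := dec hT ⊤ (fun _ _ => Submodule.mem_top) (h := h) Submodule.mem_top
  have hTv : ∀ μ, T (T (v μ)) = μ • T (v μ) := fun μ => by rw [h2, map_smul, h2]
  have e1 : ‖T h‖ ^ 2 = ∑ μ ∈ S, μ ^ 2 * ‖v μ‖ ^ 2 := by
    rw [h3, map_sum, norm_sq_sum_eig hT S hTv]
    refine sum_congr rfl fun μ _ => ?_
    rw [h2, norm_smul, mul_pow, Real.norm_eq_abs, sq_abs]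
  have e2 : ⟪h, T h⟫_ℝ = ∑ μ ∈ S, μ * ‖v μ‖ ^ 2 := by
    rw [h3, map_sum, inner_sum_eig hT S h2 hTv]
    refine sum_congr rfl fun μ _ => ?_
    rw [h2, real_inner_smul_right, real_inner_self_eq_norm_sq]
  have e3 : ‖h‖ ^ 2 = ∑ μ ∈ S, ‖v μ‖ ^ 2 := by rw [h3, norm_sq_sum_eig hT S h2]
  rw [e1, e2, e3, mul_sum, mul_sum, mul_sum, ← sum_add_distrib]
  refine sum_le_sum fun μ hμ => ?_
  by_cases hv : v μ = 0
  · simp [hv]
  have hn : 0 < ‖v μ‖ ^ 2 := by positivity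
  have h0 : 0 ≤ μ := by
    have := hpos (v μ)
    rw [h2, real_inner_smul_right, real_inner_self_eq_norm_sq] at this
    exact nonneg_of_mul_nonneg_left this hn
  have hc : μ ≤ c := by
    by_contra hlt
    have := hh μ (v μ) (not_le.1 hlt) (h2 μ)
    rw [h3, inner_sum, sum_eq_single μ] at this
    · rw [real_inner_self_eq_norm_sq] at this; exact hn.ne' this
    · intro ν _ hν; exact inner_eig_zero hT (h2 μ) (h2 ν) (Ne.symm hν)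
    · intro h; exact absurd hμ h
  have := mul_le_mul_of_nonneg_right (hC μ h0 hc) hn.le
  linarith

end Crest.Agent.H0222
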