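import Crest.Agent.H0222.Jobs

/-! Trace inequalities (job D). -/

set_option autoImplicit false
set_option linter.unusedSectionVars false

namespace Crest.Agent.H0222.Dx

open Finset Matrix
open scoped InnerProductSpace

section mat
variable {X I : Type} [Fintype X] [DecidableEq X] [Fintype I] [DecidableEq I]

theorem tr_mul_transpose (A : Matrix X I ℝ) : (A * Aᵀ).trace = ∑ x, ∑ y, A x y ^ 2 := by
  simp [trace, Matrix.mul_apply, sq]

theorem trace_le (K : Matrix X X ℝ) (hK : K.IsSymm) (S : Matrix I I ℝ) (D : Matrix X I ℝ)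
    (h : K * D = D * S) (hD : ∀ v, D *ᵥ v = 0 → v = 0) (m : ℕ) :
    (S ^ (2 * m)).trace ≤ (K ^ (2 * m)).trace := by
  have hG : IsUnit (Dᵀ * D) := by
    rw [← mulVec_injective_iff_isUnit]
    refine (injective_iff_map_eq_zero (Dᵀ * D).mulVecLin).2 fun v hv => hD v ?_
    rw [← dotProduct_self_eq_zero, dotProduct_mulVec, ← mulVec_transpose, mulVec_mulVec]
    rw [show (Dᵀ * D) *ᵥ v = 0 from hv, zero_dotProduct]
  have h1 : (Dᵀ * D)⁻¹ * (Dᵀ * D) = 1 := nonsing_inv_mul _ ((isUnit_iff_isUnit_det _).1 hG)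
  set G := (Dᵀ * D)⁻¹ with hGdef
  have hGt : Gᵀ = G := by rw [hGdef, transpose_nonsing_inv, transpose_mul, transpose_transpose]
  have h2 : ∀ n, K ^ n * D = D * S ^ n := by
    intro n
    induction n with
    | zero => simp
    | succ n ih => rw [pow_succ, Matrix.mul_assoc, h, ← Matrix.mul_assoc, ih, Matrix.mul_assoc,
        ← pow_succ]
  set P := D * G * Dᵀ with hP
  have hPt : Pᵀ = P := by
    rw [hP, transpose_mul, transpose_mul, transpose_transpose, hGt, Matrix.mul_assoc]
  have hPP : P * P = P := by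
    calc P * P = D * (G * (Dᵀ * D)) * G * Dᵀ := by simp only [hP, Matrix.mul_assoc]
      _ = P := by rw [h1, Matrix.mul_one]
  have h3 : (K ^ (2 * m) * P).trace = (S ^ (2 * m)).trace := by
    rw [hP, ← Matrix.mul_assoc, ← Matrix.mul_assoc, h2, trace_mul_comm, ← Matrix.mul_assoc,
      trace_mul_comm, ← Matrix.mul_assoc, ← Matrix.mul_assoc, Matrix.mul_assoc G, h1,
      Matrix.one_mul]
  have h4 : (K ^ m * (1 - P) * (K ^ m * (1 - P))ᵀ).trace = (K ^ (2 * m) * (1 - P)).trace := by
    rw [transpose_mul, transpose_pow, hK.eq, transpose_sub, transpose_one, hPt,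
      ← Matrix.mul_assoc, trace_mul_comm, Matrix.mul_assoc (K ^ m) (1 - P), ← Matrix.mul_assoc,
      ← pow_add, two_mul]
    congr 2
    rw [sub_mul, mul_sub, mul_sub, hPP]
    simp
  rw [tr_mul_transpose, mul_sub (K ^ (2 * m)), trace_sub, h3, mul_one] at h4
  have h5 : 0 ≤ ∑ x, ∑ y, (K ^ m * (1 - P)) x y ^ 2 := by positivity
  linarith

theorem tr_pow_comm (A B : Matrix X X ℝ) (n : ℕ) : ((A * B) ^ n).trace = ((B * A) ^ n).trace := by
  cases n with
  | zero => simp
  | succ n => rw [pow_succ, ← mul_assoc, mul_pow_mul, trace_mul_comm, ← mul_assoc, ← pow_succ']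

theorem chess : ∀ (j : ℕ) (A B : Matrix X X ℝ), ((A * B) ^ 2 ^ j).trace ≤
    (((A * Aᵀ) ^ 2 ^ j).trace + ((B * Bᵀ) ^ 2 ^ j).trace) / 2 ∧
    ((A * B * (A * B)ᵀ) ^ 2 ^ j).trace ≤
      (((A * Aᵀ) ^ 2 ^ (j + 1)).trace + ((B * Bᵀ) ^ 2 ^ (j + 1)).trace) / 2 := by
  have key : ∀ j : ℕ, (∀ A B : Matrix X X ℝ, ((A * B) ^ 2 ^ j).trace ≤
      (((A * Aᵀ) ^ 2 ^ j).trace + ((B * Bᵀ) ^ 2 ^ j).trace) / 2) → ∀ A B : Matrix X X ℝ,
      ((A * B * (A * B)ᵀ) ^ 2 ^ j).trace ≤
        (((A * Aᵀ) ^ 2 ^ (j + 1)).trace + ((B * Bᵀ) ^ 2 ^ (j + 1)).trace) / 2 := fun j h A B => by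
    have h1 := h (Aᵀ * A) (B * Bᵀ)
    rw [transpose_mul, transpose_mul, transpose_transpose, transpose_transpose, ← sq, ← sq,
      ← pow_mul, ← pow_mul, ← pow_succ', tr_pow_comm Aᵀ A] at h1
    rwa [transpose_mul, mul_assoc, ← mul_assoc B, tr_pow_comm, mul_assoc, tr_pow_comm]
  intro j
  induction j with
  | zero =>
    have : ∀ A B : Matrix X X ℝ, ((A * B) ^ 2 ^ 0).trace ≤
        (((A * Aᵀ) ^ 2 ^ 0).trace + ((B * Bᵀ) ^ 2 ^ 0).trace) / 2 := fun A B => by
      simp only [pow_zero, pow_one, tr_mul_transpose]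
      rw [sum_comm (f := fun x y => B x y ^ 2), ← sum_add_distrib, sum_div, trace]
      refine sum_le_sum fun x _ => ?_
      rw [← sum_add_distrib, sum_div, diag_apply, Matrix.mul_apply]
      exact sum_le_sum fun y _ => by nlinarith [sq_nonneg (A x y - B y x)]
    exact fun A B => ⟨this A B, key 0 this A B⟩
  | succ j ih =>
    have : ∀ A B : Matrix X X ℝ, ((A * B) ^ 2 ^ (j + 1)).trace ≤
        (((A * Aᵀ) ^ 2 ^ (j + 1)).trace + ((B * Bᵀ) ^ 2 ^ (j + 1)).trace) / 2 := fun A B => by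
      have h1 := (ih (A * B) (A * B)).1
      have h2 := (ih A B).2
      rw [← sq, ← pow_mul, ← pow_succ'] at h1
      linarith
    exact fun A B => ⟨this A B, key _ this A B⟩

theorem chess_pow (A : Matrix X X ℝ) : ∀ i j : ℕ,
    ((A ^ 2 ^ i * (A ^ 2 ^ i)ᵀ) ^ 2 ^ j).trace ≤ ((A * Aᵀ) ^ 2 ^ (i + j)).trace := by
  intro i
  induction i with
  | zero => intro j; simp
  | succ i ih =>
    intro j
    have h1 := (chess j (A ^ 2 ^ i) (A ^ 2 ^ i)).2
    have h2 := ih (j + 1)
    rw [← sq, ← pow_mul, ← pow_succ] at h1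
    rw [show i + 1 + j = i + (j + 1) by ring]
    linarith

theorem amgm (r : ℕ) (hr : 0 < r) (c : ℕ → ℝ) (hc : ∀ i, 0 ≤ c i) :
    ∏ i ∈ range r, c i ≤ ∑ i ∈ range r, (r : ℝ)⁻¹ * c i ^ r := by
  have := Real.geom_mean_le_arith_mean_weighted (range r) (fun _ => (r : ℝ)⁻¹) (fun i => c i ^ r)
    (fun _ _ => by positivity) (by simp; field_simp) (fun i _ => pow_nonneg (hc i) _)
  simpa only [Real.pow_rpow_inv_natCast (hc _) hr.ne'] using this

/-- products with one factor replaced by the all-ones matrix -/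
def Pr (M : Matrix X X ℝ) (i : ℕ) : ℕ → Matrix X X ℝ
  | 0 => 1
  | n + 1 => Pr M i n * (if n = i then Matrix.of fun _ _ => 1 else M)

theorem Pr_le (M : Matrix X X ℝ) (i : ℕ) : ∀ n, n ≤ i → Pr M i n = M ^ n := by
  intro n
  induction n with
  | zero => intro _; simp [Pr]
  | succ n ih => intro h; rw [Pr, ih (by omega), if_neg (by omega), pow_succ]

theorem Pr_gt (M : Matrix X X ℝ) (i : ℕ) : ∀ n, Pr M i (i + 1 + n)
    = M ^ i * (Matrix.of fun _ _ => 1) * M ^ n := by
  intro n
  induction n with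
  | zero => rw [add_zero, Pr, Pr_le M i i le_rfl, if_pos rfl, pow_zero, mul_one]
  | succ n ih => rw [← add_assoc, Pr, ih, if_neg (by omega), pow_succ, mul_assoc]

theorem path (L : Matrix X X ℝ) (hL : ∀ x y, 0 ≤ L x y) (r : ℕ) : ∀ n, n ≤ r + 1 →
    ∀ (c : ℕ → ℝ), (∀ i, 0 ≤ c i) → ∀ x y, (∏ i ∈ range (r + 1), c i) *
      ((Matrix.of fun x y => L x y ^ r) ^ n) x y ≤ ∑ i ∈ range (r + 1), ((r + 1 : ℕ) : ℝ)⁻¹ *
        c i ^ (r + 1) * Pr (Matrix.of fun x y => L x y ^ (r + 1)) i n x y := by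
  intro n
  induction n with
  | zero =>
    intro _ c hc x y
    simp only [pow_zero, Pr, ← sum_mul]
    exact mul_le_mul_of_nonneg_right (amgm _ (by omega) c hc) (by
      rw [Matrix.one_apply]; split_ifs <;> norm_num)
  | succ n ih =>
    intro hn c hc x y
    simp only [pow_succ (Matrix.of _), Pr, Matrix.mul_apply, mul_sum]
    rw [sum_comm]
    refine sum_le_sum fun z _ => ?_
    have h1 := ih (by omega) (fun i => c i * if n = i then 1 else L z y)
      (fun i => mul_nonneg (hc i) (by split_ifs; exacts [zero_le_one, hL _ _])) x z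
    have h2 : ∏ i ∈ range (r + 1), (if n = i then 1 else L z y) = L z y ^ r := by
      rw [← mul_prod_erase _ _ (mem_range.2 (show n < r + 1 by omega)), if_pos rfl, one_mul,
        prod_congr rfl (g := fun _ => L z y) fun i hi => if_neg (ne_of_mem_erase hi).symm,
        prod_const, card_erase_of_mem (mem_range.2 (by omega)), card_range, Nat.add_sub_cancel]
    rw [prod_mul_distrib, h2] at h1
    refine le_trans (le_of_eq ?_) (h1.trans (le_of_eq (sum_congr rfl fun i _ => ?_)))
    · rw [of_apply]; ring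
    · split_ifs <;> simp only [of_apply] <;> ring

theorem walks (M : Matrix X X ℝ) (hM : M.IsSymm) (h0 : ∀ x y, 0 ≤ M x y) : ∀ t c : ℕ,
    ∑ x, ∑ y, (∑ z, M x z) ^ c * (M ^ t) x y ≤ ∑ x, (∑ z, M x z) ^ (c + t) := by
  have hp : ∀ t x y, 0 ≤ (M ^ t) x y := by
    intro t
    induction t with
    | zero => intro x y; rw [pow_zero, Matrix.one_apply]; split_ifs <;> norm_num
    | succ t ih =>
      intro x y
      rw [pow_succ, Matrix.mul_apply]
      exact sum_nonneg fun z _ => mul_nonneg (ih _ _) (h0 _ _)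
  intro t
  induction t with
  | zero => intro c; simp [Matrix.one_apply]
  | succ t ih =>
    intro c
    have h1 := ih (c + 1)
    rw [show c + (t + 1) = c + 1 + t by ring]
    refine le_trans ?_ h1
    set D : X → ℝ := fun x => ∑ z, M x z with hD
    have D0 : ∀ x, 0 ≤ D x := fun x => sum_nonneg fun z _ => h0 _ _
    have hs : ∀ x y, (M ^ t) y x = (M ^ t) x y := fun x y => (hM.pow t).apply x y
    have h2 : ∑ x, ∑ y, D x ^ c * (M ^ (t + 1)) x y = ∑ x, ∑ y, D x ^ c * D y * (M ^ t) x y := by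
      refine sum_congr rfl fun x _ => ?_
      simp only [pow_succ M, Matrix.mul_apply, mul_sum, hD, sum_mul]
      rw [sum_comm]
      exact sum_congr rfl fun _ _ => sum_congr rfl fun _ _ => by ring
    have h3 : ∑ x, ∑ y, D x ^ c * D y * (M ^ t) x y = ∑ x, ∑ y, D y ^ c * D x * (M ^ t) x y := by
      rw [sum_comm]; simp only [hs]
    have h4 : ∑ x, ∑ y, D x ^ (c + 1) * (M ^ t) x y = ∑ x, ∑ y, D y ^ (c + 1) * (M ^ t) x y := by
      rw [sum_comm]; simp only [hs]
    have h5 : ∑ x, ∑ y, D x ^ c * D y * (M ^ t) x y + ∑ x, ∑ y, D y ^ c * D x * (M ^ t) x y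
        ≤ ∑ x, ∑ y, D x ^ (c + 1) * (M ^ t) x y + ∑ x, ∑ y, D y ^ (c + 1) * (M ^ t) x y := by
      simp only [← sum_add_distrib, ← add_mul]
      refine sum_le_sum fun x _ => sum_le_sum fun y _ => mul_le_mul_of_nonneg_right ?_ (hp _ _ _)
      rw [pow_succ, pow_succ]
      rcases le_total (D x) (D y) with h | h
      · nlinarith [pow_le_pow_left₀ (D0 x) h c]
      · nlinarith [pow_le_pow_left₀ (D0 y) h c]
    rw [h2]
    linarith

end mat

section hs
variable {E : Type} [NormedAddCommGroup E] [InnerProductSpace ℝ E] [FiniteDimensional ℝ E]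

theorem hs_eq (S : E →ₗ[ℝ] E) (U : Submodule ℝ E) {κ : Type} [Fintype κ]
    (e : OrthonormalBasis κ ℝ E) :
    hs S U = ∑ k, ‖U.starProjection (LinearMap.adjoint S (e k))‖ ^ 2 := by
  simp only [hs, ← e.sum_sq_inner_right (S _)]
  rw [sum_comm]
  refine sum_congr rfl fun k _ => ?_
  rw [Submodule.starProjection_apply, ← Submodule.coe_norm,
    ← (stdOrthonormalBasis ℝ U).sum_sq_inner_right]
  refine sum_congr rfl fun i _ => ?_
  rw [Submodule.inner_orthogonalProjectionOnto_eq_of_mem_left, LinearMap.adjoint_inner_right,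
    real_inner_comm]

theorem hs_eq' (S : E →ₗ[ℝ] E) (U : Submodule ℝ E) {κ : Type} [Fintype κ]
    (e : OrthonormalBasis κ ℝ E) : hs S U = ∑ k, ‖S (U.starProjection (e k))‖ ^ 2 := by
  rw [hs_eq S U e]
  simp only [← e.sum_sq_inner_right]
  rw [sum_comm]
  refine sum_congr rfl fun k _ => sum_congr rfl fun i _ => ?_
  rw [← Submodule.inner_starProjection_left_eq_right, LinearMap.adjoint_inner_right,
    real_inner_comm]

end hs

end Crest.Agent.H0222.Dx

namespace Crest.Agent.H0222

open Finset Dx Matrix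
open scoped InnerProductSpace

theorem t1 : T1 := by
  intro E _ _ _ A W θ T J _ X _ _ K D hA hA' hθ hn hT hK hD hinj
  classical
  have h1 : ∀ n, ∀ w ∈ W, (A ^ n) w ∈ W ∧ ‖(A ^ n) w‖ ^ 2 ≤ θ ^ n * ‖w‖ ^ 2 := by
    intro n
    induction n with
    | zero => intro w hw; simpa using hw
    | succ n ih =>
      intro w hw
      rw [pow_succ', Module.End.mul_apply, pow_succ' θ, mul_assoc]
      exact ⟨hA _ (ih w hw).1, (hn _ (ih w hw).1).trans
        (mul_le_mul_of_nonneg_left (ih w hw).2 hθ)⟩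
  have h2 : ∀ n ≤ T, hs (A ^ T) W ≤ θ ^ (T - n) * hs (A ^ n) W := fun n hT => by
    rw [hs, hs, mul_sum]
    refine sum_le_sum fun i _ => ?_
    have := (h1 (T - n) _ (h1 n _ (stdOrthonormalBasis ℝ W i).2).1).2
    rwa [← Module.End.mul_apply, ← pow_add, Nat.sub_add_cancel hT] at this
  refine (h2 128 hT).trans (mul_le_mul_of_nonneg_left ?_ (pow_nonneg hθ _))
  let b := stdOrthonormalBasis ℝ W
  let B : W →ₗ[ℝ] W := A.restrict hA
  let M := LinearMap.toMatrixOrthonormal b B
  have hB : ∀ w, (LinearMap.adjoint B w : E) = LinearMap.adjoint A w := fun w => by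
    have : (LinearMap.adjoint A).restrict hA' = LinearMap.adjoint B :=
      (LinearMap.eq_adjoint_iff _ _).2 fun x y => LinearMap.adjoint_inner_left A (y : E) (x : E)
    rw [← this]
    rfl
  have h3 : ∀ n, hs (A ^ n) W = ((M ^ n) * (M ^ n)ᵀ).trace := fun n => by
    rw [tr_mul_transpose, sum_comm, hs]
    refine sum_congr rfl fun i _ => ?_
    have : ((B ^ n) (b i) : E) = (A ^ n) (b i) := by
      rw [Module.End.pow_restrict]; rfl
    rw [← this, ← Submodule.coe_norm, ← b.sum_sq_inner_right, ← map_pow]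
    simp only [LinearMap.toMatrixOrthonormal_apply_apply]
  have h4 := chess_pow M 7 0
  norm_num at h4
  rw [tr_pow_comm, ← transpose_pow] at h4
  let D' : Matrix (Σ j, X j) (Fin (Module.finrank ℝ W)) ℝ := fun x i => D x.1 (b i) x.2
  have hD' : ∀ (v : Fin (Module.finrank ℝ W) → ℝ) j x,
      (D' *ᵥ v) ⟨j, x⟩ = D j (∑ i, v i • (b i : E)) x := fun v j x => by
    simp [D', mulVec, dotProduct, mul_comm, Finset.sum_apply]
  have h5 := trace_le (blockDiagonal' K) (by
      rw [IsSymm, blockDiagonal'_transpose]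
      exact congrArg _ (funext fun j => (hK j).eq)) (Mᵀ * M) D' (by
      ext ⟨j, x⟩ i
      have e1 : Mᵀ * M = LinearMap.toMatrixOrthonormal b (LinearMap.adjoint B * B) := by
        rw [map_mul, ← LinearMap.star_eq_adjoint, map_star]
        rfl
      have e2 : ∑ i', (Mᵀ * M) i' i • (b i' : E) = LinearMap.adjoint A (A (b i)) := by
        have := congrArg Subtype.val (b.sum_repr' (LinearMap.adjoint B (B (b i))))
        rw [hB] at this
        rw [e1]
        refine Eq.trans ?_ this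
        simp [LinearMap.toMatrixOrthonormal_apply_apply]
      have e3 := hD' (fun i' => (Mᵀ * M) i' i) j x
      rw [e2, hD j _ (b i).2] at e3
      refine Eq.trans ?_ e3.symm
      rw [Matrix.mul_apply, Fintype.sum_sigma, sum_eq_single j]
      · simp [D', mulVec, dotProduct]
      · intro j' _ hj
        simp [blockDiagonal'_apply_ne _ _ _ hj.symm]
      · simp) (fun v hv => by
      have e1 := hinj _ (W.sum_mem fun i _ => W.smul_mem (v i) (b i).2) fun j =>
        funext fun x => (hD' v j x).symm.trans (congrFun hv ⟨j, x⟩)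
      have e2 : ∑ i, v i • b i = 0 := Subtype.ext (by simpa using e1)
      exact funext (Fintype.linearIndependent_iff.1 b.orthonormal.linearIndependent v e2)) 64
  rw [← blockDiagonal'_pow, trace_blockDiagonal'] at h5
  rw [h3]
  exact h4.trans h5

theorem t2 : T2 := by
  intro X _ _ K I _ v μ hK hv h
  classical
  have := trace_le K hK (μ • (1 : Matrix I I ℝ)) (Matrix.of fun x i => v i x) (by
      ext x i
      simpa [Matrix.mul_apply, mulVec, dotProduct, Matrix.one_apply, mul_comm] using congrFun (h i) x)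
    (fun c hc => funext (Fintype.linearIndependent_iff.1 hv c (funext fun x => by
      simpa [mulVec, dotProduct, mul_comm, Finset.sum_apply] using congrFun hc x))) 64
  rw [smul_pow, one_pow, trace_smul, trace_one, smul_eq_mul, mul_comm] at this
  exact this

theorem t3 : T3 := by
  intro X _ _ K hK h0
  let L : Matrix X X ℝ := fun x y => K x y ^ ((127 : ℕ) : ℝ)⁻¹
  have L0 : ∀ x y, 0 ≤ L x y := fun x y => Real.rpow_nonneg (h0 x y) _
  have h1 : (Matrix.of fun x y => L x y ^ 127) = K := by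
    ext x y
    exact Real.rpow_inv_natCast_pow (h0 x y) (by norm_num)
  have h2 : ∀ x y, L x y ^ (127 + 1) = K x y ^ (128 / 127 : ℝ) := fun x y => by
    rw [← Real.rpow_natCast, ← Real.rpow_mul (h0 x y)]
    norm_num
  have h3 := path L L0 127 128 le_rfl (fun _ => 1) (fun _ => zero_le_one)
  simp only [h1, h2, prod_const_one, one_mul, one_pow, mul_one] at h3
  set M : Matrix X X ℝ := Matrix.of fun x y => K x y ^ (128 / 127 : ℝ)
  have h4 := walks M (by ext x y; simp [M, hK.apply]) (fun x y => Real.rpow_nonneg (h0 x y) _) 127 0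
  simp only [pow_zero, one_mul, zero_add] at h4
  refine le_trans ?_ h4
  refine (sum_le_sum fun x _ => h3 x x).trans (le_of_eq ?_)
  rw [sum_comm, sum_congr rfl (g := fun _ => ((127 + 1 : ℕ) : ℝ)⁻¹ * ∑ x, ∑ y, (M ^ 127) x y)]
  · rw [sum_const, card_range, nsmul_eq_mul, mul_inv_cancel_left₀ (by norm_num)]
  intro i hi
  rw [← mul_sum]
  congr 1
  have := mem_range.1 hi
  have h5 := congrArg trace (Pr_gt M i (127 - i))
  rw [show i + 1 + (127 - i) = 128 by omega, trace_mul_comm, ← mul_assoc, ← pow_add,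
    show 127 - i + i = 127 by omega] at h5
  simpa [trace, Matrix.mul_apply] using h5

theorem t4 : T4 := by
  intro E _ _ _ S U U' h
  simp only [hs_eq _ _ (stdOrthonormalBasis ℝ E), ← sum_add_distrib]
  refine sum_congr rfl fun k _ => ?_
  generalize LinearMap.adjoint S _ = v
  have h1 : ∀ w ∈ U', ⟪w, U.starProjection v - U'.starProjection v⟫_ℝ = 0 := fun w hw => by
    have a1 := Submodule.starProjection_inner_eq_zero v w (h hw)
    have a2 := Submodule.starProjection_inner_eq_zero v w hw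
    rw [real_inner_comm]
    rw [inner_sub_left] at a1 a2 ⊢
    linarith
  have h2 : (U ⊓ U'ᗮ).starProjection v = U.starProjection v - U'.starProjection v := by
    refine Submodule.eq_starProjection_of_mem_of_inner_eq_zero ⟨U.sub_mem
      (U.starProjection_apply_mem v) (h (U'.starProjection_apply_mem v)), h1⟩ fun w hw => ?_
    have a1 := Submodule.starProjection_inner_eq_zero v w hw.1
    have a2 := hw.2 _ (U'.starProjection_apply_mem v)
    simp only [inner_sub_left] at a1 ⊢
    linarith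
  rw [h2, sq, sq, sq, ← norm_add_sq_eq_norm_sq_add_norm_sq_real
    (h1 _ (U'.starProjection_apply_mem v)), add_sub_cancel]

theorem t5 : T5 := by
  intro P _ _ S U hU hS h1
  set c : ℝ := 1 / (Fintype.card (Equiv.Perm P) : ℝ) with hc
  set o : LG P := WithLp.toLp 2 fun _ => (1 : ℝ) with ho
  have h2 : ∀ π : Equiv.Perm P, U.starProjection (EuclideanSpace.single π (1 : ℝ))
      = rho P π⁻¹ (EuclideanSpace.single 1 (1 : ℝ) - c • o) := fun π => by
    have : rho P π⁻¹ (EuclideanSpace.single 1 (1 : ℝ) - c • o)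
        = EuclideanSpace.single π (1 : ℝ) - c • o := by
      ext σ
      simp [rho_apply, ho, mul_inv_eq_one]
    rw [this]
    refine Submodule.eq_starProjection_of_mem_of_inner_eq_zero ((hU _).2 ?_) fun w hw => ?_
    · simp [ho, hc]
    · simp [ho, PiLp.inner_apply, ← sum_mul, (hU w).1 hw]
  have h3 : ∀ (g : Equiv.Perm P) (u : LG P), ‖rho P g u‖ ^ 2 = ∑ π, |u π| ^ 2 := fun g u => by
    rw [EuclideanSpace.norm_sq_eq]
    exact Equiv.sum_comp (Equiv.mulRight g) fun π => |u π| ^ 2
  rw [hs_eq' S U (EuclideanSpace.basisFun _ ℝ)]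
  simp only [EuclideanSpace.basisFun_apply, h2, hS, h3]
  simp only [map_sub, map_smul, h1]
  refine Real.le_sqrt_of_sq_le (sq_sum_le_card_mul_sum_sq.trans (le_of_eq ?_))
  simp [ho, hc]

end Crest.Agent.H0222
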